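import Vale.Agent.P057.Bdl.B1

set_option linter.all false

open Finset

namespace Vale.Agent.P057.H57

variable {G : Type*} [AddCommGroup G] [Fintype G] [DecidableEq G]

theorem double_char (γ : AddChar G ℂ) (b : G) (h : ‖γ b - 1‖ ≤ 1/2) :
    3/2 * ‖γ b - 1‖ ≤ ‖γ (b + b) - 1‖ := by
  have h1 : γ (b + b) - 1 = (γ b - 1) * (γ b + 1) := by
    rw [AddChar.map_add_eq_mul]; ring
  rw [h1, norm_mul]
  have h2 : (2:ℝ) - ‖γ b - 1‖ ≤ ‖γ b + 1‖ := by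
    have h3 : γ b + 1 = 2 - (1 - γ b) := by ring
    have h4 := norm_sub_norm_le (2:ℂ) (1 - γ b)
    rw [norm_sub_rev 1 (γ b)] at h4
    rw [h3]
    have h5 : ‖(2:ℂ)‖ = 2 := by simp
    rw [h5] at h4
    exact h4
  have h6 := mul_le_mul_of_nonneg_left h2 (norm_nonneg (γ b - 1))
  nlinarith only [h6, h, norm_nonneg (γ b - 1)]

theorem iter_char (γ : AddChar G ℂ) (j : ℕ) : ∀ b : G,
    (∀ i ≤ j, ‖γ ((2 ^ i) • b) - 1‖ ≤ 1/500) → ‖γ b - 1‖ ≤ (2/3) ^ j * (1/500) := by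
  induction j with
  | zero =>
    intro b h
    have := h 0 le_rfl
    simpa using this
  | succ j ih =>
    intro b h
    have h1 := ih (b + b) (by
      intro i hi
      have := h (i + 1) (by omega)
      have e : (2 ^ (i + 1)) • b = (2 ^ i) • (b + b) := by
        rw [pow_succ, mul_smul, two_nsmul]
      rwa [e] at this)
    have h2 := h 0 (by omega)
    rw [pow_zero, one_nsmul] at h2
    have h3 := double_char γ b (by linarith)
    rw [pow_succ]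
    linarith

theorem pow_smul_mem_bohr (Γ : Finset (AddChar G ℂ)) (j : ℕ) : ∀ (ρ : ℝ) (b : G),
    b ∈ bohr Γ ρ → (2 ^ j) • b ∈ bohr Γ (2 ^ j * ρ) := by
  induction j with
  | zero => intro ρ b hb; simpa using hb
  | succ j ih =>
    intro ρ b hb
    have h1 := ih (2 * ρ) (b + b) (by
      have := add_mem_bohr hb hb
      rwa [← two_mul] at this)
    have e : (2 ^ (j + 1)) • b = (2 ^ j) • (b + b) := by
      rw [pow_succ, mul_smul, two_nsmul]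
    rw [e]
    have e2 : (2:ℝ) ^ (j + 1) * ρ = 2 ^ j * (2 * ρ) := by ring
    rw [e2]
    exact h1

/-- from a dense set of almost periods to a Bohr set on which its large spectrum is trivial -/
theorem bohr_of_T (Γ' : Finset (AddChar G ℂ)) (D R Rm j : ℕ) (hR1 : 1 ≤ R) (hRm : R ≤ Rm)
    (hd : Γ'.card + R ≤ D) (T : Finset G) (ρ4 τ ε : ℝ) (hρ4 : 0 < ρ4) (hρ4le : ρ4 ≤ 2)
    (hreg4 : Regular Γ' D ρ4) (hTne : T.Nonempty) (hTB : T ⊆ bohr Γ' ρ4)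
    (hτ0 : 0 < τ) (hτ : τ * ((bohr Γ' ρ4).card : ℝ) ≤ (T.card : ℝ))
    (hR : 16 * Real.log (4 / τ) < R) (hj : (2/3 : ℝ) ^ j ≤ 400 * ε) :
    ∃ (Γ2 : Finset (AddChar G ℂ)) (ρ' : ℝ), Γ2.card ≤ Γ'.card + R ∧ 0 < ρ' ∧ ρ' ≤ 2 ∧
      ρ4 * (kap D)^2 / (4 * Rm * 2 ^ j) ≤ ρ' ∧ Regular Γ2 D ρ' ∧
      ∀ γ : AddChar G ℂ, (T.card : ℝ) / 2 ≤ ‖∑ x ∈ T, γ x‖ → ∀ b ∈ bohr Γ2 ρ', ‖γ b - 1‖ ≤ ε := by
  have hk0 := os_kap_pos D
  have hk1 := os_kap_le D
  have hR1r : (1:ℝ) ≤ Rm := by exact_mod_cast hR1.trans hRm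
  have hRpos : (0:ℝ) < Rm := by linarith only [hR1r]
  have hRR : (R:ℝ) ≤ Rm := by exact_mod_cast hRm
  have hR1' : (1:ℝ) ≤ R := by exact_mod_cast hR1
  obtain ⟨ρ5, h5a, h5b, hreg5⟩ := exists_regular Γ' D (by omega) (ρ := kap D * ρ4 / Rm) (by positivity)
  have hρ5 : 0 < ρ5 := lt_of_lt_of_le (by positivity) h5a
  have hRmρ5 : Rm * ρ5 ≤ kap D * ρ4 := by
    rw [le_div_iff₀ hRpos] at h5b
    rw [mul_comm]; exact h5b
  have hRρ5 : R * ρ5 ≤ kap D * ρ4 := le_trans (mul_le_mul_of_nonneg_right hRR hρ5.le) hRmρ5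
  have hD'card : ((bohr Γ' (ρ4 + R * ρ5)).card : ℝ) ≤ 2 * ((bohr Γ' ρ4).card : ℝ) :=
    os_card_narrow hρ4 hreg4 (by linarith only [hRρ5])
  obtain ⟨Λ, hΛcard, hΛ⟩ := local_chang T (bohr Γ' ρ4) (bohr Γ' (ρ4 + R * ρ5)) (bohr Γ' ρ5) R
    hTB hTne ⟨0, zero_mem_bohr Γ' hρ5.le⟩
    (by
      intro x hx e he
      exact sub_mem_bohr hx (os_sum_mem_bohr Γ' R ρ5 e he))
    hD'card τ hτ0 hτ hR
  classical
  have hΓ2card : (Γ' ∪ Λ).card ≤ Γ'.card + R := le_trans (Finset.card_union_le _ _) (by omega)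
  have h2j : (0:ℝ) < 2 ^ j := by positivity
  obtain ⟨ρ6, h6a, h6b, hreg6⟩ := exists_regular (Γ' ∪ Λ) D (by omega) (ρ := kap D * ρ5 / 2 ^ j)
    (by positivity)
  have hρ6 : 0 < ρ6 := lt_of_lt_of_le (by positivity) h6a
  have h6b' : 2 ^ j * ρ6 ≤ kap D * ρ5 := by
    rw [le_div_iff₀ h2j] at h6b
    linarith only [h6b]
  have hRρ6 : Rm * ρ6 ≤ (2/3) ^ j * (1/2000) := by
    have e1 : 2 ^ j * (Rm * ρ6) ≤ 1/2000 := by
      have e2 : Rm * (2 ^ j * ρ6) ≤ Rm * (kap D * ρ5) := mul_le_mul_of_nonneg_left h6b' hRpos.le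
      have e3 : Rm * (kap D * ρ5) = kap D * (Rm * ρ5) := by ring
      have e4 : kap D * (Rm * ρ5) ≤ kap D * (kap D * ρ4) := mul_le_mul_of_nonneg_left hRmρ5 hk0.le
      have e5 : kap D * ρ4 ≤ 1/80000 * 2 := mul_le_mul hk1 hρ4le hρ4.le (by norm_num)
      have e6 : kap D * (kap D * ρ4) ≤ 1/80000 * (1/80000 * 2) :=
        mul_le_mul hk1 e5 (by positivity) (by norm_num)
      linarith only [e2, e3, e4, e6]
    have e7 : (1:ℝ) / 2 ^ j ≤ (2/3) ^ j := by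
      rw [← one_div_pow]
      exact pow_le_pow_left₀ (by norm_num) (by norm_num) j
    have e8 : Rm * ρ6 = (1 / 2 ^ j) * (2 ^ j * (Rm * ρ6)) := by
      field_simp
    rw [e8]
    apply mul_le_mul e7 e1 (by positivity) (by positivity)
  refine ⟨Γ' ∪ Λ, ρ6, hΓ2card, hρ6, ?_, ?_, hreg6, ?_⟩
  · have e1 : ρ6 ≤ Rm * ρ6 := le_mul_of_one_le_left hρ6.le hR1r
    have e2 : (2/3 : ℝ) ^ j ≤ 1 := pow_le_one₀ (by norm_num) (by norm_num)
    linarith only [hRρ6, e1, e2]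
  · have e1 : kap D * (kap D * ρ4 / Rm / 2) / 2 ^ j / 2 ≤ kap D * ρ5 / 2 ^ j / 2 := by
      gcongr
    refine le_trans (le_of_eq ?_) (e1.trans h6a)
    field_simp
    ring
  · intro γ hγ b hb
    obtain ⟨χ, hχ, hle⟩ := hΛ γ hγ
    have hb' : b ∈ bohr Γ' ρ6 := by
      rw [bohr, Finset.mem_filter] at hb ⊢
      exact ⟨Finset.mem_univ _, fun g hg => hb.2 g (Finset.mem_union_left _ hg)⟩
    have hsum : ∑ lam ∈ Λ, ‖lam b - 1‖ ≤ Rm * ρ6 := by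
      rw [bohr, Finset.mem_filter] at hb
      calc ∑ lam ∈ Λ, ‖lam b - 1‖ ≤ ∑ lam ∈ Λ, ρ6 :=
            Finset.sum_le_sum fun lam hlam => hb.2 lam (Finset.mem_union_right _ hlam)
        _ = Λ.card * ρ6 := by rw [Finset.sum_const, nsmul_eq_mul]
        _ ≤ Rm * ρ6 := by
            apply mul_le_mul_of_nonneg_right _ hρ6.le
            exact_mod_cast hΛcard.trans hRm
    have hχb : ‖χ b - 1‖ ≤ (2/3) ^ j * (1/500) := by
      apply iter_char χ j b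
      intro i hi
      have h7 := pow_smul_mem_bohr Γ' i ρ6 b hb'
      have h8 : (2:ℝ) ^ i * ρ6 ≤ kap D * ρ5 := by
        refine le_trans ?_ h6b'
        apply mul_le_mul_of_nonneg_right _ hρ6.le
        exact pow_le_pow_right₀ (by norm_num) hi
      have h9 := large_char_on_regular hρ5 hreg5 χ hχ (bohr_mono Γ' h8 h7)
      linarith only [h9]
    have h10 := hle b
    have h11 : (0:ℝ) < (2/3) ^ j := by positivity
    linarith only [h10, hsum, hχb, hRρ6, hj, h11]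

end Vale.Agent.P057.H57
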