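import Vale.Agent.P057.R2.h57.KL

set_option linter.all false

open Finset

namespace Vale.Agent.P057.H57

variable {G : Type*} [AddCommGroup G] [Fintype G] [DecidableEq G]

/-- general change of measure inequality -/
theorem kl_prod_gen (Y T : Finset G) (hT : T.Nonempty) (φ : G → G → ℝ) (hφ : ∀ z z', 0 ≤ φ z z') :
    ∑ s ∈ T, ∑ y ∈ Y, ∑ y' ∈ Y,
        (cnt Y T (y - s) * cnt Y T (y' - s) / ((T.card : ℝ) * cnt Y (fib Y T (y - s)) (y' - s)))
          * φ (y - s) (y' - s)
      ≤ (∑ z, ∑ z', cnt Y T z * cnt Y T z' * φ z z') / T.card := by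
  have h1 : (0:ℝ) < T.card := by exact_mod_cast hT.card_pos
  have h3 := sum_cnt_fib Y T (fun z z' => cnt Y T z * cnt Y T z' /
      ((T.card : ℝ) * cnt Y (fib Y T z) z') * φ z z')
  rw [← h3, Finset.sum_div]
  refine Finset.sum_le_sum fun z _ => ?_
  rw [Finset.sum_div]
  refine Finset.sum_le_sum fun z' _ => ?_
  have d1 := cnt_nonneg Y T z
  have d2 := cnt_nonneg Y T z'
  have d3 := hφ z z'
  by_cases hc : cnt Y (fib Y T z) z' = 0
  · rw [hc, zero_mul]; (clear * - d1 d2 d3 h1; positivity)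
  · refine le_of_eq ?_
    generalize cnt Y (fib Y T z) z' = c at hc ⊢
    generalize cnt Y T z = c1
    generalize cnt Y T z' = c2
    generalize φ z z' = e0
    have h1' := h1.ne'
    (clear * - h1' hc; field_simp)

/-- partial relative entropy, restricted to `y' - s ∈ C` -/
noncomputable def klC (Y T C : Finset G) : ℝ :=
  ∑ s ∈ T, ∑ y ∈ Y, ∑ y' ∈ Y, ind C (y' - s) *
    Real.log ((T.card : ℝ) * cnt Y (fib Y T (y - s)) (y' - s) /
      (cnt Y T (y - s) * cnt Y T (y' - s)))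

/-- size of the class -/
noncomputable def nC (Y T C : Finset G) : ℝ := ∑ s ∈ T, ∑ y ∈ Y, ind C (y - s)

theorem ind01 (C : Finset G) (z : G) : ind C z = 0 ∨ ind C z = 1 := by
  unfold ind; split_ifs <;> simp

theorem nC_eq (Y T C : Finset G) : nC Y T C = ∑ z, cnt Y T z * ind C z := by
  unfold nC
  rw [sum_cnt_mul]

theorem sum_cnt_cnt (Y T C : Finset G) :
    ∑ z, ∑ z', cnt Y T z * cnt Y T z' * ind C z'
      = ((T.card : ℝ) * (Y.card : ℝ)) * nC Y T C := by
  have h1 : ∑ z, cnt Y T z = (T.card : ℝ) * (Y.card : ℝ) := by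
    have := sum_cnt_mul Y T (fun _ => (1:ℝ))
    simp only [mul_one, Finset.sum_const, nsmul_eq_mul] at this
    exact this
  rw [nC_eq, ← h1, Finset.sum_mul_sum]
  exact Finset.sum_congr rfl fun _ _ => Finset.sum_congr rfl fun _ _ => by ring

theorem sum3_ind (Y T C : Finset G) :
    ∑ s ∈ T, ∑ y ∈ Y, ∑ y' ∈ Y, ind C (y' - s) = (Y.card : ℝ) * nC Y T C := by
  unfold nC
  rw [Finset.mul_sum]
  refine Finset.sum_congr rfl fun s _ => ?_
  rw [Finset.sum_const, nsmul_eq_mul]

theorem klC_nonneg (Y T C : Finset G) (hT : T.Nonempty) : 0 ≤ klC Y T C := by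
  have h1 : (0:ℝ) < T.card := by exact_mod_cast hT.card_pos
  have hA := kl_prod_gen Y T hT (fun _ z' => ind C z') (by
    intro z z'; rcases ind01 C z' with h | h <;> rw [h] <;> norm_num)
  rw [sum_cnt_cnt] at hA
  have hpt : ∀ s ∈ T, ∀ y ∈ Y, ∀ y' ∈ Y, ind C (y' - s) -
      (cnt Y T (y - s) * cnt Y T (y' - s) / ((T.card : ℝ) * cnt Y (fib Y T (y - s)) (y' - s)))
          * ind C (y' - s)
      ≤ ind C (y' - s) * Real.log ((T.card : ℝ) * cnt Y (fib Y T (y - s)) (y' - s) /
      (cnt Y T (y - s) * cnt Y T (y' - s))) := by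
    intro s hs y hy y' hy'
    have c1 := cnt_pos hs hy
    have c2 := cnt_pos hs hy'
    have c3 := cnt2_pos hs hy hy'
    rcases ind01 C (y' - s) with h | h
    · rw [h]; simp
    · rw [h, mul_one, one_mul]
      generalize cnt Y (fib Y T (y - s)) (y' - s) = x3 at c3 ⊢
      generalize cnt Y T (y - s) = x1 at c1 ⊢
      generalize cnt Y T (y' - s) = x2 at c2 ⊢
      have h3 := Real.one_sub_inv_le_log_of_pos
        (show 0 < (T.card : ℝ) * x3 / (x1 * x2) by (clear * - c1 c2 c3 h1; positivity))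
      rw [inv_div] at h3
      exact h3
  have hsum := Finset.sum_le_sum fun s hs => Finset.sum_le_sum fun y hy =>
    Finset.sum_le_sum fun y' hy' => hpt s hs y hy y' hy'
  simp only [Finset.sum_sub_distrib] at hsum
  rw [sum3_ind] at hsum
  have e : (T.card : ℝ) * (Y.card : ℝ) * nC Y T C / T.card = (Y.card : ℝ) * nC Y T C := by
    have := h1.ne'
    (clear * - this; field_simp)
  rw [e] at hA
  unfold klC
  linarith only [hsum, hA]

theorem klC_le (Y T C : Finset G) (hT : T.Nonempty) : klC Y T C ≤ kl Y T := by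
  have h := klC_nonneg Y T Cᶜ hT
  have e : kl Y T = klC Y T C + klC Y T Cᶜ := by
    unfold kl klC
    simp only [← Finset.sum_add_distrib]
    refine Finset.sum_congr rfl fun s _ => Finset.sum_congr rfl fun y _ =>
      Finset.sum_congr rfl fun y' _ => ?_
    unfold ind
    by_cases hc : y' - s ∈ C
    · rw [if_pos hc, if_neg (by simpa using hc)]; ring
    · rw [if_neg hc, if_pos (by simpa using hc)]; ring
  linarith only [h, e]

/-- logarithmic inequality of the conditional Donsker–Varadhan step -/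
theorem klC_log_ineq (Y T C : Finset G) (hT : T.Nonempty) (e : G → ℝ)
    (he0 : ∀ z, 0 < e z) (Z : ℝ) (hZ0 : 0 < Z)
    (hZ : ∑ z, ∑ z', cnt Y T z * cnt Y T z' * (e (z - z') * ind C z')
      ≤ Z * (((T.card : ℝ) * (Y.card : ℝ)) * nC Y T C)) :
    ∑ s ∈ T, ∑ y ∈ Y, ∑ y' ∈ Y, ind C (y' - s) * Real.log (e (y - y'))
      ≤ klC Y T C + ((Y.card : ℝ) * nC Y T C) * Real.log Z := by
  have h1 : (0:ℝ) < T.card := by exact_mod_cast hT.card_pos
  have hA := kl_prod_gen Y T hT (fun z z' => e (z - z') * ind C z') (by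
    intro z z'
    rcases ind01 C z' with h | h <;> rw [h]
    · simp
    · rw [mul_one]; exact (he0 _).le)
  have hpt : ∀ s ∈ T, ∀ y ∈ Y, ∀ y' ∈ Y, ind C (y' - s) * Real.log (e (y - y'))
      - ind C (y' - s) * Real.log ((T.card : ℝ) * cnt Y (fib Y T (y - s)) (y' - s) /
      (cnt Y T (y - s) * cnt Y T (y' - s))) - ind C (y' - s) * Real.log Z
      ≤ Z⁻¹ * ((cnt Y T (y - s) * cnt Y T (y' - s) / ((T.card : ℝ) * cnt Y (fib Y T (y - s)) (y' - s)))
          * (e (y - s - (y' - s)) * ind C (y' - s))) - ind C (y' - s) := by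
    intro s hs y hy y' hy'
    have c1 := cnt_pos hs hy
    have c2 := cnt_pos hs hy'
    have c3 := cnt2_pos hs hy hy'
    have e1 : (y - s) - (y' - s) = y - y' := by abel
    rw [e1]
    rcases ind01 C (y' - s) with h | h
    · rw [h]; simp
    · rw [h, mul_one, one_mul, one_mul, one_mul]
      have c4 := he0 (y - y')
      generalize cnt Y (fib Y T (y - s)) (y' - s) = x3 at c3 ⊢
      generalize cnt Y T (y - s) = x1 at c1 ⊢
      generalize cnt Y T (y' - s) = x2 at c2 ⊢
      generalize e (y - y') = x4 at c4 ⊢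
      have h3 := Real.log_le_sub_one_of_pos (show 0 < Z⁻¹ * ((x1 * x2 / ((T.card : ℝ) * x3)) * x4) by
        (clear * - hZ0 c1 c2 c3 c4 h1; positivity))
      refine le_trans (le_of_eq ?_) h3
      have hZi : Z⁻¹ ≠ 0 := (inv_pos.mpr hZ0).ne'
      have hx : (x1 * x2 / ((T.card : ℝ) * x3)) ≠ 0 := by
        have : 0 < (x1 * x2 / ((T.card : ℝ) * x3)) := by (clear * - c1 c2 c3 h1; positivity)
        exact this.ne'
      rw [Real.log_mul hZi (mul_ne_zero hx c4.ne'), Real.log_mul hx c4.ne', Real.log_inv,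
        Real.log_div (mul_pos c1 c2).ne' (mul_pos h1 c3).ne',
        Real.log_div (mul_pos h1 c3).ne' (mul_pos c1 c2).ne']
      ring
  have hsum := Finset.sum_le_sum fun s hs => Finset.sum_le_sum fun y hy =>
    Finset.sum_le_sum fun y' hy' => hpt s hs y hy y' hy'
  simp only [Finset.sum_sub_distrib] at hsum
  have e6 : ∑ s ∈ T, ∑ y ∈ Y, ∑ y' ∈ Y, Z⁻¹ * ((cnt Y T (y - s) * cnt Y T (y' - s) /
      ((T.card : ℝ) * cnt Y (fib Y T (y - s)) (y' - s))) * (e (y - s - (y' - s)) * ind C (y' - s)))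
      = Z⁻¹ * ∑ s ∈ T, ∑ y ∈ Y, ∑ y' ∈ Y, (cnt Y T (y - s) * cnt Y T (y' - s) /
      ((T.card : ℝ) * cnt Y (fib Y T (y - s)) (y' - s))) * (e (y - s - (y' - s)) * ind C (y' - s)) := by
    simp only [Finset.mul_sum]
  rw [e6] at hsum
  have e3 : ∑ s ∈ T, ∑ y ∈ Y, ∑ y' ∈ Y, ind C (y' - s) * Real.log Z
      = ((Y.card : ℝ) * nC Y T C) * Real.log Z := by
    rw [← sum3_ind]
    simp only [Finset.sum_mul]
  have e4 : ∑ s ∈ T, ∑ y ∈ Y, ∑ y' ∈ Y, ind C (y' - s) * Real.log ((T.card : ℝ) * cnt Y (fib Y T (y - s)) (y' - s) /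
      (cnt Y T (y - s) * cnt Y T (y' - s))) = klC Y T C := rfl
  have e5 := sum3_ind Y T C
  rw [e4, e3, e5] at hsum
  have h5 := mul_le_mul_of_nonneg_left hA (inv_pos.mpr hZ0).le
  have h6 : Z⁻¹ * ((∑ z, ∑ z', cnt Y T z * cnt Y T z' * (e (z - z') * ind C z')) / T.card)
      ≤ Z⁻¹ * ((Z * (((T.card : ℝ) * (Y.card : ℝ)) * nC Y T C)) / T.card) := by
    apply mul_le_mul_of_nonneg_left _ (inv_pos.mpr hZ0).le
    exact div_le_div_of_nonneg_right hZ h1.le
  have h7 : Z⁻¹ * ((Z * (((T.card : ℝ) * (Y.card : ℝ)) * nC Y T C)) / T.card)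
      = (Y.card : ℝ) * nC Y T C := by
    have h1' := h1.ne'
    have hZ' := hZ0.ne'
    (clear * - h1' hZ'; field_simp)
  linarith only [hsum, h5, h6, h7]

/-- conditional Donsker–Varadhan step -/
theorem klC_transfer (Y T C S : Finset G) (hY : Y.Nonempty) (hT : T.Nonempty) (δ : ℝ) (hδ : 0 ≤ δ)
    (hC : 0 < nC Y T C)
    (hkl : kl Y T ≤ δ * ((Y.card : ℝ) * nC Y T C))
    (hS : (1/2) * ((Y.card : ℝ) * nC Y T C)
      ≤ ∑ s ∈ T, ∑ y ∈ Y, ∑ y' ∈ Y, ind C (y' - s) * ind S (y - y')) :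
    Real.exp (-(2 * δ)) / 4 * (((T.card : ℝ) * (Y.card : ℝ)) * nC Y T C)
      ≤ ∑ z, ∑ z', cnt Y T z * cnt Y T z' * (ind S (z - z') * ind C z') := by
  have h1 : (0:ℝ) < T.card := by exact_mod_cast hT.card_pos
  have h2 : (0:ℝ) < Y.card := by exact_mod_cast hY.card_pos
  have hklC := (klC_le Y T C hT).trans hkl
  set n : ℝ := (Y.card : ℝ) * nC Y T C with hn
  have hn0 : 0 < n := mul_pos h2 hC
  set a : ℝ := 2 * (δ + Real.log 2) with ha
  have hlog2 : 0 < Real.log 2 := Real.log_pos (by norm_num)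
  have ha0 : 0 < a := by positivity
  generalize hQ : (∑ z, ∑ z', cnt Y T z * cnt Y T z' * (ind S (z - z') * ind C z')) = Q
  have hQ0 : 0 ≤ Q := by
    rw [← hQ]
    refine Finset.sum_nonneg fun z _ => Finset.sum_nonneg fun z' _ => ?_
    have d1 := cnt_nonneg Y T z
    have d2 := cnt_nonneg Y T z'
    rcases ind01 C z' with h | h <;> rcases ind01 S (z - z') with h' | h' <;> rw [h, h'] <;>
      (clear * - d1 d2; positivity)
  have hea : Real.exp (-(2 * δ)) / 4 = Real.exp (-a) := by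
    rw [ha]
    have : -(2 * (δ + Real.log 2)) = -(2 * δ) + -(Real.log 4) := by
      have : Real.log 4 = 2 * Real.log 2 := by
        rw [show (4:ℝ) = 2 ^ 2 by norm_num, Real.log_pow]; push_cast; ring
      rw [this]; ring
    rw [this, Real.exp_add, Real.exp_neg (Real.log 4), Real.exp_log (by norm_num)]
    ring
  rw [hea]
  have eTn : ((T.card : ℝ) * (Y.card : ℝ)) * nC Y T C = (T.card : ℝ) * n := by rw [hn]; ring
  rw [eTn]
  by_contra hcon
  push Not at hcon
  have heq : ∀ z : G, (if z ∈ S then Real.exp a else 1)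
      = 1 + (Real.exp a - 1) * ind S z := by
    intro z; unfold ind; split_ifs <;> ring
  have hlog : ∀ z : G, Real.log (if z ∈ S then Real.exp a else 1) = a * ind S z := by
    intro z; unfold ind; split_ifs
    · rw [Real.log_exp, mul_one]
    · rw [Real.log_one, mul_zero]
  have hZs : ∑ z, ∑ z', cnt Y T z * cnt Y T z' * ((if z - z' ∈ S then Real.exp a else 1) * ind C z')
      = (T.card : ℝ) * n + (Real.exp a - 1) * Q := by
    rw [← hQ, ← eTn, ← sum_cnt_cnt, Finset.mul_sum, ← Finset.sum_add_distrib]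
    refine Finset.sum_congr rfl fun z _ => ?_
    rw [Finset.mul_sum, ← Finset.sum_add_distrib]
    refine Finset.sum_congr rfl fun z' _ => ?_
    rw [heq]
    ring
  have h3 : (Real.exp a - 1) * Q < (T.card : ℝ) * n := by
    have h3 : (Real.exp a - 1) * Q ≤ Real.exp a * Q := by nlinarith only [hQ0]
    have h4 : Real.exp a * Q < Real.exp a * (Real.exp (-a) * ((T.card : ℝ) * n)) :=
      mul_lt_mul_of_pos_left hcon (Real.exp_pos _)
    have h5 : Real.exp a * (Real.exp (-a) * ((T.card : ℝ) * n)) = (T.card : ℝ) * n := by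
      rw [← mul_assoc, ← Real.exp_add, add_neg_cancel, Real.exp_zero, one_mul]
    linarith only [h3, h4, h5]
  have h30 : 0 ≤ (Real.exp a - 1) * Q := by
    have : 1 ≤ Real.exp a := Real.one_le_exp ha0.le
    exact mul_nonneg (by linarith only [this]) hQ0
  set Z : ℝ := 1 + (Real.exp a - 1) * Q / ((T.card : ℝ) * n) with hZ
  have hTn : 0 < (T.card : ℝ) * n := mul_pos h1 hn0
  have hZ0 : 0 < Z := by
    have : 0 ≤ (Real.exp a - 1) * Q / ((T.card : ℝ) * n) := div_nonneg h30 hTn.le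
    linarith only [hZ, this]
  have hZ2 : Z < 2 := by
    have : (Real.exp a - 1) * Q / ((T.card : ℝ) * n) < 1 := by
      rw [div_lt_one hTn]; exact h3
    linarith only [hZ, this]
  have hmain := klC_log_ineq Y T C hT (fun z => if z ∈ S then Real.exp a else 1)
    (by
      intro z
      split_ifs
      · exact Real.exp_pos _
      · norm_num) Z hZ0
    (by
      rw [hZs, eTn, hZ, add_mul, one_mul, div_mul_cancel₀ _ hTn.ne'])
  simp only [hlog] at hmain
  have hmain2 : ∑ s ∈ T, ∑ y ∈ Y, ∑ y' ∈ Y, ind C (y' - s) * (a * ind S (y - y'))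
      = a * ∑ s ∈ T, ∑ y ∈ Y, ∑ y' ∈ Y, ind C (y' - s) * ind S (y - y') := by
    simp only [Finset.mul_sum]
    exact Finset.sum_congr rfl fun _ _ => Finset.sum_congr rfl fun _ _ =>
      Finset.sum_congr rfl fun _ _ => by ring
  rw [hmain2, ← hn] at hmain
  have hlogZ : Real.log Z < Real.log 2 := Real.log_lt_log hZ0 hZ2
  have h9 := mul_le_mul_of_nonneg_left hS ha0.le
  have h10 : a * ((1/2) * n) = n * (δ + Real.log 2) := by
    rw [ha]; ring
  have h11 : n * Real.log Z < n * Real.log 2 := mul_lt_mul_of_pos_left hlogZ hn0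
  nlinarith only [hmain, h9, h10, h11, hklC]

end Vale.Agent.P057.H57
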