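import Vale.Agent.P057.R2.h57.Global
import Vale.Agent.P057.R2.h57.CondDV

set_option linter.all false

open Finset

namespace Vale.Agent.P057.H57

variable {G : Type*} [AddCommGroup G] [Fintype G] [DecidableEq G]

theorem mom_one (f w w' : G → ℝ) : mom f w w' 1 = en f w w' := (en_eq_mom f w w').symm

/-- concentration with respect to a weight -/
theorem Tight.conc_weight {f : G → ℝ} {Y : Finset G} {t η s g : ℝ} (h : Tight f Y t η s g)
    (ω : G → ℝ) (hw0 : ∀ z, 0 ≤ ω z) (hw1 : ∀ z, ω z ≤ ind Y z) (hm0 : 0 < mass ω)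
    (hv : 3 * η + Real.exp (2 * g - s) * (1 + (Y.card : ℝ) / mass ω) ≤ 1/8) :
    (1/2) * ((Y.card : ℝ) * mass ω)
      ≤ ∑ z, ∑ z', ind Y z * ω z' * (if t / 2 ≤ corr f (z - z') then (1:ℝ) else 0) := by
  have hn : (0:ℝ) < Y.card := by exact_mod_cast h.ne.card_pos
  have ht := h.tpos
  have hS := h.sup_ge
  have hS0 : 0 ≤ ∑ x, f x := h.tpos.le.trans hS
  have heta0 := h.eta0
  have heta1 := h.eta1
  set m : ℝ := mass ω with hm
  -- first moment
  have hM1 : (1 - η) * t * (Y.card : ℝ) * m ≤ mom f (ind Y) ω 1 := by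
    rw [mom_one, en_comm, en_ind_right, hm]
    unfold mass
    rw [Finset.mul_sum]
    refine Finset.sum_le_sum fun z _ => ?_
    by_cases hz : z ∈ Y
    · rw [mul_comm]
      exact mul_le_mul_of_nonneg_left (h.deg z hz) (hw0 z)
    · have hz0 : ω z = 0 := by
        have := hw1 z
        unfold ind at this
        rw [if_neg hz] at this
        exact le_antisymm this (hw0 z)
      rw [hz0]; simp
  -- second moment
  have hM2 : mom f (ind Y) ω 2 ≤ Real.exp η * t * mom f (ind Y) ω 1
      + Real.exp (2 * g - s) * t ^ 2 * ((Y.card : ℝ) * ((Y.card : ℝ) + m)) := by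
    rw [← sum_en_sw f (ind Y) ω 1]
    have hpt : ∀ x : Fin 1 → G, en f (sw f (ind Y) x) (sw f ω x)
        ≤ Real.exp η * t * (mass (sw f (ind Y) x) * mass (sw f ω x))
          + (∑ x, f x) * (Real.exp (-s) * (Y.card : ℝ)) *
            (mass (sw f (ind Y) x) + mass (sw f ω x)) := by
      intro x
      have hw0' := sw_nonneg f (ind Y) x h.f0 (ind_nonneg Y)
      have hw1' := sw_le f (ind Y) x h.f0 h.f1 (ind_nonneg Y)
      have hv0' := sw_nonneg f ω x h.f0 hw0
      have hv1' : ∀ z, sw f ω x z ≤ ind Y z := fun z => (sw_le f ω x h.f0 h.f1 hw0 z).trans (hw1 z)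
      have hm1 := mass_nonneg _ hw0'
      have hm2 := mass_nonneg _ hv0'
      have hsup := en_le_sup f _ _ h.f0 h.f1 hw0' hv0'
      have hc1 : 0 ≤ Real.exp η * t * (mass (sw f (ind Y) x) * mass (sw f ω x)) := by positivity
      by_cases hc : Real.exp (-s) * (Y.card : ℝ) ≤ mass (sw f (ind Y) x)
      · by_cases hc' : Real.exp (-s) * (Y.card : ℝ) ≤ mass (sw f ω x)
        · have e1 := h.tight _ hw0' hw1' hc
          have e2 := h.tight _ hv0' hv1' hc'
          have e3 := en_sq_le f (sw f (ind Y) x) (sw f ω x)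
          have e4 : en f (sw f (ind Y) x) (sw f ω x)
              ≤ Real.exp η * t * (mass (sw f (ind Y) x) * mass (sw f ω x)) := by
            apply le_of_sq_le_sq _ hc1
            calc en f (sw f (ind Y) x) (sw f ω x) ^ 2
                ≤ en f (sw f (ind Y) x) (sw f (ind Y) x) * en f (sw f ω x) (sw f ω x) := e3
              _ ≤ (Real.exp η * t * mass (sw f (ind Y) x) ^ 2) * (Real.exp η * t * mass (sw f ω x) ^ 2) :=
                  mul_le_mul e1 e2 (en_nonneg _ _) (by positivity)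
              _ = _ := by ring
          have hc2 : 0 ≤ (∑ x, f x) * (Real.exp (-s) * (Y.card : ℝ)) *
            (mass (sw f (ind Y) x) + mass (sw f ω x)) := by positivity
          linarith only [e4, hc2]
        · push Not at hc'
          have h2 : (∑ x, f x) * (mass (sw f (ind Y) x) * mass (sw f ω x))
              ≤ (∑ x, f x) * (mass (sw f (ind Y) x) * (Real.exp (-s) * (Y.card : ℝ))) :=
            mul_le_mul_of_nonneg_left (mul_le_mul_of_nonneg_left hc'.le hm1) hS0
          have h3 : 0 ≤ (∑ x, f x) * (Real.exp (-s) * (Y.card : ℝ)) * mass (sw f ω x) := by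
            positivity
          linarith only [hsup, h2, h3, hc1]
      · push Not at hc
        have h2 : (∑ x, f x) * (mass (sw f (ind Y) x) * mass (sw f ω x))
            ≤ (∑ x, f x) * ((Real.exp (-s) * (Y.card : ℝ)) * mass (sw f ω x)) :=
          mul_le_mul_of_nonneg_left (mul_le_mul_of_nonneg_right hc.le hm2) hS0
        have h3 : 0 ≤ (∑ x, f x) * (Real.exp (-s) * (Y.card : ℝ)) * mass (sw f (ind Y) x) := by
          positivity
        linarith only [hsup, h2, h3, hc1]
    refine (Finset.sum_le_sum fun x _ => hpt x).trans ?_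
    rw [Finset.sum_add_distrib, ← Finset.mul_sum, ← Finset.mul_sum, Finset.sum_add_distrib,
      sum_mass_mul_sw, sum_mass_sw, sum_mass_sw, mass_ind, ← hm, pow_one]
    have h4 : (∑ x, f x) * (∑ x, f x) ≤ (Real.exp g * t) * (Real.exp g * t) :=
      mul_le_mul h.sup h.sup hS0 (by positivity)
    have h5 : Real.exp (2 * g - s) = Real.exp g * Real.exp g * Real.exp (-s) := by
      rw [← Real.exp_add, ← Real.exp_add]; congr 1; ring
    rw [h5]
    have h6 := mul_le_mul_of_nonneg_right h4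
      (show 0 ≤ Real.exp (-s) * ((Y.card : ℝ) * ((Y.card : ℝ) + m)) by positivity)
    nlinarith only [h6]
  -- Chebyshev
  have hpt : ∀ z z', ind Y z * ω z' * (t ^ 2 / 4 *
      (1 - (if t / 2 ≤ corr f (z - z') then (1:ℝ) else 0)))
      ≤ ind Y z * ω z' * corr f (z - z') ^ 2 - 2 * t * (ind Y z * ω z' * corr f (z - z') ^ 1)
        + t ^ 2 * (ind Y z * ω z') := by
    intro z z'
    have hww : 0 ≤ ind Y z * ω z' := mul_nonneg (ind_nonneg Y z) (hw0 z')
    have e1 : t ^ 2 / 4 * (1 - (if t / 2 ≤ corr f (z - z') then (1:ℝ) else 0))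
        ≤ corr f (z - z') ^ 2 - 2 * t * corr f (z - z') + t ^ 2 := by
      split_ifs with hc
      · nlinarith only [sq_nonneg (corr f (z - z') - t)]
      · push Not at hc
        have h2 : t / 2 ≤ t - corr f (z - z') := by linarith only [hc]
        have h3 := mul_self_le_mul_self (by positivity) h2
        nlinarith only [h3]
    have e2 := mul_le_mul_of_nonneg_left e1 hww
    refine e2.trans (le_of_eq ?_)
    ring
  have hsum := Finset.sum_le_sum fun z (_ : z ∈ univ) => Finset.sum_le_sum fun z' (_ : z' ∈ univ) => hpt z z'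
  simp only [Finset.sum_sub_distrib, Finset.sum_add_distrib, ← Finset.mul_sum] at hsum
  have e1 : ∑ z, ∑ z', ind Y z * ω z' * corr f (z - z') ^ 2 = mom f (ind Y) ω 2 := rfl
  have e2 : ∑ z, ∑ z', ind Y z * ω z' * corr f (z - z') ^ 1 = mom f (ind Y) ω 1 := rfl
  have e3 : ∑ z, ∑ z', ind Y z * ω z' = (Y.card : ℝ) * m := by
    rw [← mass_ind Y, hm]; unfold mass; rw [Finset.sum_mul_sum]
  simp only [← Finset.mul_sum] at e1 e2 e3
  rw [e1, e2, e3] at hsum
  have e4 : ∑ z, ∑ z', ind Y z * ω z' * (t ^ 2 / 4 *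
      (1 - (if t / 2 ≤ corr f (z - z') then (1:ℝ) else 0)))
      = t ^ 2 / 4 * ((Y.card : ℝ) * m - ∑ z, ∑ z', ind Y z * ω z' * (if t / 2 ≤ corr f (z - z') then (1:ℝ) else 0)) := by
    have e3' : ∑ z, ∑ z', ind Y z * ω z' = (Y.card : ℝ) * m := by
      rw [← mass_ind Y, hm]; unfold mass; rw [Finset.sum_mul_sum]
    rw [← e3', ← Finset.sum_sub_distrib, Finset.mul_sum]
    refine Finset.sum_congr rfl fun z _ => ?_
    rw [← Finset.sum_sub_distrib, Finset.mul_sum]
    exact Finset.sum_congr rfl fun z' _ => by ring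
  rw [e4] at hsum
  generalize (∑ z, ∑ z', ind Y z * ω z' * (if t / 2 ≤ corr f (z - z') then (1:ℝ) else 0)) = B at hsum ⊢
  -- numerics
  have hnm : 0 < (Y.card : ℝ) * m := mul_pos hn hm0
  have h7 := exp_le_two η heta0 heta1
  set M1 := mom f (ind Y) ω 1 with hM1d
  have hM10 : 0 ≤ M1 := by
    have : 0 ≤ (1 - η) * t * (Y.card : ℝ) * m := by
      have : 0 ≤ 1 - η := by linarith only [heta1]
      positivity
    linarith only [this, hM1]
  set M2 := mom f (ind Y) ω 2 with hM2d
  have hη8 : η ≤ 1/24 := by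
    have : 0 ≤ Real.exp (2 * g - s) * (1 + (Y.card : ℝ) / m) := by positivity
    linarith only [hv, this]
  have h8 : M2 - 2 * t * M1 ≤ -((1 - 2 * η) * t * M1)
      + Real.exp (2 * g - s) * t ^ 2 * ((Y.card : ℝ) * ((Y.card : ℝ) + m)) := by
    have : Real.exp η * t * M1 ≤ (1 + 2 * η) * t * M1 := by
      apply mul_le_mul_of_nonneg_right _ hM10
      exact mul_le_mul_of_nonneg_right h7 ht.le
    linarith only [hM2, this]
  have h9 : (1 - 2 * η) * t * ((1 - η) * t * (Y.card : ℝ) * m) ≤ (1 - 2 * η) * t * M1 := by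
    apply mul_le_mul_of_nonneg_left hM1
    apply mul_nonneg _ ht.le
    linarith only [hη8]
  have h10 : (1 - 3 * η) * (t ^ 2 * ((Y.card : ℝ) * m))
      ≤ (1 - 2 * η) * t * ((1 - η) * t * (Y.card : ℝ) * m) := by
    have : 0 ≤ 2 * η ^ 2 * (t ^ 2 * ((Y.card : ℝ) * m)) := by positivity
    nlinarith only [this]
  have h11 : Real.exp (2 * g - s) * t ^ 2 * ((Y.card : ℝ) * ((Y.card : ℝ) + m))
      = (Real.exp (2 * g - s) * (1 + (Y.card : ℝ) / m)) * (t ^ 2 * ((Y.card : ℝ) * m)) := by
    have := hm0.ne'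
    field_simp
    ring
  have h12 := mul_le_mul_of_nonneg_right hv (show 0 ≤ t ^ 2 * ((Y.card : ℝ) * m) by positivity)
  rw [h11] at h8
  have h13 : t ^ 2 / 4 * ((Y.card : ℝ) * m - B) ≤ t ^ 2 / 4 * (1/2 * ((Y.card : ℝ) * m)) := by
    nlinarith only [hsum, h8, h9, h10, h12]
  have h14 := le_of_mul_le_mul_left h13 (by positivity)
  linarith only [h14]

/-- the weight of a class on `Y` -/
noncomputable def omg (Y T C : Finset G) (z : G) : ℝ := ind Y z * ((∑ s ∈ T, ind C (z - s)) / T.card)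

theorem omg_nonneg (Y T C : Finset G) (z : G) : 0 ≤ omg Y T C z := by
  unfold omg
  refine mul_nonneg (ind_nonneg _ _) (div_nonneg (Finset.sum_nonneg fun _ _ => ind_nonneg _ _) (by positivity))

theorem omg_le (Y T C : Finset G) (hT : T.Nonempty) (z : G) : omg Y T C z ≤ ind Y z := by
  unfold omg
  have h1 : (0:ℝ) < T.card := by exact_mod_cast hT.card_pos
  refine mul_le_of_le_one_right (ind_nonneg _ _) ?_
  rw [div_le_one h1]
  calc ∑ s ∈ T, ind C (z - s) ≤ ∑ s ∈ T, (1:ℝ) := by
        refine Finset.sum_le_sum fun s _ => ?_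
        rcases ind01 C (z - s) with h | h <;> rw [h] <;> norm_num
    _ = _ := by simp

theorem mass_omg (Y T C : Finset G) : mass (omg Y T C) = nC Y T C / T.card := by
  unfold mass omg nC
  rw [Finset.sum_comm, Finset.sum_div]
  rw [sum_ind_mul Y (fun z => (∑ s ∈ T, ind C (z - s)) / T.card)]

theorem sum_omg (Y T C : Finset G) (χ : G → ℝ) :
    ∑ z, ∑ z', ind Y z * omg Y T C z' * χ (z - z')
      = (∑ s ∈ T, ∑ y ∈ Y, ∑ y' ∈ Y, ind C (y' - s) * χ (y - y')) / T.card := by
  have h1 : ∀ z, ∑ z', ind Y z * omg Y T C z' * χ (z - z')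
      = ind Y z * ∑ y' ∈ Y, ((∑ s ∈ T, ind C (y' - s)) / T.card) * χ (z - y') := by
    intro z
    rw [← sum_ind_mul Y, Finset.mul_sum]
    refine Finset.sum_congr rfl fun z' _ => ?_
    unfold omg
    ring
  simp only [h1]
  rw [sum_ind_mul Y (fun z => ∑ y' ∈ Y, ((∑ s ∈ T, ind C (y' - s)) / T.card) * χ (z - y'))]
  rw [Finset.sum_comm (s := T) (t := Y), Finset.sum_div]
  refine Finset.sum_congr rfl fun y _ => ?_
  rw [Finset.sum_comm, Finset.sum_div]
  refine Finset.sum_congr rfl fun y' _ => ?_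
  rw [← Finset.sum_mul]
  ring

end Vale.Agent.P057.H57
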