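import Vale.Agent.P057.R2.h57.Vec

set_option linter.all false

open Finset

namespace Vale.Agent.P057.H57

variable {G : Type*} [AddCommGroup G] [Fintype G] [DecidableEq G]

/-- data of a tight set: energy level `t`, tightness `η` down to density `exp (-s)`,
sup ratio `exp g` -/
structure Tight (f : G → ℝ) (Y : Finset G) (t η s g : ℝ) : Prop where
  ne : Y.Nonempty
  f0 : ∀ x, 0 ≤ f x
  f1 : ∀ x, f x ≤ 1
  tpos : 0 < t
  eta0 : 0 ≤ η
  eta1 : η ≤ 1
  s0 : 0 ≤ s
  sup : ∑ x, f x ≤ Real.exp g * t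
  eng : en f (ind Y) (ind Y) = t * (Y.card : ℝ) ^ 2
  tight : ∀ w : G → ℝ, (∀ z, 0 ≤ w z) → (∀ z, w z ≤ ind Y z) →
    Real.exp (-s) * (Y.card : ℝ) ≤ mass w → en f w w ≤ Real.exp η * t * mass w ^ 2
  deg : ∀ y ∈ Y, (1 - η) * t * (Y.card : ℝ) ≤ ∑ y' ∈ Y, corr f (y - y')

theorem dist_sq (f w w' : G → ℝ) (m m' : ℝ) (hm : m ≠ 0) (hm' : m' ≠ 0) :
    ∑ u, (vv f w u / m - vv f w' u / m') ^ 2
      = en f w w / m ^ 2 - 2 * (en f w w' / (m * m')) + en f w' w' / m' ^ 2 := by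
  unfold en
  rw [Finset.sum_div, Finset.sum_div, Finset.sum_div, Finset.mul_sum, ← Finset.sum_sub_distrib,
    ← Finset.sum_add_distrib]
  refine Finset.sum_congr rfl fun u _ => ?_
  generalize vv f w u = a
  generalize vv f w' u = b
  field_simp
  ring

theorem exp_le_two (η : ℝ) (h0 : 0 ≤ η) (h1 : η ≤ 1) : Real.exp η ≤ 1 + 2 * η := by
  have h := Real.abs_exp_sub_one_le (x := η) (by rw [abs_of_nonneg h0]; exact h1)
  rw [abs_of_nonneg h0] at h
  have := abs_le.mp h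
  linarith [this.2]

theorem Tight.close {f : G → ℝ} {Y : Finset G} {t η s g : ℝ} (h : Tight f Y t η s g)
    (w : G → ℝ) (hw0 : ∀ z, 0 ≤ w z) (hw1 : ∀ z, w z ≤ ind Y z)
    (hm : Real.exp (-s) * (Y.card : ℝ) ≤ mass w) :
    ∑ u, (vv f w u / mass w - vv f (ind Y) u / (Y.card : ℝ)) ^ 2 ≤ 4 * η * t := by
  have hn : (0:ℝ) < Y.card := by exact_mod_cast h.ne.card_pos
  have hmp : 0 < mass w := lt_of_lt_of_le (by positivity) hm
  rw [dist_sq f w (ind Y) _ _ hmp.ne' hn.ne', h.eng]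
  have h1 := h.tight w hw0 hw1 hm
  have h2 : (1 - η) * t * (Y.card : ℝ) * mass w ≤ en f w (ind Y) := by
    rw [en_ind_right]
    unfold mass
    rw [Finset.mul_sum]
    refine Finset.sum_le_sum fun z _ => ?_
    by_cases hz : z ∈ Y
    · rw [mul_comm]
      exact mul_le_mul_of_nonneg_left (h.deg z hz) (hw0 z)
    · have hz0 : w z = 0 := by
        have := hw1 z
        unfold ind at this
        rw [if_neg hz] at this
        exact le_antisymm this (hw0 z)
      rw [hz0]; simp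
  have h3 : en f w w / mass w ^ 2 ≤ Real.exp η * t := by
    rw [div_le_iff₀ (by positivity)]; exact h1
  have h4 : (1 - η) * t ≤ en f w (ind Y) / (mass w * (Y.card : ℝ)) := by
    rw [le_div_iff₀ (by positivity)]
    linarith only [h2]
  have h5 : t * (Y.card : ℝ) ^ 2 / (Y.card : ℝ) ^ 2 = t := by
    field_simp
  rw [h5]
  have h6 := mul_le_mul_of_nonneg_right (exp_le_two η h.eta0 h.eta1) h.tpos.le
  linarith only [h3, h4, h6]

/-- geometry: if two large pieces of `Y` and `Y + r` correlate then `Y` and `Y + r` correlate -/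
theorem Tight.geometry {f : G → ℝ} {Y : Finset G} {t η s g : ℝ} (h : Tight f Y t η s g)
    (w w' : G → ℝ) (r : G) (hw0 : ∀ z, 0 ≤ w z) (hw1 : ∀ z, w z ≤ ind Y z)
    (hm : Real.exp (-s) * (Y.card : ℝ) ≤ mass w) (hw0' : ∀ z, 0 ≤ w' z)
    (hw1' : ∀ z, w' z ≤ ind Y z) (hm' : Real.exp (-s) * (Y.card : ℝ) ≤ mass w') (ε : ℝ)
    (hc : (1 - ε) * t * (mass w * mass w') ≤ en f w (trn w' r)) :
    (1 - (18 * η + 3 * ε)) * t * (Y.card : ℝ) ^ 2 ≤ en f (ind Y) (trn (ind Y) r) := by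
  have hn : (0:ℝ) < Y.card := by exact_mod_cast h.ne.card_pos
  have hmp : 0 < mass w := lt_of_lt_of_le (by positivity) hm
  have hmp' : 0 < mass w' := lt_of_lt_of_le (by positivity) hm'
  have h1 := h.close w hw0 hw1 hm
  have h2 := h.close w' hw0' hw1' hm'
  -- translate the second estimate
  have h2' : ∑ u, (vv f (trn w' r) u / mass w' - vv f (trn (ind Y) r) u / (Y.card : ℝ)) ^ 2
      ≤ 4 * η * t := by
    simp only [vv_trn]
    refine le_trans (le_of_eq ?_) h2
    exact Equiv.sum_comp (Equiv.addRight r)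
      (fun u => (vv f w' u / mass w' - vv f (ind Y) u / (Y.card : ℝ)) ^ 2)
  have h3 : ∑ u, (vv f w u / mass w - vv f (trn w' r) u / mass w') ^ 2 ≤ (4 * η + 2 * ε) * t := by
    rw [dist_sq f w (trn w' r) _ _ hmp.ne' hmp'.ne', en_trn]
    have e1 : en f w w / mass w ^ 2 ≤ Real.exp η * t := by
      rw [div_le_iff₀ (by positivity)]; exact h.tight w hw0 hw1 hm
    have e2 : en f w' w' / mass w' ^ 2 ≤ Real.exp η * t := by
      rw [div_le_iff₀ (by positivity)]; exact h.tight w' hw0' hw1' hm'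
    have e3 : (1 - ε) * t ≤ en f w (trn w' r) / (mass w * mass w') := by
      rw [le_div_iff₀ (by positivity)]; exact hc
    have e4 := mul_le_mul_of_nonneg_right (exp_le_two η h.eta0 h.eta1) h.tpos.le
    linarith only [e1, e2, e3, e4]
  have h4 : ∑ u, (vv f (ind Y) u / (Y.card : ℝ) - vv f (trn (ind Y) r) u / (Y.card : ℝ)) ^ 2
      ≤ 3 * (4 * η * t + (4 * η + 2 * ε) * t + 4 * η * t) := by
    have h5 : ∑ u, (vv f (ind Y) u / (Y.card : ℝ) - vv f (trn (ind Y) r) u / (Y.card : ℝ)) ^ 2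
        ≤ ∑ u, 3 * ((vv f w u / mass w - vv f (ind Y) u / (Y.card : ℝ)) ^ 2
          + (vv f w u / mass w - vv f (trn w' r) u / mass w') ^ 2
          + (vv f (trn w' r) u / mass w' - vv f (trn (ind Y) r) u / (Y.card : ℝ)) ^ 2) := by
      refine Finset.sum_le_sum fun u _ => ?_
      generalize vv f (ind Y) u / (Y.card : ℝ) = a
      generalize vv f w u / mass w = b
      generalize vv f (trn w' r) u / mass w' = c
      generalize vv f (trn (ind Y) r) u / (Y.card : ℝ) = d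
      nlinarith only [sq_nonneg ((b - a) + (b - c)), sq_nonneg ((b - c) - (c - d)),
        sq_nonneg ((b - a) + (c - d)), sq_nonneg ((a - b) - (b - c)), sq_nonneg ((a - b) - (c - d))]
    refine h5.trans ?_
    rw [← Finset.mul_sum, Finset.sum_add_distrib, Finset.sum_add_distrib]
    linarith only [h1, h2', h3]
  rw [dist_sq f (ind Y) (trn (ind Y) r) _ _ hn.ne' hn.ne', en_trn, h.eng] at h4
  have h5 : t * (Y.card : ℝ) ^ 2 / (Y.card : ℝ) ^ 2 = t := by
    field_simp
  rw [h5] at h4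
  have h6 : (1 - (18 * η + 3 * ε)) * t ≤ en f (ind Y) (trn (ind Y) r) / ((Y.card : ℝ) * (Y.card : ℝ)) := by
    linarith only [h4]
  rw [le_div_iff₀ (by positivity)] at h6
  calc (1 - (18 * η + 3 * ε)) * t * (Y.card : ℝ) ^ 2
      = (1 - (18 * η + 3 * ε)) * t * ((Y.card : ℝ) * (Y.card : ℝ)) := by ring
    _ ≤ _ := h6

end Vale.Agent.P057.H57
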