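import Vale.Agent.P057.Bdl.B1

set_option linter.all false

open Finset

namespace Vale.Agent.P057.H57

variable {G : Type*} [AddCommGroup G] [Fintype G] [DecidableEq G]

/-- the fibre of `T` over `z`: the elements `s` of `T` with `z + s ∈ Y` -/
def fib (Y T : Finset G) (z : G) : Finset G := T.filter (fun s => z + s ∈ Y)

/-- number of `s ∈ T` with `z + s ∈ Y` -/
noncomputable def cnt (Y T : Finset G) (z : G) : ℝ := ((fib Y T z).card : ℝ)

theorem cnt_eq_sum (Y T : Finset G) (z : G) :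
    cnt Y T z = ∑ s ∈ T, if z + s ∈ Y then (1:ℝ) else 0 := by
  unfold cnt fib
  rw [Finset.sum_boole]

theorem cnt_nonneg (Y T : Finset G) (z : G) : 0 ≤ cnt Y T z := by
  unfold cnt; positivity

theorem cnt_le (Y T : Finset G) (z : G) : cnt Y T z ≤ (T.card : ℝ) := by
  unfold cnt fib
  exact_mod_cast Finset.card_filter_le _ _

theorem sum_shift (Y : Finset G) (s : G) (φ : G → ℝ) :
    ∑ z : G, (if z + s ∈ Y then (1:ℝ) else 0) * φ z = ∑ y ∈ Y, φ (y - s) := by
  have h := Equiv.sum_comp (Equiv.subRight s) (fun z => (if z + s ∈ Y then (1:ℝ) else 0) * φ z)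
  rw [← h]
  simp only [Equiv.subRight_apply, sub_add_cancel, ite_mul, one_mul, zero_mul]
  rw [Finset.sum_ite_mem, Finset.univ_inter]

/-- transfer identity -/
theorem sum_cnt_mul (Y T : Finset G) (φ : G → ℝ) :
    ∑ z, cnt Y T z * φ z = ∑ s ∈ T, ∑ y ∈ Y, φ (y - s) := by
  simp only [cnt_eq_sum, Finset.sum_mul]
  rw [Finset.sum_comm]
  refine Finset.sum_congr rfl fun s _ => ?_
  exact sum_shift Y s φ

/-- iterated transfer identity -/
theorem sum_cnt_fib (Y T : Finset G) (φ : G → G → ℝ) :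
    ∑ z, ∑ z', cnt Y (fib Y T z) z' * φ z z'
      = ∑ s ∈ T, ∑ y ∈ Y, ∑ y' ∈ Y, φ (y - s) (y' - s) := by
  have h1 : ∀ z, ∑ z', cnt Y (fib Y T z) z' * φ z z'
      = ∑ s ∈ T, (if z + s ∈ Y then (1:ℝ) else 0) * ∑ y' ∈ Y, φ z (y' - s) := by
    intro z
    rw [sum_cnt_mul]
    unfold fib
    rw [Finset.sum_filter]
    refine Finset.sum_congr rfl fun s _ => ?_
    split_ifs <;> simp
  simp only [h1]
  rw [Finset.sum_comm]
  refine Finset.sum_congr rfl fun s _ => ?_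
  exact sum_shift Y s (fun z => ∑ y' ∈ Y, φ z (y' - s))

theorem mem_fib_self {Y T : Finset G} {s y : G} (hs : s ∈ T) (hy : y ∈ Y) :
    s ∈ fib Y T (y - s) := by
  unfold fib
  rw [Finset.mem_filter]
  exact ⟨hs, by simpa using hy⟩

theorem cnt_pos {Y T : Finset G} {s y : G} (hs : s ∈ T) (hy : y ∈ Y) :
    0 < cnt Y T (y - s) := by
  unfold cnt
  exact_mod_cast Finset.card_pos.mpr ⟨s, mem_fib_self hs hy⟩

theorem cnt2_pos {Y T : Finset G} {s y y' : G} (hs : s ∈ T) (hy : y ∈ Y) (hy' : y' ∈ Y) :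
    0 < cnt Y (fib Y T (y - s)) (y' - s) := cnt_pos (mem_fib_self hs hy) hy'

/-- mean log-sparsity of the fibres -/
noncomputable def ylog (Y T : Finset G) : ℝ :=
  (∑ s ∈ T, ∑ y ∈ Y, Real.log ((T.card : ℝ) / cnt Y T (y - s))) / ((T.card : ℝ) * (Y.card : ℝ))

theorem ylog_nonneg (Y T : Finset G) : 0 ≤ ylog Y T := by
  unfold ylog
  refine div_nonneg (Finset.sum_nonneg fun s hs => Finset.sum_nonneg fun y hy => ?_) (by positivity)
  apply Real.log_nonneg
  rw [le_div_iff₀ (cnt_pos hs hy), one_mul]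
  exact cnt_le _ _ _

theorem ylog_mul (Y T : Finset G) (hY : Y.Nonempty) (hT : T.Nonempty) :
    ylog Y T * ((T.card : ℝ) * (Y.card : ℝ))
      = ∑ s ∈ T, ∑ y ∈ Y, Real.log ((T.card : ℝ) / cnt Y T (y - s)) := by
  unfold ylog
  have h1 : (0:ℝ) < T.card := by exact_mod_cast hT.card_pos
  have h2 : (0:ℝ) < Y.card := by exact_mod_cast hY.card_pos
  rw [div_mul_cancel₀ _ (by positivity)]

/-- the mean log-sparsity is at most `log (|U| / |Y|)` -/
theorem ylog_le (Y T U : Finset G) (hY : Y.Nonempty) (hT : T.Nonempty)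
    (hU : ∀ y ∈ Y, ∀ s ∈ T, y - s ∈ U) (H : ℝ) (hH : (U.card : ℝ) ≤ Real.exp H * (Y.card : ℝ)) :
    ylog Y T ≤ H := by
  have h1 : (0:ℝ) < T.card := by exact_mod_cast hT.card_pos
  have h2 : (0:ℝ) < Y.card := by exact_mod_cast hY.card_pos
  have hle : ∑ s ∈ T, ∑ y ∈ Y, Real.log ((T.card : ℝ) / cnt Y T (y - s))
      ≤ ∑ s ∈ T, ∑ y ∈ Y, ((H - 1) + (T.card : ℝ) * Real.exp (-H) * (cnt Y T (y - s))⁻¹) := by
    refine Finset.sum_le_sum fun s hs => Finset.sum_le_sum fun y hy => ?_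
    have hc := cnt_pos hs hy
    have hx : 0 < (T.card : ℝ) / cnt Y T (y - s) := by positivity
    have h3 := Real.log_le_sub_one_of_pos (show 0 < Real.exp (-H) * ((T.card : ℝ) / cnt Y T (y - s)) by
      positivity)
    rw [Real.log_mul (Real.exp_pos _).ne' hx.ne', Real.log_exp] at h3
    have e : Real.exp (-H) * ((T.card : ℝ) / cnt Y T (y - s))
        = (T.card : ℝ) * Real.exp (-H) * (cnt Y T (y - s))⁻¹ := by
      rw [div_eq_mul_inv]; ring
    rw [e] at h3
    linarith only [h3]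
  have hinv : ∑ s ∈ T, ∑ y ∈ Y, (cnt Y T (y - s))⁻¹ ≤ (U.card : ℝ) := by
    rw [← sum_cnt_mul Y T (fun z => (cnt Y T z)⁻¹)]
    have : ∀ z, cnt Y T z * (cnt Y T z)⁻¹ ≤ if z ∈ U then (1:ℝ) else 0 := by
      intro z
      by_cases hz : cnt Y T z = 0
      · rw [hz]; split_ifs <;> simp
      · have hzU : z ∈ U := by
          have : (fib Y T z).Nonempty := by
            rw [← Finset.card_pos]
            by_contra hcon
            apply hz
            unfold cnt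
            have : (fib Y T z).card = 0 := by omega
            rw [this]; simp
          obtain ⟨s, hs⟩ := this
          unfold fib at hs
          rw [Finset.mem_filter] at hs
          have := hU _ hs.2 _ hs.1
          simpa using this
        rw [mul_inv_cancel₀ hz, if_pos hzU]
    calc ∑ z, cnt Y T z * (cnt Y T z)⁻¹ ≤ ∑ z, if z ∈ U then (1:ℝ) else 0 :=
          Finset.sum_le_sum fun z _ => this z
      _ = (U.card : ℝ) := by simp
  have hsum : ∑ s ∈ T, ∑ y ∈ Y, ((H - 1) + (T.card : ℝ) * Real.exp (-H) * (cnt Y T (y - s))⁻¹)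
      = (T.card : ℝ) * (Y.card : ℝ) * (H - 1)
        + (T.card : ℝ) * Real.exp (-H) * ∑ s ∈ T, ∑ y ∈ Y, (cnt Y T (y - s))⁻¹ := by
    simp only [Finset.sum_add_distrib, Finset.sum_const, nsmul_eq_mul, Finset.mul_sum]
    ring
  have h5 : (T.card : ℝ) * Real.exp (-H) * ∑ s ∈ T, ∑ y ∈ Y, (cnt Y T (y - s))⁻¹
      ≤ (T.card : ℝ) * (Y.card : ℝ) := by
    have h6 : (T.card : ℝ) * Real.exp (-H) * ∑ s ∈ T, ∑ y ∈ Y, (cnt Y T (y - s))⁻¹
        ≤ (T.card : ℝ) * Real.exp (-H) * (Real.exp H * (Y.card : ℝ)) :=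
      mul_le_mul_of_nonneg_left (hinv.trans hH) (by positivity)
    have h7 : (T.card : ℝ) * Real.exp (-H) * (Real.exp H * (Y.card : ℝ))
        = (T.card : ℝ) * (Y.card : ℝ) := by
      have : Real.exp (-H) * Real.exp H = 1 := by rw [← Real.exp_add]; simp
      calc (T.card : ℝ) * Real.exp (-H) * (Real.exp H * (Y.card : ℝ))
          = (T.card : ℝ) * (Real.exp (-H) * Real.exp H) * (Y.card : ℝ) := by ring
        _ = _ := by rw [this]; ring
    linarith only [h6, h7]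
  unfold ylog
  rw [div_le_iff₀ (by positivity)]
  rw [hsum] at hle
  linarith only [hle, h5]

/-- averaged log-sparsity of the fibres of fibres -/
theorem sum_ylog_fib (Y T : Finset G) (hY : Y.Nonempty) :
    ∑ s ∈ T, ∑ y ∈ Y, ylog Y (fib Y T (y - s)) * (Y.card : ℝ)
      = ∑ s ∈ T, ∑ y ∈ Y, ∑ y' ∈ Y,
          Real.log (cnt Y T (y - s) / cnt Y (fib Y T (y - s)) (y' - s)) := by
  have h2 : (0:ℝ) < Y.card := by exact_mod_cast hY.card_pos
  rw [← sum_cnt_mul Y T (fun z => ylog Y (fib Y T z) * (Y.card : ℝ))]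
  rw [← sum_cnt_fib Y T (fun z z' => Real.log (cnt Y T z / cnt Y (fib Y T z) z'))]
  refine Finset.sum_congr rfl fun z _ => ?_
  rw [sum_cnt_mul]
  by_cases hz : (fib Y T z).Nonempty
  · have h3 := ylog_mul Y (fib Y T z) hY hz
    have e : cnt Y T z * (ylog Y (fib Y T z) * (Y.card : ℝ))
        = ylog Y (fib Y T z) * (((fib Y T z).card : ℝ) * (Y.card : ℝ)) := by
      unfold cnt; ring
    rw [e, h3]
    rfl
  · rw [Finset.not_nonempty_iff_eq_empty] at hz
    unfold cnt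
    rw [hz]
    simp

/-- the relative entropy between the coupled and the product distribution, unnormalised -/
noncomputable def kl (Y T : Finset G) : ℝ :=
  ∑ s ∈ T, ∑ y ∈ Y, ∑ y' ∈ Y,
    Real.log ((T.card : ℝ) * cnt Y (fib Y T (y - s)) (y' - s) /
      (cnt Y T (y - s) * cnt Y T (y' - s)))

theorem kl_eq (Y T : Finset G) (hY : Y.Nonempty) (hT : T.Nonempty) :
    kl Y T = ylog Y T * ((T.card : ℝ) * (Y.card : ℝ) ^ 2)
      - ∑ s ∈ T, ∑ y ∈ Y, ylog Y (fib Y T (y - s)) * (Y.card : ℝ) := by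
  have h1 : (0:ℝ) < T.card := by exact_mod_cast hT.card_pos
  have h2 : (0:ℝ) < Y.card := by exact_mod_cast hY.card_pos
  rw [sum_ylog_fib Y T hY]
  have h3 : ylog Y T * ((T.card : ℝ) * (Y.card : ℝ) ^ 2)
      = ∑ s ∈ T, ∑ y ∈ Y, ∑ y' ∈ Y, Real.log ((T.card : ℝ) / cnt Y T (y' - s)) := by
    have h4 := ylog_mul Y T hY hT
    calc ylog Y T * ((T.card : ℝ) * (Y.card : ℝ) ^ 2)
        = (Y.card : ℝ) * (ylog Y T * ((T.card : ℝ) * (Y.card : ℝ))) := by ring
      _ = (Y.card : ℝ) * ∑ s ∈ T, ∑ y ∈ Y, Real.log ((T.card : ℝ) / cnt Y T (y - s)) := by rw [h4]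
      _ = _ := by
        rw [Finset.mul_sum]
        refine Finset.sum_congr rfl fun s _ => ?_
        rw [Finset.sum_const, nsmul_eq_mul]
  rw [h3]
  unfold kl
  simp only [← Finset.sum_sub_distrib]
  refine Finset.sum_congr rfl fun s hs => Finset.sum_congr rfl fun y hy =>
    Finset.sum_congr rfl fun y' hy' => ?_
  have c1 := cnt_pos hs hy
  have c2 := cnt_pos hs hy'
  have c3 := cnt2_pos hs hy hy'
  rw [Real.log_div (by positivity) (by positivity), Real.log_mul (by positivity) (by positivity),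
    Real.log_mul (by positivity) (by positivity), Real.log_div (by positivity) (by positivity),
    Real.log_div (by positivity) (by positivity)]
  ring

/-- choice of a set of shifts with small relative entropy -/
theorem exists_small_kl (Y B U : Finset G) (hY : Y.Nonempty) (hB : B.Nonempty)
    (hU : ∀ y ∈ Y, ∀ s ∈ B, y - s ∈ U) (H δ : ℝ) (hH0 : 0 < H) (hδ : 0 < δ)
    (hH : (U.card : ℝ) ≤ Real.exp H * (Y.card : ℝ)) :
    ∃ T ⊆ B, T.Nonempty ∧ Real.exp (-(H ^ 2 / δ)) * (B.card : ℝ) ≤ (T.card : ℝ) ∧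
      kl Y T ≤ δ * ((T.card : ℝ) * (Y.card : ℝ) ^ 2) := by
  obtain ⟨T, hT, hmin⟩ := Finset.exists_min_image (B.powerset.filter (fun T => T.Nonempty))
    (fun T => (H / δ) * ylog Y T - Real.log (T.card : ℝ))
    ⟨B, by simp [hB]⟩
  rw [Finset.mem_filter, Finset.mem_powerset] at hT
  obtain ⟨hTB, hTne⟩ := hT
  have h1 : (0:ℝ) < T.card := by exact_mod_cast hTne.card_pos
  have h2 : (0:ℝ) < Y.card := by exact_mod_cast hY.card_pos
  have hBp : (0:ℝ) < B.card := by exact_mod_cast hB.card_pos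
  have hmin' : ∀ T' ⊆ B, T'.Nonempty →
      (H / δ) * ylog Y T - Real.log (T.card : ℝ) ≤ (H / δ) * ylog Y T' - Real.log (T'.card : ℝ) := by
    intro T' h3 h4
    exact hmin T' (by rw [Finset.mem_filter, Finset.mem_powerset]; exact ⟨h3, h4⟩)
  have hyB : ylog Y B ≤ H := ylog_le Y B U hY hB hU H hH
  have hyT : ylog Y T ≤ H :=
    ylog_le Y T U hY hTne (fun y hy s hs => hU y hy s (hTB hs)) H hH
  have hHδ : 0 < H / δ := by positivity
  refine ⟨T, hTB, hTne, ?_, ?_⟩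
  · have h3 := hmin' B (Finset.Subset.refl _) hB
    have h4 : 0 ≤ (H / δ) * ylog Y T := mul_nonneg hHδ.le (ylog_nonneg _ _)
    have h5 : (H / δ) * ylog Y B ≤ (H / δ) * H := mul_le_mul_of_nonneg_left hyB hHδ.le
    have h6 : -(H ^ 2 / δ) + Real.log (B.card : ℝ) ≤ Real.log (T.card : ℝ) := by
      have : (H / δ) * H = H ^ 2 / δ := by ring
      linarith only [h3, h4, h5, this]
    have h7 := Real.exp_le_exp.mpr h6
    rw [Real.exp_add, Real.exp_log hBp, Real.exp_log h1] at h7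
    exact h7
  · -- average of minimality
    have hav : ∑ s ∈ T, ∑ y ∈ Y, ((H / δ) * ylog Y T - Real.log (T.card : ℝ))
        ≤ ∑ s ∈ T, ∑ y ∈ Y, ((H / δ) * ylog Y (fib Y T (y - s)) - Real.log (cnt Y T (y - s))) := by
      refine Finset.sum_le_sum fun s hs => Finset.sum_le_sum fun y hy => ?_
      exact hmin' (fib Y T (y - s)) ((Finset.filter_subset _ _).trans hTB) ⟨s, mem_fib_self hs hy⟩
    have hl : ∑ s ∈ T, ∑ y ∈ Y, Real.log ((T.card : ℝ) / cnt Y T (y - s))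
        = ∑ s ∈ T, ∑ y ∈ Y, (Real.log (T.card : ℝ) - Real.log (cnt Y T (y - s))) := by
      refine Finset.sum_congr rfl fun s hs => Finset.sum_congr rfl fun y hy => ?_
      rw [Real.log_div h1.ne' (cnt_pos hs hy).ne']
    have hym := ylog_mul Y T hY hTne
    rw [hl] at hym
    simp only [Finset.sum_sub_distrib, Finset.sum_const, nsmul_eq_mul, ← Finset.mul_sum] at hav hym
    have hkl := kl_eq Y T hY hTne
    simp only [← Finset.sum_mul] at hkl
    set X := ∑ s ∈ T, ∑ y ∈ Y, ylog Y (fib Y T (y - s)) with hX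
    -- (H/δ) (y(T) n m - X) ≤ y(T) n m
    have h8 : (H / δ) * (ylog Y T * ((T.card : ℝ) * (Y.card : ℝ)) - X)
        ≤ ylog Y T * ((T.card : ℝ) * (Y.card : ℝ)) := by
      linarith only [hav, hym]
    have h9 : (H / δ) * (ylog Y T * ((T.card : ℝ) * (Y.card : ℝ)) - X)
        ≤ H * ((T.card : ℝ) * (Y.card : ℝ)) :=
      h8.trans (mul_le_mul_of_nonneg_right hyT (by positivity))
    have h10 : (ylog Y T * ((T.card : ℝ) * (Y.card : ℝ)) - X) ≤ δ * ((T.card : ℝ) * (Y.card : ℝ)) := by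
      have e1 : (H / δ) * (δ * ((T.card : ℝ) * (Y.card : ℝ))) = H * ((T.card : ℝ) * (Y.card : ℝ)) := by
        field_simp
      rw [← e1] at h9
      exact le_of_mul_le_mul_left h9 hHδ
    rw [hkl]
    have h11 := mul_le_mul_of_nonneg_right h10 h2.le
    calc ylog Y T * ((T.card : ℝ) * (Y.card : ℝ) ^ 2) - X * (Y.card : ℝ)
        = (ylog Y T * ((T.card : ℝ) * (Y.card : ℝ)) - X) * (Y.card : ℝ) := by ring
      _ ≤ δ * ((T.card : ℝ) * (Y.card : ℝ)) * (Y.card : ℝ) := h11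
      _ = _ := by ring

theorem kl_prod_sum (Y T : Finset G) (hT : T.Nonempty) (e : G → ℝ) (he0 : ∀ z, 0 ≤ e z) :
    ∑ s ∈ T, ∑ y ∈ Y, ∑ y' ∈ Y,
        (cnt Y T (y - s) * cnt Y T (y' - s) / ((T.card : ℝ) * cnt Y (fib Y T (y - s)) (y' - s)))
          * e ((y - s) - (y' - s))
      ≤ (∑ s ∈ T, ∑ s' ∈ T, ∑ y ∈ Y, ∑ y' ∈ Y, e ((y - s) - (y' - s'))) / T.card := by
  have h1 : (0:ℝ) < T.card := by exact_mod_cast hT.card_pos
  have h3 := sum_cnt_fib Y T (fun z z' => cnt Y T z * cnt Y T z' /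
      ((T.card : ℝ) * cnt Y (fib Y T z) z') * e (z - z'))
  rw [← h3]
  have h4 : ∑ z, ∑ z', cnt Y (fib Y T z) z' * (cnt Y T z * cnt Y T z' /
      ((T.card : ℝ) * cnt Y (fib Y T z) z') * e (z - z'))
        ≤ ∑ z, ∑ z', (cnt Y T z * (cnt Y T z' * (e (z - z') / T.card))) := by
    refine Finset.sum_le_sum fun z _ => Finset.sum_le_sum fun z' _ => ?_
    have d1 := cnt_nonneg Y T z
    have d2 := cnt_nonneg Y T z'
    have d3 := he0 (z - z')
    by_cases hc : cnt Y (fib Y T z) z' = 0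
    · rw [hc, zero_mul]; (clear * - d1 d2 d3 h1; positivity)
    · refine le_of_eq ?_
      generalize cnt Y (fib Y T z) z' = c at hc ⊢
      generalize cnt Y T z = c1
      generalize cnt Y T z' = c2
      generalize e (z - z') = e0
      have h1' := h1.ne'
      (clear * - h1' hc; field_simp)
  refine h4.trans (le_of_eq ?_)
  have h6 : ∀ z, ∑ z', (cnt Y T z * (cnt Y T z' * (e (z - z') / T.card)))
      = cnt Y T z * (∑ s' ∈ T, ∑ y' ∈ Y, e (z - (y' - s')) / T.card) := by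
    intro z
    rw [← sum_cnt_mul Y T (fun z' => e (z - z') / T.card), Finset.mul_sum]
  simp only [h6]
  rw [sum_cnt_mul Y T (fun z => ∑ s' ∈ T, ∑ y' ∈ Y, e (z - (y' - s')) / T.card)]
  simp only [Finset.sum_div]
  refine Finset.sum_congr rfl fun s _ => ?_
  rw [Finset.sum_comm]

/-- logarithmic inequality behind the Donsker–Varadhan step -/
theorem kl_log_ineq (Y T : Finset G) (hY : Y.Nonempty) (hT : T.Nonempty) (e : G → ℝ)
    (he0 : ∀ z, 0 < e z) (Z : ℝ) (hZ0 : 0 < Z)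
    (hZ : ∑ s ∈ T, ∑ s' ∈ T, ∑ y ∈ Y, ∑ y' ∈ Y, e ((y - s) - (y' - s'))
      ≤ Z * ((T.card : ℝ) * ((T.card : ℝ) * (Y.card : ℝ) ^ 2))) :
    (T.card : ℝ) * ∑ y ∈ Y, ∑ y' ∈ Y, Real.log (e (y - y'))
      ≤ kl Y T + ((T.card : ℝ) * (Y.card : ℝ) ^ 2) * Real.log Z := by
  have h1 : (0:ℝ) < T.card := by exact_mod_cast hT.card_pos
  have h2 : (0:ℝ) < Y.card := by exact_mod_cast hY.card_pos
  have hA := kl_prod_sum Y T hT e (fun z => (he0 z).le)
  have hpt : ∑ s ∈ T, ∑ y ∈ Y, ∑ y' ∈ Y,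
      (- Real.log ((T.card : ℝ) * cnt Y (fib Y T (y - s)) (y' - s) /
        (cnt Y T (y - s) * cnt Y T (y' - s))) + Real.log (e (y - y')) - Real.log Z)
      ≤ ∑ s ∈ T, ∑ y ∈ Y, ∑ y' ∈ Y,
        (Z⁻¹ * ((cnt Y T (y - s) * cnt Y T (y' - s) /
          ((T.card : ℝ) * cnt Y (fib Y T (y - s)) (y' - s))) * e ((y - s) - (y' - s))) - 1) := by
    refine Finset.sum_le_sum fun s hs => Finset.sum_le_sum fun y hy =>
      Finset.sum_le_sum fun y' hy' => ?_
    have c1 := cnt_pos hs hy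
    have c2 := cnt_pos hs hy'
    have c3 := cnt2_pos hs hy hy'
    have e1 : (y - s) - (y' - s) = y - y' := by abel
    rw [e1]
    have c4 := he0 (y - y')
    generalize cnt Y (fib Y T (y - s)) (y' - s) = x3 at c3 ⊢
    generalize cnt Y T (y - s) = x1 at c1 ⊢
    generalize cnt Y T (y' - s) = x2 at c2 ⊢
    generalize e (y - y') = x4 at c4 ⊢
    have h3 := Real.log_le_sub_one_of_pos (show 0 < Z⁻¹ * ((x1 * x2 / ((T.card : ℝ) * x3)) * x4) by
      (clear * - hZ0 c1 c2 c3 c4 h1; positivity))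
    refine le_trans (le_of_eq ?_) h3
    have hZi : Z⁻¹ ≠ 0 := (inv_pos.mpr hZ0).ne'
    have hx : (x1 * x2 / ((T.card : ℝ) * x3)) ≠ 0 := by
      have : 0 < (x1 * x2 / ((T.card : ℝ) * x3)) := by (clear * - c1 c2 c3 h1; positivity)
      exact this.ne'
    rw [Real.log_mul hZi (mul_ne_zero hx c4.ne'), Real.log_mul hx c4.ne', Real.log_inv,
      Real.log_div (mul_pos c1 c2).ne' (mul_pos h1 c3).ne',
      Real.log_div (mul_pos h1 c3).ne' (mul_pos c1 c2).ne']
    ring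
  have hL : ∑ s ∈ T, ∑ y ∈ Y, ∑ y' ∈ Y,
      (- Real.log ((T.card : ℝ) * cnt Y (fib Y T (y - s)) (y' - s) /
        (cnt Y T (y - s) * cnt Y T (y' - s))) + Real.log (e (y - y')) - Real.log Z)
      = - kl Y T + (T.card : ℝ) * ∑ y ∈ Y, ∑ y' ∈ Y, Real.log (e (y - y'))
        - ((T.card : ℝ) * (Y.card : ℝ) ^ 2) * Real.log Z := by
    simp only [Finset.sum_add_distrib, Finset.sum_sub_distrib, Finset.sum_neg_distrib,
      Finset.sum_const, nsmul_eq_mul]
    unfold kl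
    ring
  have hR : ∑ s ∈ T, ∑ y ∈ Y, ∑ y' ∈ Y,
        (Z⁻¹ * ((cnt Y T (y - s) * cnt Y T (y' - s) /
          ((T.card : ℝ) * cnt Y (fib Y T (y - s)) (y' - s))) * e ((y - s) - (y' - s))) - 1) ≤ 0 := by
    simp only [Finset.sum_sub_distrib, Finset.sum_const, nsmul_eq_mul, mul_one, ← Finset.mul_sum]
    have h5 := mul_le_mul_of_nonneg_left hA (inv_pos.mpr hZ0).le
    have h6 : Z⁻¹ * ((∑ s ∈ T, ∑ s' ∈ T, ∑ y ∈ Y, ∑ y' ∈ Y, e ((y - s) - (y' - s'))) / T.card)
        ≤ Z⁻¹ * ((Z * ((T.card : ℝ) * ((T.card : ℝ) * (Y.card : ℝ) ^ 2))) / T.card) := by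
      apply mul_le_mul_of_nonneg_left _ (inv_pos.mpr hZ0).le
      exact div_le_div_of_nonneg_right hZ h1.le
    have h7 : Z⁻¹ * ((Z * ((T.card : ℝ) * ((T.card : ℝ) * (Y.card : ℝ) ^ 2))) / T.card)
        = (T.card : ℝ) * ((Y.card : ℝ) * (Y.card : ℝ)) := by
      have h1' := h1.ne'
      have hZ' := hZ0.ne'
      (clear * - h1' hZ'; field_simp)
    linarith only [h5, h6, h7]
  rw [hL] at hpt
  linarith only [hpt, hR]

/-- Donsker–Varadhan step: if at least half of the differences `y - y'` lie in `S` and the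
relative entropy is at most `δ`, then many of the differences `(y - s) - (y' - s')` lie in `S` -/
theorem kl_transfer (Y T S : Finset G) (hY : Y.Nonempty) (hT : T.Nonempty) (δ : ℝ) (hδ : 0 ≤ δ)
    (hkl : kl Y T ≤ δ * ((T.card : ℝ) * (Y.card : ℝ) ^ 2))
    (hS : (1/2) * (Y.card : ℝ) ^ 2 ≤ ∑ y ∈ Y, ∑ y' ∈ Y, if y - y' ∈ S then (1:ℝ) else 0) :
    Real.exp (-(2 * δ)) / 4 * ((T.card : ℝ) ^ 2 * (Y.card : ℝ) ^ 2)
      ≤ ∑ s ∈ T, ∑ s' ∈ T, ∑ y ∈ Y, ∑ y' ∈ Y, if (y - s) - (y' - s') ∈ S then (1:ℝ) else 0 := by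
  have h1 : (0:ℝ) < T.card := by exact_mod_cast hT.card_pos
  have h2 : (0:ℝ) < Y.card := by exact_mod_cast hY.card_pos
  set n : ℝ := (T.card : ℝ) * (Y.card : ℝ) ^ 2 with hn
  have hn0 : 0 < n := by positivity
  set a : ℝ := 2 * (δ + Real.log 2) with ha
  have hlog2 : 0 < Real.log 2 := Real.log_pos (by norm_num)
  have ha0 : 0 < a := by positivity
  generalize hQ : (∑ s ∈ T, ∑ s' ∈ T, ∑ y ∈ Y, ∑ y' ∈ Y,
    (if (y - s) - (y' - s') ∈ S then (1:ℝ) else 0)) = Q
  have hQ0 : 0 ≤ Q := by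
    rw [← hQ]
    refine Finset.sum_nonneg fun _ _ => Finset.sum_nonneg fun _ _ => Finset.sum_nonneg fun _ _ =>
      Finset.sum_nonneg fun _ _ => ?_
    split_ifs <;> norm_num
  have hea : Real.exp (-(2 * δ)) / 4 = Real.exp (-a) := by
    rw [ha]
    have : -(2 * (δ + Real.log 2)) = -(2 * δ) + -(Real.log 4) := by
      have : Real.log 4 = 2 * Real.log 2 := by
        rw [show (4:ℝ) = 2 ^ 2 by norm_num, Real.log_pow]; push_cast; ring
      rw [this]; ring
    rw [this, Real.exp_add, Real.exp_neg (Real.log 4), Real.exp_log (by norm_num)]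
    ring
  rw [hea]
  by_contra hcon
  push Not at hcon
  have heq : ∀ z : G, (if z ∈ S then Real.exp a else 1)
      = 1 + (Real.exp a - 1) * (if z ∈ S then (1:ℝ) else 0) := by
    intro z; split_ifs <;> ring
  have hlog : ∀ z : G, Real.log (if z ∈ S then Real.exp a else 1)
      = a * (if z ∈ S then (1:ℝ) else 0) := by
    intro z; split_ifs
    · rw [Real.log_exp, mul_one]
    · rw [Real.log_one, mul_zero]
  have hZs : ∑ s ∈ T, ∑ s' ∈ T, ∑ y ∈ Y, ∑ y' ∈ Y,
      (if (y - s) - (y' - s') ∈ S then Real.exp a else 1)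
      = (T.card : ℝ) * n + (Real.exp a - 1) * Q := by
    simp only [heq, Finset.sum_add_distrib, ← Finset.mul_sum, Finset.sum_const, nsmul_eq_mul]
    rw [hQ, hn]
    ring
  have h3 : (Real.exp a - 1) * Q < (T.card : ℝ) * n := by
    have h3 : (Real.exp a - 1) * Q ≤ Real.exp a * Q := by nlinarith only [hQ0]
    have h4 : Real.exp a * Q < Real.exp a * (Real.exp (-a) * ((T.card : ℝ) ^ 2 * (Y.card : ℝ) ^ 2)) :=
      mul_lt_mul_of_pos_left hcon (Real.exp_pos _)
    have h5 : Real.exp a * (Real.exp (-a) * ((T.card : ℝ) ^ 2 * (Y.card : ℝ) ^ 2))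
        = (T.card : ℝ) * n := by
      rw [← mul_assoc, ← Real.exp_add, add_neg_cancel, Real.exp_zero, hn]; ring
    linarith only [h3, h4, h5]
  have h30 : 0 ≤ (Real.exp a - 1) * Q := by
    have : 1 ≤ Real.exp a := Real.one_le_exp ha0.le
    exact mul_nonneg (by linarith only [this]) hQ0
  set Z : ℝ := 1 + (Real.exp a - 1) * Q / ((T.card : ℝ) * n) with hZ
  have hTn : 0 < (T.card : ℝ) * n := mul_pos h1 hn0
  have hZ0 : 0 < Z := by
    have : 0 ≤ (Real.exp a - 1) * Q / ((T.card : ℝ) * n) := div_nonneg h30 hTn.le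
    linarith only [hZ, this]
  have hZ2 : Z < 2 := by
    have : (Real.exp a - 1) * Q / ((T.card : ℝ) * n) < 1 := by
      rw [div_lt_one hTn]; exact h3
    linarith only [hZ, this]
  have hmain := kl_log_ineq Y T hY hT (fun z => if z ∈ S then Real.exp a else 1)
    (by
      intro z
      split_ifs
      · exact Real.exp_pos _
      · norm_num) Z hZ0
    (by
      rw [hZs, ← hn, hZ, add_mul, one_mul, div_mul_cancel₀ _ hTn.ne'])
  simp only [hlog, ← Finset.mul_sum] at hmain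
  rw [← hn] at hmain
  have hlogZ : Real.log Z < Real.log 2 := Real.log_lt_log hZ0 hZ2
  have h9 : a * ((T.card : ℝ) * ((1/2) * (Y.card : ℝ) ^ 2))
      ≤ a * ((T.card : ℝ) * ∑ y ∈ Y, ∑ y' ∈ Y, if y - y' ∈ S then (1:ℝ) else 0) :=
    mul_le_mul_of_nonneg_left (mul_le_mul_of_nonneg_left hS h1.le) ha0.le
  have h10 : a * ((T.card : ℝ) * ((1/2) * (Y.card : ℝ) ^ 2)) = n * (δ + Real.log 2) := by
    rw [ha, hn]; ring
  have h11 : n * Real.log Z < n * Real.log 2 := mul_lt_mul_of_pos_left hlogZ hn0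
  nlinarith only [hmain, h9, h10, h11, hkl]

end Vale.Agent.P057.H57
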