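import Vale.Agent.P057.R2.h57.Sift
import Vale.Agent.P057.R2.h57.KL

set_option linter.all false

open Finset

namespace Vale.Agent.P057.H57

variable {G : Type*} [AddCommGroup G] [Fintype G] [DecidableEq G]

theorem one_sub_ge_exp (x : ℝ) (h0 : 0 ≤ x) (h1 : x ≤ 1/2) : Real.exp (-(2 * x)) ≤ 1 - x := by
  have h2 := Real.add_one_le_exp (2 * x)
  have h3 : 1 ≤ (1 - x) * Real.exp (2 * x) := by
    have : (1 - x) * (2 * x + 1) ≤ (1 - x) * Real.exp (2 * x) :=
      mul_le_mul_of_nonneg_left h2 (by linarith)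
    nlinarith only [this, h0, h1]
  rw [Real.exp_neg]
  rw [inv_le_iff_one_le_mul₀ (Real.exp_pos _)]
  exact h3

theorem two_mul_le_exp (x : ℝ) (h0 : 0 ≤ x) : 2 * x ≤ Real.exp x := by
  have := Real.quadratic_le_exp_of_nonneg h0
  nlinarith only [this, sq_nonneg (x - 1)]

theorem Tight.few_pairs {f : G → ℝ} {Y : Finset G} {t η s g : ℝ} (h : Tight f Y t η s g)
    (r : G) (ε : ℝ) (hε0 : 0 < ε) (hε : 72 * η ≤ ε) (hε1 : ε ≤ 1) (lam : ℕ)
    (hs : (g + 2) * lam ≤ s)
    (hP : en f (ind Y) (trn (ind Y) r) < (1 - ε) * t * (Y.card : ℝ) ^ 2) :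
    ∑ y ∈ Y, ∑ y' ∈ Y, (if (1 - ε/16) * t ≤ corr f (y - (y' + r)) then (1:ℝ) else 0)
      ≤ 2 * Real.exp (-(ε * lam / 8)) * (Y.card : ℝ) ^ 2 := by
  have hn : (0:ℝ) < Y.card := by exact_mod_cast h.ne.card_pos
  have ht := h.tpos
  have hS0 : 0 ≤ ∑ x, f x := h.tpos.le.trans h.sup_ge
  have hm := h.mom_bound r ε hε hε1 hP lam
  have hl0 : (0:ℝ) ≤ lam := Nat.cast_nonneg _
  -- lower bound of the moment
  have hlow : ((1 - ε/16) * t) ^ lam *
      ∑ y ∈ Y, ∑ y' ∈ Y, (if (1 - ε/16) * t ≤ corr f (y - (y' + r)) then (1:ℝ) else 0)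
      ≤ mom f (ind Y) (trn (ind Y) r) lam := by
    rw [mom_ind_trn, Finset.mul_sum]
    refine Finset.sum_le_sum fun y _ => ?_
    rw [Finset.mul_sum]
    refine Finset.sum_le_sum fun y' _ => ?_
    split_ifs with hc
    · rw [mul_one]
      exact pow_le_pow_left₀ (mul_nonneg (by linarith only [hε1]) ht.le) hc _
    · rw [mul_zero]
      exact pow_nonneg (corr_nonneg' f h.f0 _) _
  generalize (∑ y ∈ Y, ∑ y' ∈ Y,
    (if (1 - ε/16) * t ≤ corr f (y - (y' + r)) then (1:ℝ) else 0)) = B at hlow ⊢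
  have h1 : (1 - ε/4) ^ lam ≤ Real.exp (-(ε * lam / 4)) := by
    have e1 : 1 - ε/4 ≤ Real.exp (-(ε/4)) := by
      have := Real.add_one_le_exp (-(ε/4)); linarith only [this]
    have e2 : Real.exp (-(ε * lam / 4)) = Real.exp (-(ε/4)) ^ lam := by
      rw [← Real.exp_nat_mul]; congr 1; ring
    rw [e2]
    exact pow_le_pow_left₀ (by linarith only [hε1]) e1 _
  have h2 : Real.exp (-(ε * lam / 8)) ≤ (1 - ε/16) ^ lam := by
    have e1 := one_sub_ge_exp (ε/16) (by positivity) (by linarith only [hε1])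
    have e2 : Real.exp (-(ε * lam / 8)) = Real.exp (-(2 * (ε/16))) ^ lam := by
      rw [← Real.exp_nat_mul]; congr 1; ring
    rw [e2]
    exact pow_le_pow_left₀ (Real.exp_pos _).le e1 _
  have h3 : 2 * lam * Real.exp (-s) * (∑ x, f x) ^ lam ≤ Real.exp (-(ε * lam / 4)) * t ^ lam := by
    have e1 : (∑ x, f x) ^ lam ≤ (Real.exp g * t) ^ lam := pow_le_pow_left₀ hS0 h.sup _
    have e2 : (Real.exp g * t) ^ lam = Real.exp (g * lam) * t ^ lam := by
      rw [mul_pow, ← Real.exp_nat_mul]; congr 2; ring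
    have e3 : Real.exp (-s) * Real.exp (g * lam) ≤ Real.exp (-(2 * lam)) := by
      rw [← Real.exp_add]
      apply Real.exp_le_exp.mpr
      linarith only [hs]
    have e4 : 2 * (lam : ℝ) * Real.exp (-(2 * lam)) ≤ Real.exp (-(ε * lam / 4)) := by
      have a1 := two_mul_le_exp (lam : ℝ) hl0
      have a2 : 2 * (lam : ℝ) * Real.exp (-(2 * lam)) ≤ Real.exp lam * Real.exp (-(2 * lam)) :=
        mul_le_mul_of_nonneg_right a1 (Real.exp_pos _).le
      rw [← Real.exp_add] at a2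
      refine a2.trans (Real.exp_le_exp.mpr ?_)
      nlinarith only [hε1, hl0]
    have ht' : 0 ≤ t ^ lam := by positivity
    calc 2 * lam * Real.exp (-s) * (∑ x, f x) ^ lam
        ≤ 2 * lam * Real.exp (-s) * (Real.exp (g * lam) * t ^ lam) := by
          rw [← e2]
          exact mul_le_mul_of_nonneg_left e1 (by positivity)
      _ = 2 * lam * (Real.exp (-s) * Real.exp (g * lam)) * t ^ lam := by ring
      _ ≤ 2 * lam * Real.exp (-(2 * lam)) * t ^ lam := by
          apply mul_le_mul_of_nonneg_right _ ht'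
          exact mul_le_mul_of_nonneg_left e3 (by positivity)
      _ ≤ _ := mul_le_mul_of_nonneg_right e4 ht'
  have h4 : mom f (ind Y) (trn (ind Y) r) lam
      ≤ 2 * Real.exp (-(ε * lam / 4)) * t ^ lam * (Y.card : ℝ) ^ 2 := by
    have e1 : ((1 - ε/4) * t) ^ lam ≤ Real.exp (-(ε * lam / 4)) * t ^ lam := by
      rw [mul_pow]
      exact mul_le_mul_of_nonneg_right h1 (by positivity)
    have e2 := mul_le_mul_of_nonneg_right e1 (show 0 ≤ (Y.card : ℝ) ^ 2 by positivity)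
    have e3 := mul_le_mul_of_nonneg_right h3 (show 0 ≤ (Y.card : ℝ) ^ 2 by positivity)
    linarith only [hm, e2, e3]
  -- conclude
  by_contra hcon
  push Not at hcon
  have hB : 0 < B := lt_of_le_of_lt (by positivity) hcon
  have h5 : Real.exp (-(ε * lam / 8)) * t ^ lam * B ≤ ((1 - ε/16) * t) ^ lam * B := by
    rw [mul_pow]
    apply mul_le_mul_of_nonneg_right _ hB.le
    exact mul_le_mul_of_nonneg_right h2 (by positivity)
  have h6 : Real.exp (-(ε * lam / 8)) * t ^ lam * (2 * Real.exp (-(ε * lam / 8)) * (Y.card : ℝ) ^ 2)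
      < Real.exp (-(ε * lam / 8)) * t ^ lam * B :=
    mul_lt_mul_of_pos_left hcon (by positivity)
  have h7 : Real.exp (-(ε * lam / 4)) = Real.exp (-(ε * lam / 8)) * Real.exp (-(ε * lam / 8)) := by
    rw [← Real.exp_add]; congr 1; ring
  rw [h7] at h4
  nlinarith only [h4, h5, h6, hlow]

/-- normalised distance between `Y` and `Y + r` -/
theorem Tight.dist_trn {f : G → ℝ} {Y : Finset G} {t η s g : ℝ} (h : Tight f Y t η s g)
    (r r' : G) :
    ∑ u, (vv f (trn (ind Y) r) u / (Y.card : ℝ) - vv f (trn (ind Y) r') u / (Y.card : ℝ)) ^ 2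
      = 2 * (t - en f (ind Y) (trn (ind Y) (r' - r)) / (Y.card : ℝ) ^ 2) := by
  have hn : (0:ℝ) < Y.card := by exact_mod_cast h.ne.card_pos
  rw [dist_sq f _ _ _ _ hn.ne' hn.ne', en_trn, en_trn, h.eng]
  have e1 : en f (trn (ind Y) r) (trn (ind Y) r') = en f (ind Y) (trn (ind Y) (r' - r)) := by
    have : trn (ind Y) r' = trn (trn (ind Y) (r' - r)) r := by
      rw [trn_trn]; congr 1; abel
    rw [this, en_trn]
  rw [e1]
  have h5 : t * (Y.card : ℝ) ^ 2 / (Y.card : ℝ) ^ 2 = t := by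
    field_simp
  rw [h5, ← sq]
  ring

theorem Tight.extract {f : G → ℝ} {Y : Finset G} {t η s g : ℝ} (h : Tight f Y t η s g)
    (ε : ℝ) (hε0 : 0 < ε) (hε : 72 * η ≤ ε) (hε1 : ε ≤ 1) (lam : ℕ)
    (hs : (g + 2) * lam ≤ s) (hlam : 64 ≤ ε * lam)
    (hv : 2 * η + Real.exp (2 * g - s) ≤ (ε/16) ^ 2 / 2)
    (T : Finset G) (hT : T.Nonempty)
    (hkl : kl Y T ≤ (ε * lam / 64) * ((T.card : ℝ) * (Y.card : ℝ) ^ 2)) :
    ∃ T' ⊆ T, T'.Nonempty ∧ Real.exp (-(ε * lam / 32)) / 8 * (T.card : ℝ) ≤ (T'.card : ℝ) ∧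
      ∀ a ∈ T', ∀ a' ∈ T', (1 - 4 * ε) * t * (Y.card : ℝ) ^ 2
        ≤ ∑ y ∈ Y, ∑ y' ∈ Y, corr f (y - y' + (a - a')) := by
  have hn : (0:ℝ) < Y.card := by exact_mod_cast h.ne.card_pos
  have hTn : (0:ℝ) < T.card := by exact_mod_cast hT.card_pos
  have ht := h.tpos
  set S : Finset G := univ.filter (fun z => (1 - ε/16) * t ≤ corr f z) with hS
  have hmem : ∀ z : G, z ∈ S ↔ (1 - ε/16) * t ≤ corr f z := by
    intro z; rw [hS, Finset.mem_filter]; simp
  have hcon := h.concentration (ε/16) (by positivity) hv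
  have hDV := kl_transfer Y T S h.ne hT (ε * lam / 64) (by positivity) hkl
    (by simp only [hmem]; exact hcon)
  simp only [hmem] at hDV
  have e1 : 2 * (ε * lam / 64) = ε * lam / 32 := by ring
  rw [e1] at hDV
  set E : ℝ := Real.exp (-(ε * lam / 32)) with hE
  have hE0 : 0 < E := Real.exp_pos _
  let hh : G → G → ℝ := fun a a' => ∑ y ∈ Y, ∑ y' ∈ Y,
    if (1 - ε/16) * t ≤ corr f ((y - a) - (y' - a')) then (1:ℝ) else 0
  have hhle : ∀ a a', hh a a' ≤ (Y.card : ℝ) ^ 2 := by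
    intro a a'
    simp only [hh]
    calc ∑ y ∈ Y, ∑ y' ∈ Y, (if (1 - ε/16) * t ≤ corr f ((y - a) - (y' - a')) then (1:ℝ) else 0)
        ≤ ∑ y ∈ Y, ∑ y' ∈ Y, (1:ℝ) := by
          refine Finset.sum_le_sum fun _ _ => Finset.sum_le_sum fun _ _ => ?_
          split_ifs <;> norm_num
      _ = (Y.card : ℝ) ^ 2 := by simp [sq]
  -- choose s0
  obtain ⟨s0, hs0, hs0'⟩ : ∃ s0 ∈ T, E / 4 * ((T.card : ℝ) * (Y.card : ℝ) ^ 2)
      ≤ ∑ a ∈ T, hh a s0 := by
    by_contra hno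
    push Not at hno
    have h1 := Finset.sum_lt_sum_of_nonempty hT hno
    rw [Finset.sum_const, nsmul_eq_mul, Finset.sum_comm] at h1
    have h2 : ∑ a ∈ T, ∑ a' ∈ T, hh a a' = ∑ s ∈ T, ∑ s' ∈ T, ∑ y ∈ Y, ∑ y' ∈ Y,
      (if (1 - ε/16) * t ≤ corr f (y - s - (y' - s')) then (1:ℝ) else 0) := rfl
    rw [h2] at h1
    nlinarith only [h1, hDV]
  set T' := T.filter (fun a => E / 8 * (Y.card : ℝ) ^ 2 ≤ hh a s0) with hT'
  have hcard : E / 8 * (T.card : ℝ) ≤ (T'.card : ℝ) := by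
    have h1 : ∑ a ∈ T, hh a s0 ≤ ∑ a ∈ T, ((if E / 8 * (Y.card : ℝ) ^ 2 ≤ hh a s0 then
        (Y.card : ℝ) ^ 2 else 0) + E / 8 * (Y.card : ℝ) ^ 2) := by
      refine Finset.sum_le_sum fun a _ => ?_
      split_ifs with hc
      · have := hhle a s0
        have : 0 ≤ E / 8 * (Y.card : ℝ) ^ 2 := by positivity
        linarith
      · push Not at hc
        linarith only [hc]
    rw [Finset.sum_add_distrib, ← Finset.sum_filter, Finset.sum_const, Finset.sum_const,
      nsmul_eq_mul, nsmul_eq_mul, ← hT'] at h1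
    have h2 : E / 8 * (T.card : ℝ) * (Y.card : ℝ) ^ 2 ≤ (T'.card : ℝ) * (Y.card : ℝ) ^ 2 := by
      linarith only [h1, hs0']
    exact le_of_mul_le_mul_right h2 (by positivity)
  have hT'ne : T'.Nonempty := by
    rw [← Finset.card_pos]
    have : (0:ℝ) < T'.card := lt_of_lt_of_le (by positivity) hcard
    exact_mod_cast this
  refine ⟨T', Finset.filter_subset _ _, hT'ne, hcard, ?_⟩
  -- the individual shifts
  have hP : ∀ a ∈ T', (1 - ε) * t * (Y.card : ℝ) ^ 2 ≤ en f (ind Y) (trn (ind Y) (a - s0)) := by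
    intro a ha
    by_contra hno
    push Not at hno
    have h1 := h.few_pairs (a - s0) ε hε0 hε hε1 lam hs hno
    have h2 := (Finset.mem_filter.mp ha).2
    have h3 : hh a s0 = ∑ y ∈ Y, ∑ y' ∈ Y,
        (if (1 - ε/16) * t ≤ corr f (y - (y' + (a - s0))) then (1:ℝ) else 0) := by
      simp only [hh]
      refine Finset.sum_congr rfl fun y _ => Finset.sum_congr rfl fun y' _ => ?_
      have : y - a - (y' - s0) = y - (y' + (a - s0)) := by abel
      rw [this]
    rw [h3] at h2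
    have h4 : E / 8 ≤ 2 * Real.exp (-(ε * lam / 8)) := by
      have h5 := h2.trans h1
      exact le_of_mul_le_mul_right h5 (by positivity)
    have h5 : Real.exp (-(ε * lam / 8)) = E * Real.exp (-(3 * (ε * lam) / 32)) := by
      rw [hE, ← Real.exp_add]; congr 1; ring
    rw [h5] at h4
    have h6 : Real.exp (-(3 * (ε * lam) / 32)) ≤ Real.exp (-6) := by
      apply Real.exp_le_exp.mpr
      linarith only [hlam]
    have h7 : Real.exp (-6) < 1/16 := by
      rw [Real.exp_neg, inv_lt_comm₀ (Real.exp_pos _) (by norm_num)]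
      have h8 : Real.exp 6 = Real.exp 1 ^ 6 := by
        rw [← Real.exp_nat_mul]; norm_num
      rw [h8]
      have h9 : (2:ℝ) ≤ Real.exp 1 := by
        have := Real.exp_one_gt_d9; linarith only [this]
      have h10 : (2:ℝ) ^ 6 ≤ Real.exp 1 ^ 6 := pow_le_pow_left₀ (by norm_num) h9 6
      have : ((1/16 : ℝ))⁻¹ < 2 ^ 6 := by norm_num
      linarith only [this, h10]
    have h8 : E * Real.exp (-(3 * (ε * lam) / 32)) < E * (1/16) :=
      mul_lt_mul_of_pos_left (lt_of_le_of_lt h6 h7) hE0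
    linarith only [h4, h8]
  intro a ha a' ha'
  have h0 := h.dist_trn (0 : G) (a - s0)
  have h0' := h.dist_trn (0 : G) (a' - s0)
  have h1 := h.dist_trn (a - s0) (a' - s0)
  rw [sub_zero, trn_zero] at h0 h0'
  have e2 : a' - s0 - (a - s0) = a' - a := by abel
  rw [e2] at h1
  have hle : ∑ u, (vv f (trn (ind Y) (a - s0)) u / (Y.card : ℝ)
      - vv f (trn (ind Y) (a' - s0)) u / (Y.card : ℝ)) ^ 2
      ≤ ∑ u, 2 * ((vv f (ind Y) u / (Y.card : ℝ)
          - vv f (trn (ind Y) (a - s0)) u / (Y.card : ℝ)) ^ 2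
        + (vv f (ind Y) u / (Y.card : ℝ) - vv f (trn (ind Y) (a' - s0)) u / (Y.card : ℝ)) ^ 2) := by
    refine Finset.sum_le_sum fun u _ => ?_
    generalize vv f (trn (ind Y) (a - s0)) u / (Y.card : ℝ) = x
    generalize vv f (trn (ind Y) (a' - s0)) u / (Y.card : ℝ) = y
    generalize vv f (ind Y) u / (Y.card : ℝ) = z
    nlinarith only [sq_nonneg ((z - x) + (z - y))]
  rw [← Finset.mul_sum, Finset.sum_add_distrib, h0, h0', h1] at hle
  have hPa : (1 - ε) * t ≤ en f (ind Y) (trn (ind Y) (a - s0)) / (Y.card : ℝ) ^ 2 := by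
    rw [le_div_iff₀ (by positivity)]; exact hP a ha
  have hPa' : (1 - ε) * t ≤ en f (ind Y) (trn (ind Y) (a' - s0)) / (Y.card : ℝ) ^ 2 := by
    rw [le_div_iff₀ (by positivity)]; exact hP a' ha'
  have hfin : (1 - 4 * ε) * t ≤ en f (ind Y) (trn (ind Y) (a' - a)) / (Y.card : ℝ) ^ 2 := by
    linarith only [hle, hPa, hPa']
  rw [le_div_iff₀ (by positivity)] at hfin
  refine hfin.trans (le_of_eq ?_)
  rw [en_eq_mom, mom_ind_trn]
  refine Finset.sum_congr rfl fun y _ => Finset.sum_congr rfl fun y' _ => ?_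
  rw [pow_one]
  congr 1
  abel

end Vale.Agent.P057.H57
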