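import Vale.Agent.P057.R2.h57.Layer
import Mathlib.Analysis.Convex.SpecificFunctions.Pow

set_option linter.all false

open Finset

namespace Vale.Agent.P057.H57

variable {G : Type*} [AddCommGroup G] [Fintype G] [DecidableEq G]

theorem en_le_of_sup (f w : G → ℝ) (hf0 : ∀ x, 0 ≤ f x) (hf1 : ∀ x, f x ≤ 1)
    (hw : ∀ x, 0 ≤ w x) : nrm f w ≤ Real.sqrt (∑ x, f x) * mass w := by
  have h := en_le_sup f w w hf0 hf1 hw hw
  have hS : 0 ≤ ∑ x, f x := Finset.sum_nonneg fun _ _ => hf0 _
  unfold nrm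
  calc Real.sqrt (en f w w) ≤ Real.sqrt ((∑ x, f x) * (mass w * mass w)) := Real.sqrt_le_sqrt h
    _ = Real.sqrt (∑ x, f x) * mass w := by
      rw [Real.sqrt_mul hS, Real.sqrt_mul_self (mass_nonneg w hw)]

/-- minimum degree from tightness -/
theorem deg_of_tight (f : G → ℝ) (hf0 : ∀ x, 0 ≤ f x) (Y : Finset G) (t κ Λ : ℝ) (ht : 0 < t)
    (hκ0 : 0 ≤ κ) (hκ1 : κ ≤ 1) (hΛ : 1 ≤ Λ)
    (heng : en f (ind Y) (ind Y) = t * (Y.card : ℝ) ^ 2)
    (htight : ∀ Z ⊆ Y, Z.Nonempty → Real.exp (-Λ) * (Y.card : ℝ) ≤ (Z.card : ℝ) →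
      en f (ind Z) (ind Z) ≤ t * ((Y.card : ℝ) / (Z.card : ℝ)) ^ κ * (Z.card : ℝ) ^ 2)
    (y : G) (hy : y ∈ Y) :
    (1 - κ / 2) * t * (Y.card : ℝ) ≤ ∑ y' ∈ Y, corr f (y - y') := by
  have hYne : Y.Nonempty := ⟨y, hy⟩
  have hn : (0:ℝ) < Y.card := by exact_mod_cast hYne.card_pos
  have hdeg : en f (ind {y}) (ind Y) = ∑ y' ∈ Y, corr f (y - y') := by
    rw [en_ind_right]
    have := sum_ind_mul {y} (fun z => ∑ y' ∈ Y, corr f (z - y'))
    rw [this, Finset.sum_singleton]
  set Z := Y.erase y with hZ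
  have hsplit : ind Y = fun z => ind Z z + ind {y} z := by
    funext z
    unfold ind
    by_cases h1 : z = y
    · subst h1
      simp [hZ, hy]
    · by_cases h2 : z ∈ Y <;> simp [hZ, h1, h2]
  have hen : en f (ind Y) (ind Y) = en f (ind Z) (ind Y) + en f (ind {y}) (ind Y) := by
    conv_lhs => rw [hsplit]
    rw [en_add_left]
    rw [← hsplit]
  have hcardZ : (Z.card : ℝ) = (Y.card : ℝ) - 1 := by
    rw [hZ, Finset.card_erase_of_mem hy, Nat.cast_sub hYne.card_pos]; simp
  rcases Z.eq_empty_or_nonempty with hemp | hne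
  · have h1 : en f (ind Z) (ind Y) = 0 := by
      rw [hemp]
      unfold en vv ind
      simp
    have h2 : (Y.card : ℝ) = 1 := by
      have : (Z.card : ℝ) = 0 := by rw [hemp]; simp
      linarith only [this, hcardZ]
    rw [h1, zero_add, heng, hdeg] at hen
    rw [← hen, h2]
    nlinarith only [ht, hκ0]
  · have hm : (0:ℝ) < Z.card := by exact_mod_cast hne.card_pos
    have hm1 : (1:ℝ) ≤ Z.card := by exact_mod_cast hne.card_pos
    have hcut : Real.exp (-Λ) * (Y.card : ℝ) ≤ (Z.card : ℝ) := by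
      have e1 : Real.exp (-Λ) ≤ 1/2 := by
        rw [Real.exp_neg, ← one_div]
        apply one_div_le_one_div_of_le (by norm_num)
        have := Real.add_one_le_exp Λ
        linarith only [this, hΛ]
      have e2 : Real.exp (-Λ) * (Y.card : ℝ) ≤ 1/2 * (Y.card : ℝ) :=
        mul_le_mul_of_nonneg_right e1 hn.le
      linarith only [e2, hcardZ, hm1]
    have h1 := htight Z (Finset.erase_subset _ _) hne hcut
    set p : ℝ := κ / 2 with hp
    have hp0 : 0 ≤ p := by positivity
    have hp1 : p ≤ 1 := by linarith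
    set ρ : ℝ := ((Y.card : ℝ) / (Z.card : ℝ)) ^ p with hρ
    have hρ0 : 0 ≤ ρ := Real.rpow_nonneg (by positivity) _
    have hρ2 : ((Y.card : ℝ) / (Z.card : ℝ)) ^ κ = ρ ^ 2 := by
      rw [hρ, ← Real.rpow_natCast, ← Real.rpow_mul (by positivity)]
      congr 1
      rw [hp]; push_cast; ring
    rw [hρ2] at h1
    have hρle : (Z.card : ℝ) * ρ ≤ (Z.card : ℝ) + p := by
      have e1 : (Y.card : ℝ) / (Z.card : ℝ) = 1 + 1 / (Z.card : ℝ) := by
        have : (Y.card : ℝ) = (Z.card : ℝ) + 1 := by linarith only [hcardZ]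
        rw [this, add_div, div_self hm.ne']
      have e2 : ρ ≤ 1 + p * (1 / (Z.card : ℝ)) := by
        rw [hρ, e1]
        have e0 : (-1 : ℝ) ≤ 1 / (Z.card : ℝ) := by
          have : 0 ≤ 1 / (Z.card : ℝ) := by positivity
          linarith only [this]
        exact rpow_one_add_le_one_add_mul_self e0 hp0 hp1
      have e3 := mul_le_mul_of_nonneg_left e2 hm.le
      have e4 : (Z.card : ℝ) * (1 + p * (1 / (Z.card : ℝ))) = (Z.card : ℝ) + p := by
        field_simp
      linarith only [e3, e4]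
    -- Cauchy-Schwarz
    have h2 := en_sq_le f (ind Z) (ind Y)
    have h3 : en f (ind Z) (ind Y) ≤ t * (Y.card : ℝ) * ((Z.card : ℝ) * ρ) := by
      apply le_of_sq_le_sq _ (by positivity)
      calc en f (ind Z) (ind Y) ^ 2 ≤ en f (ind Z) (ind Z) * en f (ind Y) (ind Y) := h2
        _ ≤ (t * ρ ^ 2 * (Z.card : ℝ) ^ 2) * (t * (Y.card : ℝ) ^ 2) := by
            rw [heng]
            exact mul_le_mul_of_nonneg_right h1 (by positivity)
        _ = _ := by ring
    have h4 : t * (Y.card : ℝ) * ((Z.card : ℝ) * ρ) ≤ t * (Y.card : ℝ) * ((Z.card : ℝ) + p) :=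
      mul_le_mul_of_nonneg_left hρle (by positivity)
    rw [heng, hdeg] at hen
    rw [hcardZ] at h4 h3
    nlinarith only [hen, h3, h4]

/-- passing from tightness on subsets to the full `Tight` structure -/
theorem tight_of_sets (f : G → ℝ) (hf0 : ∀ x, 0 ≤ f x) (hf1 : ∀ x, f x ≤ 1) (Y : Finset G)
    (hY : Y.Nonempty) (t κ Λ s η g : ℝ) (ht : 0 < t)
    (hκ0 : 0 ≤ κ) (hκ1 : κ ≤ 1) (hΛ : 1 ≤ Λ) (hη0 : 0 < η) (hη1 : η ≤ 1) (hs0 : 0 ≤ s)
    (hsup : ∑ x, f x ≤ Real.exp g * t)
    (heng : en f (ind Y) (ind Y) = t * (Y.card : ℝ) ^ 2)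
    (htight : ∀ Z ⊆ Y, Z.Nonempty → Real.exp (-Λ) * (Y.card : ℝ) ≤ (Z.card : ℝ) →
      en f (ind Z) (ind Z) ≤ t * ((Y.card : ℝ) / (Z.card : ℝ)) ^ κ * (Z.card : ℝ) ^ 2)
    (hκη : κ ≤ 2 * η) (hκs : κ * s ≤ η / 2) (hcut : Real.exp (g / 2 + s - Λ) ≤ η / 4) :
    Tight f Y t η s g := by
  have hn : (0:ℝ) < Y.card := by exact_mod_cast hY.card_pos
  refine ⟨hY, hf0, hf1, ht, hη0.le, hη1, hs0, hsup, heng, ?_, ?_⟩
  · intro w hw0 hw1 hm
    have hmp : 0 < mass w := lt_of_lt_of_le (by positivity) hm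
    set p : ℝ := 1 - κ / 2 with hp
    have hp0 : 0 ≤ p := by rw [hp]; linarith
    have hp1 : p ≤ 1 := by rw [hp]; linarith
    set C1 : ℝ := Real.sqrt t * (Y.card : ℝ) ^ (κ / 2) with hC1
    have hC10 : 0 ≤ C1 := by positivity
    set C2 : ℝ := Real.sqrt (∑ x, f x) with hC2
    have hC20 : 0 ≤ C2 := Real.sqrt_nonneg _
    set c0 : ℝ := Real.exp (-Λ) * (Y.card : ℝ) with hc0
    have hc00 : 0 ≤ c0 := by positivity
    let φ : ℝ → ℝ := fun x => C1 * x ^ p + C2 * min x c0
    have hφ : ConcaveOn ℝ (Set.Ici 0) φ := by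
      apply ConcaveOn.add
      · exact (Real.concaveOn_rpow hp0 hp1).smul hC10
      · have h1 : ConcaveOn ℝ (Set.Ici (0:ℝ)) (fun x : ℝ => min x c0) :=
          (concaveOn_id (convex_Ici 0)).inf (concaveOn_const c0 (convex_Ici 0))
        exact h1.smul hC20
    have hφ0 : 0 ≤ φ 0 := by
      simp only [φ]
      have h1 : 0 ≤ (0:ℝ) ^ p := Real.rpow_nonneg le_rfl _
      have h2 : min 0 c0 = 0 := min_eq_left hc00
      rw [h2, mul_zero, add_zero]
      positivity
    have hsets : ∀ Z ⊆ Y, Z.Nonempty → nrm f (ind Z) ≤ φ (Z.card : ℝ) := by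
      intro Z hZ hne
      have hm : (0:ℝ) < Z.card := by exact_mod_cast hne.card_pos
      simp only [φ]
      by_cases hc : c0 ≤ (Z.card : ℝ)
      · have h1 := htight Z hZ hne hc
        have h2 : nrm f (ind Z) ≤ C1 * (Z.card : ℝ) ^ p := by
          unfold nrm
          rw [Real.sqrt_le_left (by positivity)]
          refine h1.trans (le_of_eq ?_)
          rw [hC1, mul_pow, mul_pow, Real.sq_sqrt ht.le]
          rw [Real.div_rpow hn.le hm.le]
          have e1 : ((Y.card : ℝ) ^ (κ / 2)) ^ 2 = (Y.card : ℝ) ^ κ := by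
            rw [← Real.rpow_natCast, ← Real.rpow_mul hn.le]; congr 1; push_cast; ring
          have e2 : ((Z.card : ℝ) ^ p) ^ 2 = (Z.card : ℝ) ^ (2:ℝ) / (Z.card : ℝ) ^ κ := by
            rw [← Real.rpow_natCast, ← Real.rpow_mul hm.le, ← Real.rpow_sub hm]
            congr 1
            rw [hp]; push_cast; ring
          rw [e1, e2, Real.rpow_two]
          field_simp
        have h3 : 0 ≤ C2 * min (Z.card : ℝ) c0 := by positivity
        linarith
      · push Not at hc
        have h1 := en_le_of_sup f (ind Z) hf0 hf1 (ind_nonneg Z)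
        rw [mass_ind] at h1
        rw [min_eq_left hc.le]
        have h3 : 0 ≤ C1 * (Z.card : ℝ) ^ p := by positivity
        linarith
    have hlay := layer (nrm f) (nrm_add f) (fun c a hc => (nrm_smul f a c hc).le)
      (nrm_zero f).le φ hφ hφ0 Y hsets w hw0 hw1
    simp only [φ] at hlay
    -- bound
    have hmY : mass w ≤ (Y.card : ℝ) := by
      rw [← mass_ind Y]
      exact Finset.sum_le_sum fun z _ => hw1 z
    have hb1 : C1 * mass w ^ p ≤ Real.sqrt t * mass w * Real.exp (η / 4) := by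
      have e1 : mass w ^ p = mass w * mass w ^ (-(κ/2)) := by
        rw [hp, sub_eq_add_neg, Real.rpow_add hmp, Real.rpow_one]
      have e2 : (Y.card : ℝ) ^ (κ / 2) * mass w ^ (-(κ/2)) = ((Y.card : ℝ) / mass w) ^ (κ / 2) := by
        rw [Real.div_rpow hn.le hmp.le, Real.rpow_neg hmp.le]; rfl
      have e3 : ((Y.card : ℝ) / mass w) ^ (κ / 2) ≤ Real.exp (η / 4) := by
        have a1 : (Y.card : ℝ) / mass w ≤ Real.exp s := by
          rw [div_le_iff₀ hmp]
          have := mul_le_mul_of_nonneg_left hm (Real.exp_pos s).le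
          rwa [← mul_assoc, ← Real.exp_add, add_neg_cancel, Real.exp_zero, one_mul] at this
        calc ((Y.card : ℝ) / mass w) ^ (κ / 2) ≤ (Real.exp s) ^ (κ / 2) :=
              Real.rpow_le_rpow (by positivity) a1 (by positivity)
          _ = Real.exp (s * (κ / 2)) := by rw [← Real.exp_mul]
          _ ≤ Real.exp (η / 4) := by
              apply Real.exp_le_exp.mpr
              linarith only [hκs]
      calc C1 * mass w ^ p = Real.sqrt t * mass w * ((Y.card : ℝ) ^ (κ / 2) * mass w ^ (-(κ/2))) := by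
            rw [hC1, e1]; ring
        _ ≤ Real.sqrt t * mass w * Real.exp (η / 4) := by
            rw [e2]
            exact mul_le_mul_of_nonneg_left e3 (by positivity)
    have hb2 : C2 * min (mass w) c0 ≤ Real.sqrt t * mass w * (η / 4) := by
      have a1 : C2 ≤ Real.exp (g / 2) * Real.sqrt t := by
        rw [hC2, Real.sqrt_le_left (by positivity)]
        refine hsup.trans (le_of_eq ?_)
        rw [mul_pow, Real.sq_sqrt ht.le, ← Real.exp_nat_mul]
        congr 2; push_cast; ring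
      have a2 : min (mass w) c0 ≤ Real.exp (s - Λ) * mass w := by
        refine (min_le_right _ _).trans ?_
        have h5 := mul_le_mul_of_nonneg_left hm (Real.exp_pos (s - Λ)).le
        rw [← mul_assoc, ← Real.exp_add] at h5
        have : s - Λ + -s = -Λ := by ring
        rw [this] at h5
        exact h5
      calc C2 * min (mass w) c0 ≤ (Real.exp (g / 2) * Real.sqrt t) * (Real.exp (s - Λ) * mass w) :=
            mul_le_mul a1 a2 (by positivity) (by positivity)
        _ = Real.sqrt t * mass w * Real.exp (g / 2 + s - Λ) := by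
            have : g / 2 + s - Λ = g / 2 + (s - Λ) := by ring
            rw [this, Real.exp_add]; ring
        _ ≤ _ := mul_le_mul_of_nonneg_left hcut (by positivity)
    have hb3 : Real.exp (η / 4) + η / 4 ≤ Real.exp (η / 2) := by
      have e1 : Real.exp (η / 2) = Real.exp (η / 4) * Real.exp (η / 4) := by
        rw [← Real.exp_add]; congr 1; ring
      have e2 := Real.add_one_le_exp (η / 4)
      rw [e1]
      nlinarith only [e2, hη0]
    have hb4 : nrm f w ≤ Real.sqrt t * mass w * Real.exp (η / 2) := by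
      have : Real.sqrt t * mass w * (Real.exp (η / 4) + η / 4) ≤ Real.sqrt t * mass w * Real.exp (η / 2) :=
        mul_le_mul_of_nonneg_left hb3 (by positivity)
      linarith only [hlay, hb1, hb2, this]
    rw [← nrm_sq]
    calc nrm f w ^ 2 ≤ (Real.sqrt t * mass w * Real.exp (η / 2)) ^ 2 :=
          pow_le_pow_left₀ (nrm_nonneg _ _) hb4 2
      _ = Real.exp η * t * mass w ^ 2 := by
          rw [mul_pow, mul_pow, Real.sq_sqrt ht.le, ← Real.exp_nat_mul]
          have : ((2:ℕ):ℝ) * (η / 2) = η := by push_cast; ring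
          rw [this]; ring
  · intro y hy
    have h1 := deg_of_tight f hf0 Y t κ Λ ht hκ0 hκ1 hΛ heng htight y hy
    refine le_trans ?_ h1
    apply mul_le_mul_of_nonneg_right _ hn.le
    apply mul_le_mul_of_nonneg_right _ ht.le
    linarith only [hκη]

end Vale.Agent.P057.H57
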