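import Vale.Agent.P057.R2.h57.IterA

set_option linter.all false

open Finset

namespace Vale.Agent.P057.H57

/-- passage from a bound for odd groups to `rothNumberNat`, general exponents -/
theorem final_general (m : ℕ) (hm2 : 2 ≤ m) (b : ℕ)
    (hgb : ∃ C : ℝ, 0 < C ∧ ∀ (G : Type) [AddCommGroup G] [Fintype G] [DecidableEq G],
    Odd (Fintype.card G) → ∀ A : Finset G, ThreeAPFree (A : Set G) → ∀ L : ℝ, 1 ≤ L →
    Real.exp (-L) * (Fintype.card G : ℝ) ≤ (A.card : ℝ) →
    Real.log (Fintype.card G) ≤ C * L ^ m * (1 + Real.log L) ^ b) :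
    ∃ c : ℝ, 0 < c ∧ ∃ N₀ : ℕ, ∀ N : ℕ, N₀ ≤ N →
    (rothNumberNat N : ℝ) ≤
      N * Real.exp (-c * (Real.log N / (Real.log (Real.log N)) ^ b) ^ ((1:ℝ)/m)) := by
  obtain ⟨C, hC, h⟩ := hgb
  have hm : 0 < m := by omega
  have hmr : (0:ℝ) < m := by exact_mod_cast hm
  have hmr2 : (2:ℝ) ≤ m := by exact_mod_cast hm2
  have hm1 : (1:ℝ) ≤ m := by exact_mod_cast hm
  set c : ℝ := 1 / (4 * (1 + C)) with hc
  have hcpos : 0 < c := by positivity
  have hc2 : 2 * c ≤ 1 / 2 := by
    rw [hc]
    rw [show 2 * (1 / (4 * (1 + C))) = 1 / (2 * (1 + C)) by field_simp; ring]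
    apply one_div_le_one_div_of_le (by norm_num)
    linarith only [hC]
  have hc6 : C * (2 * c) ^ m < 1 := by
    have h1 : (2 * c) ^ m ≤ 2 * c := by
      calc (2 * c) ^ m ≤ (2 * c) ^ 1 :=
            pow_le_pow_of_le_one (by positivity) (by linarith only [hc2]) hm
        _ = 2 * c := pow_one _
    have h2 : C * (2 * c) < 1 := by
      rw [hc]
      rw [show C * (2 * (1 / (4 * (1 + C)))) = C / (2 * (1 + C)) by field_simp; ring]
      rw [div_lt_one (by positivity)]
      linarith only [hC]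
    nlinarith only [h2, hC, h1]
  -- limits
  have hlog : Filter.Tendsto (fun N : ℕ => Real.log N) Filter.atTop Filter.atTop :=
    Real.tendsto_log_atTop.comp tendsto_natCast_atTop_atTop
  have hX : Filter.Tendsto (fun x : ℝ => (x / (Real.log x) ^ b) ^ ((1 : ℝ) / m)) Filter.atTop
      Filter.atTop := by
    have h1 : Filter.Tendsto (fun x : ℝ => x / (Real.log x) ^ b) Filter.atTop Filter.atTop := by
      have h2 : Filter.Tendsto (fun x : ℝ => (Real.log x) ^ b / x) Filter.atTop (nhds 0) := by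
        have := Real.isLittleO_pow_log_id_atTop (n := b)
        exact this.tendsto_div_nhds_zero
      have h3 : Filter.Tendsto (fun x : ℝ => (Real.log x) ^ b / x) Filter.atTop
          (nhdsWithin 0 (Set.Ioi 0)) := by
        rw [tendsto_nhdsWithin_iff]
        refine ⟨h2, ?_⟩
        filter_upwards [Filter.eventually_gt_atTop (1 : ℝ)] with x hx
        exact div_pos (pow_pos (Real.log_pos hx) _) (by linarith only [hx])
      have h4 := h3.inv_tendsto_nhdsGT_zero
      refine h4.congr (fun x => ?_)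
      simp
    exact (tendsto_rpow_atTop (by positivity)).comp h1
  have hev : ∀ᶠ N : ℕ in Filter.atTop,
      1 ≤ N ∧ Real.exp 4 ≤ Real.log N ∧ (Real.log 3) / c ≤
        (Real.log N / (Real.log (Real.log N)) ^ b) ^ ((1 : ℝ) / m) := by
    refine (Filter.eventually_ge_atTop 1).and ((hlog.eventually_ge_atTop (Real.exp 4)).and ?_)
    exact (hX.comp hlog).eventually_ge_atTop _
  obtain ⟨N₀, hN₀⟩ := Filter.eventually_atTop.1 hev
  refine ⟨c, hcpos, N₀, fun N hN => ?_⟩
  obtain ⟨hN1, hN3, hNX⟩ := hN₀ N hN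
  set x : ℝ := Real.log N with hx
  set y : ℝ := Real.log x with hy
  set X : ℝ := (x / y ^ b) ^ ((1 : ℝ) / m) with hXdef
  by_contra hcon
  push Not at hcon
  have hxpos : 0 < x := lt_of_lt_of_le (Real.exp_pos 4) hN3
  have hNpos : (0 : ℝ) < N := by exact_mod_cast hN1
  have hypos : 4 ≤ y := by
    rw [hy, Real.le_log_iff_exp_le hxpos]
    exact hN3
  have hyb : (1:ℝ) ≤ y ^ b := one_le_pow₀ (by linarith only [hypos])
  have hxy0 : 0 < x / y ^ b := div_pos hxpos (by linarith only [hyb])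
  have hXpos : 0 < X := Real.rpow_pos_of_pos hxy0 _
  have hX6 : X ^ m = x / y ^ b := by
    rw [hXdef, ← Real.rpow_natCast, ← Real.rpow_mul hxy0.le, one_div, inv_mul_cancel₀ hmr.ne',
      Real.rpow_one]
  have hlogX : Real.log X ≤ y / 2 := by
    rw [hXdef, Real.log_rpow hxy0, Real.log_div hxpos.ne' (by linarith only [hyb]), ← hy]
    have h1 : 0 ≤ Real.log (y ^ b) := Real.log_nonneg hyb
    have h2 : 1 / (m:ℝ) * (y - Real.log (y ^ b)) ≤ 1 / (m:ℝ) * y :=
      mul_le_mul_of_nonneg_left (by linarith only [h1]) (by positivity)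
    have h3 : 1 / (m:ℝ) * y ≤ 1 / 2 * y := by
      apply mul_le_mul_of_nonneg_right _ (by linarith only [hypos])
      exact one_div_le_one_div_of_le (by norm_num) hmr2
    linarith only [h2, h3]
  obtain ⟨A, hAfree, hAcard⟩ := roth_transfer N
  have hlog3 : 1 ≤ Real.log 3 := by
    rw [Real.le_log_iff_exp_le (by norm_num)]
    have := Real.exp_one_lt_d9
    linarith only [this]
  set L : ℝ := Real.log 3 + c * X with hL
  have hcX : 0 < c * X := mul_pos hcpos hXpos
  have hL1 : 1 ≤ L := by linarith only [hlog3, hcX]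
  have hcardG : Fintype.card (ZMod (2 * N + 1)) = 2 * N + 1 := ZMod.card _
  have hdens : Real.exp (-L) * (Fintype.card (ZMod (2 * N + 1)) : ℝ) ≤ (A.card : ℝ) := by
    rw [hcardG, hAcard]
    have h1 : Real.exp (-L) = (1 / 3) * Real.exp (-c * X) := by
      rw [hL, neg_add, Real.exp_add, Real.exp_neg, Real.exp_log (by norm_num)]
      rw [neg_mul]
      norm_num
    rw [h1]
    have h5 : ((2 * N + 1 : ℕ) : ℝ) ≤ 3 * N := by
      push_cast
      have : (1 : ℝ) ≤ N := by exact_mod_cast hN1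
      linarith only [this]
    have h6 : 0 < Real.exp (-c * X) := Real.exp_pos _
    calc 1 / 3 * Real.exp (-c * X) * ((2 * N + 1 : ℕ) : ℝ)
        ≤ 1 / 3 * Real.exp (-c * X) * (3 * N) := by (clear * - h5; gcongr)
      _ = N * Real.exp (-c * X) := by ring
      _ ≤ _ := hcon.le
  have hM := h (ZMod (2 * N + 1)) (by rw [hcardG]; exact ⟨N, rfl⟩) A hAfree L hL1 hdens
  rw [hcardG] at hM
  have hcX2 : Real.log 3 ≤ c * X := by
    rw [div_le_iff₀ hcpos] at hNX
    linarith only [hNX]
  have hL2 : L ≤ 2 * c * X := by linarith only [hcX2]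
  have hLX : L ≤ 1/2 * X := by nlinarith only [hc2, hcX2, hXpos]
  have hlogL : 1 + Real.log L ≤ y := by
    have h1 : Real.log L ≤ Real.log X :=
      Real.log_le_log (by linarith only [hL1]) (by linarith only [hLX, hXpos])
    linarith only [h1, hlogX, hypos]
  have hlogL0 : 0 ≤ Real.log L := Real.log_nonneg hL1
  have hfin : C * L ^ m * (1 + Real.log L) ^ b ≤ C * (2 * c) ^ m * x := by
    have h1 : L ^ m ≤ (2 * c * X) ^ m := pow_le_pow_left₀ (by linarith only [hL1]) hL2 m
    have h2 : (2 * c * X) ^ m = (2 * c) ^ m * (x / y ^ b) := by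
      rw [mul_pow, hX6]
    have h3 : (1 + Real.log L) ^ b ≤ y ^ b :=
      pow_le_pow_left₀ (by linarith only [hlogL0]) hlogL b
    have h4 : 0 ≤ (2 * c) ^ m * (x / y ^ b) := mul_nonneg (by positivity) hxy0.le
    calc C * L ^ m * (1 + Real.log L) ^ b
        ≤ C * ((2 * c) ^ m * (x / y ^ b)) * y ^ b := by
          apply mul_le_mul _ h3 (pow_nonneg (by linarith only [hlogL0]) _)
            (mul_nonneg hC.le h4)
          rw [← h2]
          exact mul_le_mul_of_nonneg_left h1 hC.le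
      _ = C * (2 * c) ^ m * x := by
          have : y ^ b ≠ 0 := by linarith only [hyb]
          field_simp
  have hlogM : x ≤ Real.log ((2 * N + 1 : ℕ) : ℝ) := by
    rw [hx]
    apply Real.log_le_log hNpos
    push_cast
    linarith only [hNpos]
  have : x < x := by
    calc x ≤ Real.log ((2 * N + 1 : ℕ) : ℝ) := hlogM
      _ ≤ C * L ^ m * (1 + Real.log L) ^ b := hM
      _ ≤ C * (2 * c) ^ m * x := hfin
      _ < 1 * x := mul_lt_mul_of_pos_right hc6 hxpos
      _ = x := one_mul x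
  exact lt_irrefl _ this

theorem main_A : ∃ c : ℝ, 0 < c ∧ ∃ N₀ : ℕ, ∀ N : ℕ, N₀ ≤ N →
    (rothNumberNat N : ℝ) ≤
      N * Real.exp (-c * (Real.log N / (Real.log (Real.log N)) ^ 3) ^ ((1:ℝ)/5)) := by
  have h := final_general 5 (by norm_num) 3 group_bound_A
  exact_mod_cast h

end Vale.Agent.P057.H57
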