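import Vale.Agent.P057.R2.h57.IterB
import Vale.Agent.P057.R2.h57.FinalA

set_option linter.all false

open Finset

namespace Vale.Agent.P057.H57

theorem main_B : ∃ c : ℝ, 0 < c ∧ ∃ N₀ : ℕ, ∀ N : ℕ, N₀ ≤ N →
    (rothNumberNat N : ℝ) ≤
      N * Real.exp (-c * (Real.log N / (Real.log (Real.log N)) ^ 6) ^ ((1:ℝ)/4)) := by
  have h := final_general 4 (by norm_num) 6 group_bound_B
  exact_mod_cast h

end Vale.Agent.P057.H57
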