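import Vale.Agent.P057.R2.h57.Vec

set_option linter.all false

open Finset

namespace Vale.Agent.P057.H57

variable {G : Type*} [AddCommGroup G] [Fintype G] [DecidableEq G]

/-- the indicator of `A` smoothed by `B` -/
noncomputable def sm (A B : Finset G) (x : G) : ℝ := (∑ b ∈ B, ind A (x + b)) / B.card

theorem four_pairs (c : AddChar G ℂ → ℝ) (F : G → ℝ)
    (h : ∀ z, ∑ γ : AddChar G ℂ, ((c γ : ℝ) : ℂ) * γ z = (Fintype.card G : ℂ) * ((F z : ℝ) : ℂ))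
    (Y : Finset G) :
    (Fintype.card G : ℝ) * ∑ y ∈ Y, ∑ y' ∈ Y, F (y - y')
      = ∑ γ : AddChar G ℂ, c γ * ‖∑ y ∈ Y, γ y‖ ^ 2 := by
  have h : ((((Fintype.card G : ℝ) * ∑ y ∈ Y, ∑ y' ∈ Y, F (y - y') : ℝ)) : ℂ)
      = ((∑ γ : AddChar G ℂ, c γ * ‖∑ y ∈ Y, γ y‖ ^ 2 : ℝ) : ℂ) := by
    rw [Complex.ofReal_mul, Complex.ofReal_natCast, Complex.ofReal_sum, Finset.mul_sum,
      Complex.ofReal_sum]
    calc ∑ y ∈ Y, (Fintype.card G : ℂ) * ((∑ y' ∈ Y, F (y - y') : ℝ) : ℂ)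
        = ∑ y ∈ Y, ∑ y' ∈ Y, ∑ γ : AddChar G ℂ, ((c γ : ℝ) : ℂ) * γ (y - y') := by
          refine Finset.sum_congr rfl fun y _ => ?_
          rw [Complex.ofReal_sum, Finset.mul_sum]
          exact Finset.sum_congr rfl fun y' _ => (h (y - y')).symm
      _ = ∑ γ : AddChar G ℂ, ∑ y ∈ Y, ∑ y' ∈ Y, ((c γ : ℝ) : ℂ) * γ (y - y') := by
          rw [Finset.sum_comm]
          rw [Finset.sum_comm (s := (univ : Finset (AddChar G ℂ))) (t := Y)]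
          rw [Finset.sum_comm]
          refine Finset.sum_congr rfl fun y _ => ?_
          rw [Finset.sum_comm]
      _ = ∑ γ : AddChar G ℂ, ((c γ * ‖∑ y ∈ Y, γ y‖ ^ 2 : ℝ) : ℂ) := by
          refine Finset.sum_congr rfl fun γ _ => ?_
          rw [Complex.ofReal_mul, ← fourier_sum_sub Y γ, Finset.mul_sum]
          refine Finset.sum_congr rfl fun y _ => ?_
          rw [Finset.mul_sum]
  exact_mod_cast h

theorem four_quads (c : AddChar G ℂ → ℝ) (F : G → ℝ)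
    (hF : ∀ z, ∑ γ : AddChar G ℂ, ((c γ : ℝ) : ℂ) * γ z = (Fintype.card G : ℂ) * ((F z : ℝ) : ℂ))
    (Y T : Finset G) :
    (Fintype.card G : ℝ) * ∑ y ∈ Y, ∑ y' ∈ Y, ∑ s ∈ T, ∑ s' ∈ T, F (y - y' + (s - s'))
      = ∑ γ : AddChar G ℂ, c γ * (‖∑ y ∈ Y, γ y‖ ^ 2 * ‖∑ s ∈ T, γ s‖ ^ 2) := by
  have h : ((((Fintype.card G : ℝ) * ∑ y ∈ Y, ∑ y' ∈ Y, ∑ s ∈ T, ∑ s' ∈ T,
        F (y - y' + (s - s')) : ℝ)) : ℂ)
      = ((∑ γ : AddChar G ℂ, c γ * (‖∑ y ∈ Y, γ y‖ ^ 2 * ‖∑ s ∈ T, γ s‖ ^ 2) : ℝ) : ℂ) := by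
    calc ((((Fintype.card G : ℝ) * ∑ y ∈ Y, ∑ y' ∈ Y, ∑ s ∈ T, ∑ s' ∈ T,
        F (y - y' + (s - s')) : ℝ)) : ℂ)
        = ∑ y ∈ Y, ∑ y' ∈ Y, ∑ s ∈ T, ∑ s' ∈ T,
            ((Fintype.card G : ℂ) * ((F (y - y' + (s - s')) : ℝ) : ℂ)) := by
          push_cast
          simp only [Finset.mul_sum]
      _ = ∑ y ∈ Y, ∑ y' ∈ Y, ∑ s ∈ T, ∑ s' ∈ T, ∑ γ : AddChar G ℂ,
            ((c γ : ℝ) : ℂ) * γ (y - y' + (s - s')) := by
          simp only [hF]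
      _ = ∑ γ : AddChar G ℂ, ∑ y ∈ Y, ∑ y' ∈ Y, ∑ s ∈ T, ∑ s' ∈ T,
            ((c γ : ℝ) : ℂ) * γ (y - y' + (s - s')) := by
          rw [Finset.sum_comm (s := (univ : Finset (AddChar G ℂ))) (t := Y)]
          refine Finset.sum_congr rfl fun y _ => ?_
          rw [Finset.sum_comm (s := (univ : Finset (AddChar G ℂ))) (t := Y)]
          refine Finset.sum_congr rfl fun y' _ => ?_
          rw [Finset.sum_comm (s := (univ : Finset (AddChar G ℂ))) (t := T)]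
          refine Finset.sum_congr rfl fun s _ => ?_
          rw [Finset.sum_comm (s := (univ : Finset (AddChar G ℂ))) (t := T)]
      _ = ∑ γ : AddChar G ℂ,
          ((c γ * (‖∑ y ∈ Y, γ y‖ ^ 2 * ‖∑ s ∈ T, γ s‖ ^ 2) : ℝ) : ℂ) := by
          refine Finset.sum_congr rfl fun γ _ => ?_
          rw [Complex.ofReal_mul (c γ), ← fourier_sum_sub4 Y T γ]
          simp only [Finset.mul_sum]
      _ = _ := by push_cast; rfl
  exact_mod_cast h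

theorem corr_sm (A B : Finset G) (z : G) :
    corr (sm A B) z = (∑ b ∈ B, ∑ b' ∈ B, corr (ind A) (z + (b - b'))) / (B.card : ℝ) ^ 2 := by
  unfold sm
  have h1 : ∀ x, (∑ b ∈ B, ind A (x + b)) / (B.card : ℝ) * ((∑ b ∈ B, ind A (x + z + b)) / (B.card : ℝ))
      = (∑ b' ∈ B, ∑ b ∈ B, ind A (x + b') * ind A (x + z + b)) / (B.card : ℝ) ^ 2 := by
    intro x
    rw [div_mul_div_comm, Finset.sum_mul_sum, sq]
  unfold corr
  simp only [h1]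
  rw [← Finset.sum_div]
  congr 1
  rw [Finset.sum_comm]
  rw [Finset.sum_congr rfl fun b' _ => Finset.sum_comm]
  rw [Finset.sum_comm]
  refine Finset.sum_congr rfl fun b _ => Finset.sum_congr rfl fun b' _ => ?_
  have h := Equiv.sum_comp (Equiv.subRight b') (fun x => ind A (x + b') * ind A (x + z + b))
  rw [← h]
  refine Finset.sum_congr rfl fun x _ => ?_
  simp only [Equiv.subRight_apply, sub_add_cancel]
  congr 2
  abel

theorem four_sm (A B : Finset G) (z : G) :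
    ∑ γ : AddChar G ℂ, ((‖∑ a ∈ A, γ a‖ ^ 2 * (‖∑ b ∈ B, γ b‖ ^ 2 / (B.card : ℝ) ^ 2) : ℝ) : ℂ) * γ z
      = (Fintype.card G : ℂ) * ((corr (sm A B) z : ℝ) : ℂ) := by
  rw [corr_sm]
  push_cast
  have h1 : ∀ b ∈ B, ∀ b' ∈ B, (Fintype.card G : ℂ) * ((corr (ind A) (z + (b - b')) : ℝ) : ℂ)
      = ∑ γ : AddChar G ℂ, ((‖∑ a ∈ A, γ a‖ ^ 2 : ℝ) : ℂ) * γ (z + (b - b')) := by
    intro b _ b' _
    rw [fourier_corr]
  calc ∑ γ : AddChar G ℂ, ((‖∑ a ∈ A, γ a‖ : ℂ) ^ 2 * ((‖∑ b ∈ B, γ b‖ : ℂ) ^ 2 / (B.card : ℂ) ^ 2)) * γ z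
      = ∑ γ : AddChar G ℂ, (∑ b ∈ B, ∑ b' ∈ B,
          ((‖∑ a ∈ A, γ a‖ ^ 2 : ℝ) : ℂ) * γ (z + (b - b'))) / (B.card : ℂ) ^ 2 := by
        refine Finset.sum_congr rfl fun γ _ => ?_
        have h2 : ∑ b ∈ B, ∑ b' ∈ B, ((‖∑ a ∈ A, γ a‖ ^ 2 : ℝ) : ℂ) * γ (z + (b - b'))
            = ((‖∑ a ∈ A, γ a‖ ^ 2 : ℝ) : ℂ) * γ z * ((‖∑ b ∈ B, γ b‖ ^ 2 : ℝ) : ℂ) := by
          rw [← fourier_sum_sub B γ, Finset.mul_sum]
          refine Finset.sum_congr rfl fun b _ => ?_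
          rw [Finset.mul_sum]
          refine Finset.sum_congr rfl fun b' _ => ?_
          rw [AddChar.map_add_eq_mul]
          ring
        rw [h2]
        push_cast
        ring
    _ = (∑ b ∈ B, ∑ b' ∈ B, ∑ γ : AddChar G ℂ,
          ((‖∑ a ∈ A, γ a‖ ^ 2 : ℝ) : ℂ) * γ (z + (b - b'))) / (B.card : ℂ) ^ 2 := by
        rw [← Finset.sum_div]
        congr 1
        rw [Finset.sum_comm]
        refine Finset.sum_congr rfl fun b _ => ?_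
        rw [Finset.sum_comm]
    _ = (∑ b ∈ B, ∑ b' ∈ B, (Fintype.card G : ℂ) * ((corr (ind A) (z + (b - b')) : ℝ) : ℂ)) / (B.card : ℂ) ^ 2 := by
        congr 1
        exact Finset.sum_congr rfl fun b hb => Finset.sum_congr rfl fun b' hb' => (h1 b hb b' hb').symm
    _ = _ := by
        simp only [← Finset.mul_sum]
        ring

/-- the energy survives smoothing on a set where the large spectrum of the almost periods is
trivial -/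
theorem stage_energy (A Y T B B' : Finset G) (hT : T.Nonempty) (hB : B.Nonempty)
    (hB' : B'.Nonempty) (ε E : ℝ) (hε0 : 0 ≤ ε) (hε1 : ε ≤ 1/8)
    (hE : E = ∑ y ∈ Y, ∑ y' ∈ Y, corr (sm A B) (y - y'))
    (hper : ∀ a ∈ T, ∀ a' ∈ T, (1 - 4 * ε) * E ≤
      ∑ y ∈ Y, ∑ y' ∈ Y, corr (sm A B) (y - y' + (a - a')))
    (hchar : ∀ γ : AddChar G ℂ, (T.card : ℝ) / 2 ≤ ‖∑ x ∈ T, γ x‖ → ∀ b ∈ B', ‖γ b - 1‖ ≤ ε) :
    (1 - 8 * ε) * E ≤ ∑ y ∈ Y, ∑ y' ∈ Y, corr (sm A B') (y - y') := by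
  classical
  have hn : (0:ℝ) < (Fintype.card G : ℝ) := by
    have : Nonempty G := ⟨0⟩
    exact_mod_cast Fintype.card_pos
  have hTc : (0:ℝ) < T.card := by exact_mod_cast hT.card_pos
  have hBc : (0:ℝ) < B.card := by exact_mod_cast hB.card_pos
  have hB'c : (0:ℝ) < B'.card := by exact_mod_cast hB'.card_pos
  set n : ℝ := (Fintype.card G : ℝ) with hndef
  let a : AddChar G ℂ → ℝ := fun γ => ‖∑ x ∈ A, γ x‖ ^ 2
  let y : AddChar G ℂ → ℝ := fun γ => ‖∑ x ∈ Y, γ x‖ ^ 2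
  let τ : AddChar G ℂ → ℝ := fun γ => ‖∑ x ∈ T, γ x‖ ^ 2
  let β : AddChar G ℂ → ℝ := fun γ => ‖∑ x ∈ B, γ x‖ ^ 2 / (B.card : ℝ) ^ 2
  let β' : AddChar G ℂ → ℝ := fun γ => ‖∑ x ∈ B', γ x‖ ^ 2 / (B'.card : ℝ) ^ 2
  have hbound : ∀ (S : Finset G) (γ : AddChar G ℂ), ‖∑ x ∈ S, γ x‖ ≤ S.card := by
    intro S γ
    calc ‖∑ x ∈ S, γ x‖ ≤ ∑ x ∈ S, ‖γ x‖ := norm_sum_le _ _
      _ = S.card := by simp only [AddChar.norm_apply, sum_const, nsmul_eq_mul, mul_one]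
  have ha0 : ∀ γ, 0 ≤ a γ := fun γ => sq_nonneg _
  have hy0 : ∀ γ, 0 ≤ y γ := fun γ => sq_nonneg _
  have hτ1 : ∀ γ, τ γ ≤ (T.card : ℝ) ^ 2 := fun γ =>
    pow_le_pow_left₀ (norm_nonneg _) (hbound T γ) 2
  have hβ0 : ∀ γ, 0 ≤ β γ := fun γ => div_nonneg (sq_nonneg _) (sq_nonneg _)
  have hβ'0 : ∀ γ, 0 ≤ β' γ := fun γ => div_nonneg (sq_nonneg _) (sq_nonneg _)
  have hβ1 : ∀ γ, β γ ≤ 1 := by
    intro γ
    show ‖∑ x ∈ B, γ x‖ ^ 2 / (B.card : ℝ) ^ 2 ≤ 1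
    rw [div_le_one (pow_pos hBc 2)]
    exact pow_le_pow_left₀ (norm_nonneg _) (hbound B γ) 2
  have e1 : n * E = ∑ γ, a γ * β γ * y γ := by
    rw [hE]; exact four_pairs _ _ (four_sm A B) Y
  have e2 : n * ∑ y ∈ Y, ∑ y' ∈ Y, ∑ s ∈ T, ∑ s' ∈ T, corr (sm A B) (y - y' + (s - s'))
      = ∑ γ, a γ * β γ * (y γ * τ γ) := four_quads _ _ (four_sm A B) Y T
  have e3 : n * ∑ y ∈ Y, ∑ y' ∈ Y, corr (sm A B') (y - y') = ∑ γ, a γ * β' γ * y γ :=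
    four_pairs _ _ (four_sm A B') Y
  have hE0 : 0 ≤ n * E := by
    rw [e1]
    exact Finset.sum_nonneg fun γ _ => mul_nonneg (mul_nonneg (ha0 γ) (hβ0 γ)) (hy0 γ)
  -- sum the almost periodicity over `T`
  have hsumT : (T.card : ℝ) ^ 2 * ((1 - 4 * ε) * E) ≤
      ∑ y ∈ Y, ∑ y' ∈ Y, ∑ s ∈ T, ∑ s' ∈ T, corr (sm A B) (y - y' + (s - s')) := by
    have h1 : ∑ s ∈ T, ∑ s' ∈ T, (1 - 4 * ε) * E ≤
        ∑ s ∈ T, ∑ s' ∈ T, ∑ y ∈ Y, ∑ y' ∈ Y, corr (sm A B) (y - y' + (s - s')) :=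
      Finset.sum_le_sum fun s hs => Finset.sum_le_sum fun s' hs' => hper s hs s' hs'
    have h2 : ∑ s ∈ T, ∑ s' ∈ T, (1 - 4 * ε) * E = (T.card : ℝ) ^ 2 * ((1 - 4 * ε) * E) := by
      simp only [Finset.sum_const, nsmul_eq_mul]; ring
    rw [h2] at h1
    refine h1.trans (le_of_eq ?_)
    rw [Finset.sum_congr rfl fun s _ => Finset.sum_comm]
    rw [Finset.sum_comm]
    refine Finset.sum_congr rfl fun y _ => ?_
    rw [Finset.sum_congr rfl fun s _ => Finset.sum_comm]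
    rw [Finset.sum_comm]
  -- split along the large spectrum of `T`
  let Δ : Finset (AddChar G ℂ) := univ.filter (fun γ => (T.card : ℝ) / 2 ≤ ‖∑ x ∈ T, γ x‖)
  have hsplit : ∀ f : AddChar G ℂ → ℝ, ∑ γ, f γ = ∑ γ ∈ Δ, f γ + ∑ γ ∈ Δᶜ, f γ :=
    fun f => (Finset.sum_add_sum_compl Δ f).symm
  set P : ℝ := ∑ γ ∈ Δ, a γ * β γ * y γ with hP
  set Q : ℝ := ∑ γ ∈ Δᶜ, a γ * β γ * y γ with hQ
  have hPQ : P + Q = n * E := by rw [hP, hQ, ← hsplit, ← e1]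
  have hQ0 : 0 ≤ Q := Finset.sum_nonneg fun γ _ => mul_nonneg (mul_nonneg (ha0 γ) (hβ0 γ)) (hy0 γ)
  have hPQ2 : (T.card : ℝ) ^ 2 * ((1 - 4 * ε) * (n * E)) ≤ (T.card : ℝ) ^ 2 * (P + Q / 4) := by
    have h4 : ∑ γ, a γ * β γ * (y γ * τ γ) ≤ (T.card : ℝ) ^ 2 * (P + Q / 4) := by
      rw [hsplit]
      have hd : ∑ γ ∈ Δ, a γ * β γ * (y γ * τ γ) ≤ (T.card : ℝ) ^ 2 * P := by
        rw [hP, Finset.mul_sum]
        refine Finset.sum_le_sum fun γ _ => ?_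
        have : a γ * β γ * (y γ * τ γ) = τ γ * (a γ * β γ * y γ) := by ring
        rw [this]
        exact mul_le_mul_of_nonneg_right (hτ1 γ) (mul_nonneg (mul_nonneg (ha0 γ) (hβ0 γ)) (hy0 γ))
      have ho : ∑ γ ∈ Δᶜ, a γ * β γ * (y γ * τ γ) ≤ (T.card : ℝ) ^ 2 * (Q / 4) := by
        have : (T.card : ℝ) ^ 2 * (Q / 4) = ∑ γ ∈ Δᶜ, ((T.card : ℝ) ^ 2 / 4) * (a γ * β γ * y γ) := by
          rw [← Finset.mul_sum, ← hQ]
          ring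
        rw [this]
        refine Finset.sum_le_sum fun γ hγ => ?_
        have hlt : ‖∑ x ∈ T, γ x‖ < (T.card : ℝ) / 2 := by
          simpa [Δ] using hγ
        have hτ4 : τ γ ≤ (T.card : ℝ) ^ 2 / 4 := by
          have := pow_le_pow_left₀ (norm_nonneg _) hlt.le 2
          calc τ γ ≤ ((T.card : ℝ) / 2) ^ 2 := this
            _ = (T.card : ℝ) ^ 2 / 4 := by ring
        have : a γ * β γ * (y γ * τ γ) = τ γ * (a γ * β γ * y γ) := by ring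
        rw [this]
        exact mul_le_mul_of_nonneg_right hτ4 (mul_nonneg (mul_nonneg (ha0 γ) (hβ0 γ)) (hy0 γ))
      linarith only [hd, ho]
    calc (T.card : ℝ) ^ 2 * ((1 - 4 * ε) * (n * E))
        = n * ((T.card : ℝ) ^ 2 * ((1 - 4 * ε) * E)) := by ring
      _ ≤ n * ∑ y ∈ Y, ∑ y' ∈ Y, ∑ s ∈ T, ∑ s' ∈ T, corr (sm A B) (y - y' + (s - s')) :=
          mul_le_mul_of_nonneg_left hsumT hn.le
      _ = ∑ γ, a γ * β γ * (y γ * τ γ) := e2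
      _ ≤ _ := h4
  have h5 := le_of_mul_le_mul_left hPQ2 (pow_pos hTc 2)
  -- lower bound
  have hβ' : ∀ γ ∈ Δ, 1 - 2 * ε ≤ β' γ := by
    intro γ hγ
    have hγ' : (T.card : ℝ) / 2 ≤ ‖∑ x ∈ T, γ x‖ := (Finset.mem_filter.mp hγ).2
    have h6 : ‖(B'.card : ℂ) - ∑ b ∈ B', γ b‖ ≤ ε * B'.card := by
      have : (B'.card : ℂ) - ∑ b ∈ B', γ b = ∑ b ∈ B', (1 - γ b) := by
        rw [Finset.sum_sub_distrib]; simp
      rw [this]
      calc ‖∑ b ∈ B', (1 - γ b)‖ ≤ ∑ b ∈ B', ‖1 - γ b‖ := norm_sum_le _ _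
        _ ≤ ∑ b ∈ B', ε := by
            refine Finset.sum_le_sum fun b hb => ?_
            rw [norm_sub_rev]; exact hchar γ hγ' b hb
        _ = ε * B'.card := by rw [Finset.sum_const, nsmul_eq_mul]; ring
    have h7 : (1 - ε) * (B'.card : ℝ) ≤ ‖∑ b ∈ B', γ b‖ := by
      have h8 : ‖(B'.card : ℂ)‖ = (B'.card : ℝ) := by simp
      have h9 := norm_sub_norm_le (B'.card : ℂ) (∑ b ∈ B', γ b)
      rw [h8] at h9
      linarith only [h6, h9]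
    show 1 - 2 * ε ≤ ‖∑ x ∈ B', γ x‖ ^ 2 / (B'.card : ℝ) ^ 2
    rw [le_div_iff₀ (pow_pos hB'c 2)]
    have h10 : ((1 - ε) * (B'.card : ℝ)) ^ 2 ≤ ‖∑ b ∈ B', γ b‖ ^ 2 := by
      apply pow_le_pow_left₀ _ h7
      apply mul_nonneg _ hB'c.le
      linarith only [hε1]
    refine le_trans ?_ h10
    rw [mul_pow]
    apply mul_le_mul_of_nonneg_right _ (sq_nonneg _)
    nlinarith only [sq_nonneg ε]
  have h11 : (1 - 2 * ε) * P ≤ ∑ γ, a γ * β' γ * y γ := by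
    rw [hsplit]
    have h12 : 0 ≤ ∑ γ ∈ Δᶜ, a γ * β' γ * y γ :=
      Finset.sum_nonneg fun γ _ => mul_nonneg (mul_nonneg (ha0 γ) (hβ'0 γ)) (hy0 γ)
    have h13 : (1 - 2 * ε) * P ≤ ∑ γ ∈ Δ, a γ * β' γ * y γ := by
      rw [hP, Finset.mul_sum]
      refine Finset.sum_le_sum fun γ hγ => ?_
      have e1 : (1 - 2 * ε) * (a γ * β γ * y γ) = (a γ * y γ) * ((1 - 2 * ε) * β γ) := by ring
      have e2 : a γ * β' γ * y γ = (a γ * y γ) * β' γ := by ring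
      rw [e1, e2]
      apply mul_le_mul_of_nonneg_left _ (mul_nonneg (ha0 γ) (hy0 γ))
      have h14 : (1 - 2 * ε) * β γ ≤ (1 - 2 * ε) * 1 :=
        mul_le_mul_of_nonneg_left (hβ1 γ) (by linarith only [hε1])
      linarith only [h14, hβ' γ hγ]
    linarith only [h12, h13]
  have h15 : n * ((1 - 8 * ε) * E) ≤ n * ∑ y ∈ Y, ∑ y' ∈ Y, corr (sm A B') (y - y') := by
    rw [e3]
    refine le_trans ?_ h11
    have h16 : (1 - 16 / 3 * ε) * (n * E) ≤ P := by linarith only [h5, hPQ, hQ0]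
    have h17 : (1 - 2 * ε) * ((1 - 16 / 3 * ε) * (n * E)) ≤ (1 - 2 * ε) * P :=
      mul_le_mul_of_nonneg_left h16 (by linarith only [hε1])
    refine le_trans ?_ h17
    have h18 : 0 ≤ (2 / 3 * ε + 32 / 3 * ε ^ 2) * (n * E) := by positivity
    nlinarith only [h18]
  exact le_of_mul_le_mul_left h15 hn

end Vale.Agent.P057.H57
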