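import Vale.Agent.P057.Bdl.B1

set_option linter.all false

open Finset

namespace Vale.Agent.P057.H57

variable {G : Type*} [AddCommGroup G] [Fintype G] [DecidableEq G]

/-- from a dense set `T` of almost periods in a Bohr set to a density increment -/
theorem inc_of_T (Γ' : Finset (AddChar G ℂ)) (D R Rm : ℕ) (hR1 : 1 ≤ R) (hRm : R ≤ Rm)
    (hd : Γ'.card + R ≤ D) (A1 Y T : Finset G) (ρ4 t τ : ℝ) (hρ4 : 0 < ρ4) (hρ4le : ρ4 ≤ 2)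
    (hreg4 : Regular Γ' D ρ4) (hA1 : A1.Nonempty) (hYne : Y.Nonempty) (hTne : T.Nonempty)
    (htpos : 0 < t) (hTB : T ⊆ bohr Γ' ρ4)
    (hYavg : ∑ y ∈ Y, ∑ y' ∈ Y, corr (ind A1) (y - y') ≤ (1 + 3/1000) * t * (Y.card : ℝ) ^ 2)
    (hfour : (1 - 5/1000) * t * (Y.card : ℝ) ^ 2 * (T.card : ℝ) ^ 2 ≤
      ∑ y ∈ Y, ∑ y' ∈ Y, ∑ s ∈ T, ∑ s' ∈ T, corr (ind A1) (y - y' + (s - s')))
    (hτ0 : 0 < τ) (hτ : τ * ((bohr Γ' ρ4).card : ℝ) ≤ (T.card : ℝ))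
    (hj : 16 * Real.log (4 / τ) < R) :
    ∃ (Γ2 : Finset (AddChar G ℂ)) (ρ' : ℝ) (x : G), Γ2.card ≤ Γ'.card + R ∧ 0 < ρ' ∧ ρ' ≤ 2 ∧
      ρ4 * (kap D)^2 / (4 * Rm) ≤ ρ' ∧ Regular Γ2 D ρ' ∧
      (1 - 1/50) * t * ((bohr Γ2 ρ').card : ℝ)
        ≤ (A1.card : ℝ) * (((bohr Γ2 ρ').filter (fun b => x + b ∈ A1)).card : ℝ) := by
  have hk0 := os_kap_pos D
  have hk1 := os_kap_le D
  have hR1r : (1:ℝ) ≤ Rm := by exact_mod_cast hR1.trans hRm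
  have hRpos : (0:ℝ) < Rm := by linarith only [hR1r]
  have hRR : (R:ℝ) ≤ Rm := by exact_mod_cast hRm
  have hR1' : (1:ℝ) ≤ R := by exact_mod_cast hR1
  obtain ⟨ρ5, h5a, h5b, hreg5⟩ := exists_regular Γ' D (by omega) (ρ := kap D * ρ4 / Rm) (by positivity)
  have hρ5 : 0 < ρ5 := lt_of_lt_of_le (by positivity) h5a
  have hRmρ5 : Rm * ρ5 ≤ kap D * ρ4 := by
    rw [le_div_iff₀ hRpos] at h5b
    rw [mul_comm]; exact h5b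
  have hRρ5 : R * ρ5 ≤ kap D * ρ4 := le_trans (mul_le_mul_of_nonneg_right hRR hρ5.le) hRmρ5
  have hD'card : ((bohr Γ' (ρ4 + R * ρ5)).card : ℝ) ≤ 2 * ((bohr Γ' ρ4).card : ℝ) :=
    os_card_narrow hρ4 hreg4 (by linarith only [hRρ5])
  obtain ⟨Λ, hΛcard, hΛ⟩ := local_chang T (bohr Γ' ρ4) (bohr Γ' (ρ4 + R * ρ5)) (bohr Γ' ρ5) R
    hTB hTne ⟨0, zero_mem_bohr Γ' hρ5.le⟩
    (by
      intro x hx e he
      exact sub_mem_bohr hx (os_sum_mem_bohr Γ' R ρ5 e he))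
    hD'card τ hτ0 hτ hj
  classical
  have hΓ2card : (Γ' ∪ Λ).card ≤ Γ'.card + R := le_trans (Finset.card_union_le _ _) (by omega)
  obtain ⟨ρ6, h6a, h6b, hreg6⟩ := exists_regular (Γ' ∪ Λ) D (by omega) (ρ := kap D * ρ5)
    (by positivity)
  have hρ6 : 0 < ρ6 := lt_of_lt_of_le (by positivity) h6a
  have hRρ6 : Rm * ρ6 ≤ 1/2000 :=
    os_Rrho6 (kap D) Rm ρ4 ρ5 ρ6 hk0 hk1 hRpos hρ4 hρ4le hRmρ5 h6b
  have hchar : ∀ γ : AddChar G ℂ, (T.card : ℝ) / 2 ≤ ‖∑ x ∈ T, γ x‖ →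
      ∀ b ∈ bohr (Γ' ∪ Λ) ρ6, ‖γ b - 1‖ ≤ 1/400 := by
    intro γ hγ b hb
    obtain ⟨χ, hχ, hle⟩ := hΛ γ hγ
    rw [bohr, Finset.mem_filter] at hb
    exact os_char Γ' Λ D Rm ρ5 ρ6 hρ5 hρ6 hreg5 h6b hRρ6
      (le_trans (by exact_mod_cast hΛcard) hRR) γ χ hχ b
      (fun g hg => hb.2 g (Finset.mem_union_left _ hg))
      (fun g hg => hb.2 g (Finset.mem_union_right _ hg)) (hle b)
  obtain ⟨x, hx⟩ := fourier_step A1 Y T (bohr (Γ' ∪ Λ) ρ6) hA1 hYne hTne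
    ⟨0, zero_mem_bohr _ hρ6.le⟩ t htpos hYavg hfour hchar
  refine ⟨Γ' ∪ Λ, ρ6, x, hΓ2card, hρ6, ?_, ?_, hreg6, hx⟩
  · have e1 : ρ6 ≤ Rm * ρ6 := le_mul_of_one_le_left hρ6.le hR1r
    linarith only [hRρ6, e1]
  · have e1 : kap D * (kap D * ρ4 / Rm / 2) / 2 ≤ kap D * ρ5 / 2 := by
      gcongr
    refine le_trans (le_of_eq ?_) (e1.trans h6a)
    field_simp
    ring

end Vale.Agent.P057.H57
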