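import Vale.Agent.P057.R2.h57.Extremal

set_option linter.all false

open Finset

namespace Vale.Agent.P057.H57

variable {G : Type*} [AddCommGroup G] [Fintype G] [DecidableEq G]

/-- a set `Y` extremal for the linear potential, exactly among its own subsets and with slack
among the subsets of the larger set `U` -/
structure GTight (f : G → ℝ) (U Y : Finset G) (t κ g : ℝ) : Prop where
  ne : Y.Nonempty
  YU : Y ⊆ U
  f0 : ∀ x, 0 ≤ f x
  f1 : ∀ x, f x ≤ 1
  tpos : 0 < t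
  k0 : 0 < κ
  k1 : κ ≤ 1
  sup : ∑ x, f x ≤ Real.exp g * t
  eng : en f (ind Y) (ind Y) = t * (Y.card : ℝ) ^ 2
  inner : ∀ Z ⊆ Y, Z.Nonempty →
    en f (ind Z) (ind Z) ≤ t * ((Y.card : ℝ) / (Z.card : ℝ)) ^ κ * (Z.card : ℝ) ^ 2
  outer : ∀ Z ⊆ U, Z.Nonempty →
    en f (ind Z) (ind Z) ≤ Real.exp κ * t * ((Y.card : ℝ) / (Z.card : ℝ)) ^ κ * (Z.card : ℝ) ^ 2

theorem GTight.weights {f : G → ℝ} {U Y : Finset G} {t κ g : ℝ} (h : GTight f U Y t κ g)
    (w : G → ℝ) (hw0 : ∀ z, 0 ≤ w z) (hw1 : ∀ z, w z ≤ ind U z) :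
    nrm f w ≤ Real.sqrt (Real.exp κ * t) * (Y.card : ℝ) ^ (κ / 2) * mass w ^ (1 - κ / 2) := by
  have hn : (0:ℝ) < Y.card := by exact_mod_cast h.ne.card_pos
  have ht := h.tpos
  have hk0 := h.k0
  have hk1 := h.k1
  set p : ℝ := 1 - κ / 2 with hp
  have hp0 : 0 ≤ p := by rw [hp]; linarith
  have hp1 : p ≤ 1 := by rw [hp]; linarith
  set C1 : ℝ := Real.sqrt (Real.exp κ * t) * (Y.card : ℝ) ^ (κ / 2) with hC1
  have hC10 : 0 ≤ C1 := by positivity
  have hφ : ConcaveOn ℝ (Set.Ici 0) (fun x : ℝ => C1 * x ^ p) :=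
    (Real.concaveOn_rpow hp0 hp1).smul hC10
  have hφ0 : 0 ≤ (fun x : ℝ => C1 * x ^ p) 0 := by
    have h1 : 0 ≤ (0:ℝ) ^ p := Real.rpow_nonneg le_rfl _
    exact mul_nonneg hC10 h1
  have hsets : ∀ Z ⊆ U, Z.Nonempty → nrm f (ind Z) ≤ (fun x : ℝ => C1 * x ^ p) (Z.card : ℝ) := by
    intro Z hZ hne
    have hm : (0:ℝ) < Z.card := by exact_mod_cast hne.card_pos
    have h1 := h.outer Z hZ hne
    show nrm f (ind Z) ≤ C1 * (Z.card : ℝ) ^ p
    unfold nrm
    rw [Real.sqrt_le_left (by positivity)]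
    refine h1.trans (le_of_eq ?_)
    rw [hC1, mul_pow, mul_pow, Real.sq_sqrt (by positivity)]
    rw [Real.div_rpow hn.le hm.le]
    have e1 : ((Y.card : ℝ) ^ (κ / 2)) ^ 2 = (Y.card : ℝ) ^ κ := by
      rw [← Real.rpow_natCast, ← Real.rpow_mul hn.le]; congr 1; push_cast; ring
    have e2 : ((Z.card : ℝ) ^ p) ^ 2 = (Z.card : ℝ) ^ (2:ℝ) / (Z.card : ℝ) ^ κ := by
      rw [← Real.rpow_natCast, ← Real.rpow_mul hm.le, ← Real.rpow_sub hm]
      congr 1
      rw [hp]; push_cast; ring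
    rw [e1, e2, Real.rpow_two]
    field_simp
  exact layer (nrm f) (nrm_add f) (fun c a hc => (nrm_smul f a c hc).le)
      (nrm_zero f).le _ hφ hφ0 U hsets w hw0 hw1

/-- convenient form: a weight bounded by `b` whose mass is at least `exp (-x) b |Y|` -/
theorem GTight.scaled {f : G → ℝ} {U Y : Finset G} {t κ g : ℝ} (h : GTight f U Y t κ g)
    (w : G → ℝ) (b x : ℝ) (hb : 0 < b) (hw0 : ∀ z, 0 ≤ w z) (hw1 : ∀ z, w z ≤ b * ind U z)
    (hm : b * (Y.card : ℝ) ≤ Real.exp x * mass w) :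
    nrm f w ≤ Real.sqrt t * Real.exp (κ * (1 + x) / 2) * mass w := by
  have hn : (0:ℝ) < Y.card := by exact_mod_cast h.ne.card_pos
  have ht := h.tpos
  have hk0 := h.k0
  have hk1 := h.k1
  have hmp : 0 < mass w := by
    by_contra hcon
    push Not at hcon
    have h1 : 0 < b * (Y.card : ℝ) := by positivity
    have h2 : Real.exp x * mass w ≤ 0 := mul_nonpos_of_nonneg_of_nonpos (Real.exp_pos _).le hcon
    linarith
  have h1 := h.weights (fun z => b⁻¹ * w z)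
    (fun z => mul_nonneg (inv_nonneg.mpr hb.le) (hw0 z))
    (fun z => by
      rw [inv_mul_le_iff₀ hb]; exact hw1 z)
  rw [nrm_smul f w _ (inv_nonneg.mpr hb.le)] at h1
  have h2 : mass (fun z => b⁻¹ * w z) = b⁻¹ * mass w := by
    unfold mass; rw [Finset.mul_sum]
  rw [h2] at h1
  have hbm : 0 < b⁻¹ * mass w := by positivity
  have h3 : nrm f w ≤ b * (Real.sqrt (Real.exp κ * t) * (Y.card : ℝ) ^ (κ / 2) *
      (b⁻¹ * mass w) ^ (1 - κ / 2)) := by
    rwa [inv_mul_le_iff₀ hb] at h1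
  refine h3.trans ?_
  have e1 : (b⁻¹ * mass w) ^ (1 - κ / 2) = (b⁻¹ * mass w) * (b⁻¹ * mass w) ^ (-(κ/2)) := by
    rw [sub_eq_add_neg, Real.rpow_add hbm, Real.rpow_one]
  have e2 : (Y.card : ℝ) ^ (κ / 2) * (b⁻¹ * mass w) ^ (-(κ/2))
      = ((Y.card : ℝ) / (b⁻¹ * mass w)) ^ (κ / 2) := by
    rw [Real.div_rpow hn.le hbm.le, Real.rpow_neg hbm.le]; rfl
  have e3 : ((Y.card : ℝ) / (b⁻¹ * mass w)) ^ (κ / 2) ≤ Real.exp (κ * x / 2) := by
    have a1 : (Y.card : ℝ) / (b⁻¹ * mass w) ≤ Real.exp x := by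
      rw [div_le_iff₀ hbm]
      have : Real.exp x * (b⁻¹ * mass w) = b⁻¹ * (Real.exp x * mass w) := by ring
      rw [this, le_inv_mul_iff₀ hb]
      exact hm
    calc ((Y.card : ℝ) / (b⁻¹ * mass w)) ^ (κ / 2) ≤ (Real.exp x) ^ (κ / 2) :=
          Real.rpow_le_rpow (by positivity) a1 (by positivity)
      _ = Real.exp (x * (κ / 2)) := by rw [← Real.exp_mul]
      _ = Real.exp (κ * x / 2) := by congr 1; ring
  have e4 : Real.sqrt (Real.exp κ * t) = Real.sqrt t * Real.exp (κ / 2) := by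
    rw [mul_comm, Real.sqrt_mul ht.le]
    congr 1
    rw [show Real.exp κ = Real.exp (κ / 2) * Real.exp (κ / 2) by rw [← Real.exp_add]; congr 1; ring]
    rw [Real.sqrt_mul_self (Real.exp_pos _).le]
  have e5 : Real.exp (κ * (1 + x) / 2) = Real.exp (κ / 2) * Real.exp (κ * x / 2) := by
    rw [← Real.exp_add]; congr 1; ring
  calc b * (Real.sqrt (Real.exp κ * t) * (Y.card : ℝ) ^ (κ / 2) * (b⁻¹ * mass w) ^ (1 - κ / 2))
      = (b * b⁻¹) * (Real.sqrt t * Real.exp (κ / 2) * mass w *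
        ((Y.card : ℝ) ^ (κ / 2) * (b⁻¹ * mass w) ^ (-(κ/2)))) := by
        rw [e1, e4]; ring
    _ = Real.sqrt t * Real.exp (κ / 2) * mass w *
        ((Y.card : ℝ) / (b⁻¹ * mass w)) ^ (κ / 2) := by
        rw [mul_inv_cancel₀ hb.ne', one_mul, e2]
    _ ≤ Real.sqrt t * Real.exp (κ / 2) * mass w * Real.exp (κ * x / 2) :=
        mul_le_mul_of_nonneg_left e3 (by positivity)
    _ = _ := by rw [e5]; ring

/-- the `Tight` structure at scale `s` -/
theorem GTight.toTight {f : G → ℝ} {U Y : Finset G} {t κ g : ℝ} (h : GTight f U Y t κ g)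
    (s η : ℝ) (hs : 0 ≤ s) (hη1 : η ≤ 1) (hη : κ * (1 + s) ≤ η) : Tight f Y t η s g := by
  have hn : (0:ℝ) < Y.card := by exact_mod_cast h.ne.card_pos
  have hk0 := h.k0
  have ht := h.tpos
  have hκη : κ ≤ η := by nlinarith only [hη, hk0, hs]
  refine ⟨h.ne, h.f0, h.f1, h.tpos, hk0.le.trans hκη, hη1, hs, h.sup, h.eng, ?_, ?_⟩
  · intro w hw0 hw1 hm
    have h1 := h.scaled w 1 s one_pos hw0
      (fun z => by
        rw [one_mul]
        refine (hw1 z).trans ?_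
        unfold ind
        by_cases hz : z ∈ Y
        · rw [if_pos hz, if_pos (h.YU hz)]
        · rw [if_neg hz]; split_ifs <;> norm_num)
      (by
        rw [one_mul]
        have := mul_le_mul_of_nonneg_left hm (Real.exp_pos s).le
        rwa [← mul_assoc, ← Real.exp_add, add_neg_cancel, Real.exp_zero, one_mul] at this)
    have hm0 := mass_nonneg w hw0
    rw [← nrm_sq]
    calc nrm f w ^ 2 ≤ (Real.sqrt t * Real.exp (κ * (1 + s) / 2) * mass w) ^ 2 :=
          pow_le_pow_left₀ (nrm_nonneg _ _) h1 2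
      _ = Real.exp (κ * (1 + s)) * t * mass w ^ 2 := by
          rw [mul_pow, mul_pow, Real.sq_sqrt ht.le, ← Real.exp_nat_mul]
          have : ((2:ℕ):ℝ) * (κ * (1 + s) / 2) = κ * (1 + s) := by push_cast; ring
          rw [this]; ring
      _ ≤ Real.exp η * t * mass w ^ 2 := by
          have := Real.exp_le_exp.mpr hη
          gcongr
  · intro y hy
    have h1 := deg_of_tight f h.f0 Y t κ 1 ht hk0.le h.k1 le_rfl h.eng
      (fun Z hZ hne _ => h.inner Z hZ hne) y hy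
    refine le_trans ?_ h1
    apply mul_le_mul_of_nonneg_right _ hn.le
    apply mul_le_mul_of_nonneg_right _ ht.le
    linarith only [hκη, hk0]

end Vale.Agent.P057.H57
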