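import Vale.Agent.P057.R2.h57.Pot
import Vale.Agent.P057.R2.h57.Extract
import Vale.Agent.P057.R2.h57.FromT

set_option linter.all false

open Finset

namespace Vale.Agent.P057.H57

/-- the cost function -/
noncomputable def cost (L u : ℝ) : ℝ := (L + 3) ^ 3 * (1 + u) * (1 + Real.log (1 + u)) ^ 2

theorem cost_ge (L u : ℝ) (hL : 1 ≤ L) (hu : 0 ≤ u) : (L + 3) ^ 3 ≤ cost L u := by
  unfold cost
  have h1 : 0 ≤ Real.log (1 + u) := Real.log_nonneg (by linarith)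
  have h2 : (1:ℝ) ≤ (1 + Real.log (1 + u)) ^ 2 := one_le_pow₀ (by linarith)
  have h3 : 0 < (L + 3) ^ 3 := by positivity
  calc (L + 3) ^ 3 = (L + 3) ^ 3 * 1 * 1 := by ring
    _ ≤ (L + 3) ^ 3 * (1 + u) * (1 + Real.log (1 + u)) ^ 2 := by
      gcongr
      linarith

theorem cost_mono (L u u' : ℝ) (hL : 1 ≤ L) (hu : 0 ≤ u) (huu : u ≤ u') : cost L u ≤ cost L u' := by
  unfold cost
  have h1 : 0 ≤ Real.log (1 + u) := Real.log_nonneg (by linarith)
  have h2 : Real.log (1 + u) ≤ Real.log (1 + u') := Real.log_le_log (by linarith) (by linarith)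
  have h3 : 0 < L + 3 := by linarith
  have h4 : 0 ≤ u' := hu.trans huu
  gcongr

theorem numA_lam (L u : ℝ) (hL : 1 ≤ L) (hu0 : 0 ≤ u) (hu : u ≤ L + 1) :
    ∃ lam : ℕ, (lam : ℝ) ≤ 10 ^ 5 * (L + 3) / (1 + u) ∧
      10 ^ 5 * (L + 3) / (2 * (1 + u)) ≤ (lam : ℝ) ∧ (99999 : ℝ) ≤ lam := by
  refine ⟨⌊10 ^ 5 * (L + 3) / (1 + u)⌋₊, Nat.floor_le (by positivity), ?_, ?_⟩
  · have h1 := Nat.lt_floor_add_one (10 ^ 5 * (L + 3) / (1 + u))
    have h2 : 10 ^ 5 * (L + 3) / (2 * (1 + u)) = (10 ^ 5 * (L + 3) / (1 + u)) / 2 := by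
      field_simp
    have h3 : 10 ^ 5 ≤ 10 ^ 5 * (L + 3) / (1 + u) := by
      rw [le_div_iff₀ (by positivity)]
      linarith
    rw [h2]
    linarith
  · have h1 := Nat.lt_floor_add_one (10 ^ 5 * (L + 3) / (1 + u))
    have h3 : 10 ^ 5 ≤ 10 ^ 5 * (L + 3) / (1 + u) := by
      rw [le_div_iff₀ (by positivity)]
      linarith
    linarith

theorem exp_neg_le_inv (x : ℝ) (hx : 0 < x) : Real.exp (-x) ≤ 1 / x := by
  rw [Real.exp_neg, ← one_div]
  apply one_div_le_one_div_of_le hx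
  have := Real.add_one_le_exp x
  linarith

theorem exp_neg_le_inv_sq (x : ℝ) (hx : 0 < x) : Real.exp (-x) ≤ 2 / x ^ 2 := by
  rw [Real.exp_neg, inv_le_comm₀ (Real.exp_pos _) (by positivity)]
  rw [inv_div]
  have := Real.quadratic_le_exp_of_nonneg hx.le
  linarith

theorem numA_cut (L u lam : ℝ) (hL : 1 ≤ L) (hu0 : 0 ≤ u) (hlam : lam ≤ 10 ^ 5 * (L + 3) / (1 + u)) :
    Real.exp ((L + 1) / 2 + (L + 3) * lam - 10 ^ 15 * (L + 3) ^ 2) ≤ (4 / 10 ^ 10) / 4 := by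
  have h1 : lam ≤ 10 ^ 5 * (L + 3) := by
    refine hlam.trans (div_le_self (by positivity) (by linarith))
  have h2 : (L + 3) * lam ≤ (L + 3) * (10 ^ 5 * (L + 3)) :=
    mul_le_mul_of_nonneg_left h1 (by linarith)
  have h3 : (L + 1) / 2 + (L + 3) * lam - 10 ^ 15 * (L + 3) ^ 2 ≤ -(10 ^ 14) := by
    nlinarith only [h2, hL]
  refine (Real.exp_le_exp.mpr h3).trans ((exp_neg_le_inv _ (by norm_num)).trans ?_)
  norm_num

theorem numA_v (L lam : ℝ) (hL : 1 ≤ L) (hlam : 99999 ≤ lam) :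
    2 * (4 / 10 ^ 10) + Real.exp (2 * (L + 1) - (L + 3) * lam) ≤ ((1/1000) / 16) ^ 2 / 2 := by
  have h3 : 2 * (L + 1) - (L + 3) * lam ≤ -(399988) := by
    nlinarith only [hlam, hL]
  have h4 := (Real.exp_le_exp.mpr h3).trans (exp_neg_le_inv_sq _ (by norm_num))
  norm_num at h4 ⊢
  linarith

theorem numA_kap (L u : ℝ) (hL : 1 ≤ L) (hu0 : 0 ≤ u) (hu : u ≤ L + 1) :
    2 * (1 + u) / (10 ^ 15 * (L + 3) ^ 2) ≤ 2 / 10 ^ 15 := by
  rw [div_le_div_iff₀ (by positivity) (by norm_num)]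
  nlinarith only [hL, hu]

theorem numA_kaps (L u lam : ℝ) (hL : 1 ≤ L) (hu0 : 0 ≤ u) (hlam : lam ≤ 10 ^ 5 * (L + 3) / (1 + u)) :
    2 * (1 + u) / (10 ^ 15 * (L + 3) ^ 2) * ((L + 3) * lam) ≤ (4 / 10 ^ 10) / 2 := by
  have h1 : (L + 3) * lam ≤ (L + 3) * (10 ^ 5 * (L + 3) / (1 + u)) :=
    mul_le_mul_of_nonneg_left hlam (by linarith)
  have h2 : 2 * (1 + u) / (10 ^ 15 * (L + 3) ^ 2) * ((L + 3) * lam)
      ≤ 2 * (1 + u) / (10 ^ 15 * (L + 3) ^ 2) * ((L + 3) * (10 ^ 5 * (L + 3) / (1 + u))) :=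
    mul_le_mul_of_nonneg_left h1 (by positivity)
  refine h2.trans (le_of_eq ?_)
  have h3 : (1 + u) ≠ 0 := by linarith
  have h4 : (L + 3) ≠ 0 := by linarith
  field_simp
  norm_num

theorem numA_final (L u lam : ℝ) (hL : 1 ≤ L) (hu0 : 0 ≤ u) (hu : u ≤ L + 1)
    (hlam1 : lam ≤ 10 ^ 5 * (L + 3) / (1 + u)) (hlam2 : 10 ^ 5 * (L + 3) / (2 * (1 + u)) ≤ lam)
    (hlam3 : 99999 ≤ lam) (H δ τ : ℝ) (hH : H = 10 ^ 15 * (L + 3) ^ 2 * (1 + Real.log (1 + u)))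
    (hδ : δ = (1/1000) * lam / 64)
    (hτ : τ = Real.exp (-((1/1000) * lam / 32)) / 8 * Real.exp (-(H ^ 2 / δ))) :
    16 * Real.log (4 / τ) < 10 ^ 32 * cost L u := by
  have hc := cost_ge L u hL hu0
  have h1 : Real.log (4 / τ) = Real.log 32 + (1/1000) * lam / 32 + H ^ 2 / δ := by
    have e1 : 4 / τ = 32 * Real.exp ((1/1000) * lam / 32) * Real.exp (H ^ 2 / δ) := by
      rw [hτ, Real.exp_neg, Real.exp_neg]
      field_simp
      norm_num
    rw [e1, Real.log_mul (by positivity) (Real.exp_pos _).ne', Real.log_mul (by norm_num)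
      (Real.exp_pos _).ne', Real.log_exp, Real.log_exp]
  have h2 : Real.log 32 ≤ 5 := by
    have : (32:ℝ) = 2 ^ 5 := by norm_num
    rw [this, Real.log_pow]
    have := Real.log_two_lt_d9
    push_cast
    linarith
  have h3 : lam ≤ 10 ^ 5 * (L + 3) := hlam1.trans (div_le_self (by positivity) (by linarith))
  have h4 : (L + 3) ≤ (L + 3) ^ 3 := by
    have : (1:ℝ) ≤ (L + 3) ^ 2 := one_le_pow₀ (by linarith)
    nlinarith
  have h5 : (1:ℝ) ≤ (L + 3) ^ 3 := one_le_pow₀ (by linarith)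
  have h6 : H ^ 2 / δ ≤ 128 * 10 ^ 28 * cost L u := by
    have hlpos : 0 < lam := by linarith
    have e1 : H ^ 2 / δ = H ^ 2 * 64000 * (1 / lam) := by
      rw [hδ]; field_simp; ring
    have e2 : 1 / lam ≤ 2 * (1 + u) / (10 ^ 5 * (L + 3)) := by
      rw [div_le_div_iff₀ hlpos (by positivity)]
      rw [div_le_iff₀ (by positivity)] at hlam2
      linarith
    rw [e1]
    refine (mul_le_mul_of_nonneg_left e2 (by positivity)).trans (le_of_eq ?_)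
    rw [hH]
    unfold cost
    have h4 : (L + 3) ≠ 0 := by linarith
    field_simp
    ring
  rw [h1]
  nlinarith only [h2, h3, h4, h5, h6, hc]

variable {G : Type*} [AddCommGroup G] [Fintype G] [DecidableEq G]

theorem tightAvg_eq_en (A Y : Finset G) (hY : Y.Nonempty) :
    tightAvg A Y * (Y.card : ℝ) ^ 2 = en (ind A) (ind Y) (ind Y) := by
  rw [tightAvg_mul A Y hY, en_eq_mom, mom_ind_ind]
  simp only [pow_one]

theorem sum_ind (A : Finset G) : ∑ x, ind A x = (A.card : ℝ) := mass_ind A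

/-- size of the ambient Bohr set relative to `Y` -/
theorem numA_size (L u P : ℝ) (hL : 1 ≤ L) (hu0 : 0 ≤ u) (hP0 : 0 ≤ P) (hP : P ≤ 24 * 10 ^ 5 * L)
    (H U K Y0 Y : ℝ) (hH : H = 10 ^ 15 * (L + 3) ^ 2 * (1 + Real.log (1 + u)))
    (hK0 : 0 ≤ K) (hU : U ≤ 2 * K) (hY0 : 1/2 * Real.exp (-(P * (L + 1))) * K ≤ Y0)
    (hY : Real.exp (-(10 ^ 15 * (L + 3) ^ 2 * Real.log (1 + u))) * Y0 ≤ Y) :
    U ≤ Real.exp H * Y := by
  have h1 : K ≤ 2 * Real.exp (P * (L + 1)) * Y0 := by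
    have h2 := mul_le_mul_of_nonneg_left hY0 (show 0 ≤ 2 * Real.exp (P * (L + 1)) by positivity)
    have h3 : 2 * Real.exp (P * (L + 1)) * (1/2 * Real.exp (-(P * (L + 1))) * K) = K := by
      have : Real.exp (P * (L + 1)) * Real.exp (-(P * (L + 1))) = 1 := by
        rw [← Real.exp_add]; simp
      calc 2 * Real.exp (P * (L + 1)) * (1/2 * Real.exp (-(P * (L + 1))) * K)
          = (Real.exp (P * (L + 1)) * Real.exp (-(P * (L + 1)))) * K := by ring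
        _ = K := by rw [this, one_mul]
    linarith only [h2, h3]
  set M : ℝ := 10 ^ 15 * (L + 3) ^ 2 * Real.log (1 + u) with hM
  have h4 : Y0 ≤ Real.exp M * Y := by
    have h2 := mul_le_mul_of_nonneg_left hY (Real.exp_pos M).le
    rwa [← mul_assoc, ← Real.exp_add, add_neg_cancel, Real.exp_zero, one_mul] at h2
  have hY0' : 0 ≤ Y0 := le_trans (by positivity) hY0
  have hYn : 0 ≤ Y := le_trans (by positivity) hY
  have h5 : 4 * Real.exp (P * (L + 1)) ≤ Real.exp (10 ^ 15 * (L + 3) ^ 2) := by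
    have h6 : (4:ℝ) ≤ Real.exp 3 := by
      have := Real.add_one_le_exp (3:ℝ)
      linarith
    have h7 : 4 * Real.exp (P * (L + 1)) ≤ Real.exp 3 * Real.exp (P * (L + 1)) :=
      mul_le_mul_of_nonneg_right h6 (Real.exp_pos _).le
    rw [← Real.exp_add] at h7
    refine h7.trans (Real.exp_le_exp.mpr ?_)
    have h8 : P * (L + 1) ≤ 24 * 10 ^ 5 * L * (L + 1) := mul_le_mul_of_nonneg_right hP (by linarith)
    nlinarith only [h8, hL]
  have hHe : Real.exp H = Real.exp (10 ^ 15 * (L + 3) ^ 2) * Real.exp M := by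
    rw [← Real.exp_add, hH, hM]; congr 1; ring
  calc U ≤ 2 * K := hU
    _ ≤ 2 * (2 * Real.exp (P * (L + 1)) * (Real.exp M * Y)) := by
        have := mul_le_mul_of_nonneg_left h4 (show 0 ≤ 2 * Real.exp (P * (L + 1)) by positivity)
        linarith
    _ = (4 * Real.exp (P * (L + 1))) * (Real.exp M * Y) := by ring
    _ ≤ Real.exp (10 ^ 15 * (L + 3) ^ 2) * (Real.exp M * Y) :=
        mul_le_mul_of_nonneg_right h5 (by positivity)
    _ = _ := by rw [hHe]; ring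

/-- the increment theorem -/
theorem inc_A (Γ' : Finset (AddChar G ℂ)) (D Rm : ℕ) (A1 : Finset G) (L N ρ3 : ℝ)
    (hL : 1 ≤ L) (hRm : 10 ^ 32 * cost L (L + 1) + 1 ≤ (Rm : ℝ)) (hd : Γ'.card + Rm ≤ D)
    (hρ3 : 0 < ρ3) (hρ32 : ρ3 ≤ 2) (hreg3 : Regular Γ' D ρ3)
    (hA1 : A1.Nonempty) (hN : 0 < N) (hNL : Real.exp (-(L+1)) * (A1.card : ℝ) ≤ N)
    (P : ℕ) (hP : 8000 ≤ P) (hP2 : (P : ℝ) ≤ 24 * 10^5 * L)
    (hmom : (21/20 * N) ^ P * ((bohr Γ' ρ3).card : ℝ) ^ 2 ≤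
      ∑ k ∈ bohr Γ' ρ3, ∑ k' ∈ bohr Γ' ρ3, (corr (ind A1) (k - k')) ^ P) :
    ∃ (u : ℝ) (R : ℕ) (Γ2 : Finset (AddChar G ℂ)) (ρ' : ℝ) (x : G),
      1047/1000 ≤ Real.exp u ∧ u ≤ L + 1 ∧ (R : ℝ) ≤ 10 ^ 32 * cost L u + 1 ∧
      Γ2.card ≤ Γ'.card + R ∧ 0 < ρ' ∧ ρ' ≤ 2 ∧
      ρ3 * (kap D)^3 / (16 * Rm) ≤ ρ' ∧ Regular Γ2 D ρ' ∧
      (49/50) * (N * Real.exp u) * ((bohr Γ2 ρ').card : ℝ)
        ≤ (A1.card : ℝ) * (((bohr Γ2 ρ').filter (fun b => x + b ∈ A1)).card : ℝ) := by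
  have hk0 := os_kap_pos D
  have hk1 := os_kap_le D
  have hKne : (bohr Γ' ρ3).Nonempty := ⟨0, zero_mem_bohr Γ' hρ3.le⟩
  have hAp : (0:ℝ) < A1.card := by exact_mod_cast hA1.card_pos
  -- sifting
  obtain ⟨Y0, hY0K, hY0, hc0, hb0⟩ := sift A1 (bohr Γ' ρ3) hKne P (21/20 * N) (1/1000) (1/1000)
    (by positivity) (by norm_num) (by norm_num) (by norm_num) (tight_pow_bound P hP) hmom
  have hm0 : (1 - 1/1000) * ((1 - 1/1000) * (21/20 * N)) ≤ tightAvg A1 Y0 :=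
    tightAvg_ge A1 Y0 hY0 _ _ (by positivity) hb0
  have hc0' : 1/2 * Real.exp (-(P * (L + 1))) * ((bohr Γ' ρ3).card : ℝ) ≤ Y0.card := by
    refine le_trans ?_ hc0
    apply mul_le_mul_of_nonneg_right _ (Nat.cast_nonneg _)
    apply mul_le_mul_of_nonneg_left _ (by norm_num)
    have h1 : Real.exp (-(L + 1)) ≤ 21/20 * N / A1.card := by
      rw [le_div_iff₀ hAp]
      linarith only [hNL, hN]
    have h2 : Real.exp (-(P * (L + 1))) = Real.exp (-(L + 1)) ^ P := by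
      rw [← Real.exp_nat_mul]; congr 1; ring
    rw [h2]
    exact pow_le_pow_left₀ (Real.exp_pos _).le h1 _
  have hY0c : (0:ℝ) < Y0.card := by exact_mod_cast hY0.card_pos
  have hen0 := tightAvg_eq_en A1 Y0 hY0
  have hE0 : 1047/1000 * N * (Y0.card : ℝ) ^ 2 ≤ en (ind A1) (ind Y0) (ind Y0) := by
    rw [← hen0]
    apply mul_le_mul_of_nonneg_right _ (sq_nonneg _)
    linarith only [hm0, hN]
  -- extremal set
  set Λ : ℝ := 10 ^ 15 * (L + 3) ^ 2 with hΛ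
  have hΛ1 : 1 ≤ Λ := by rw [hΛ]; nlinarith only [hL]
  obtain ⟨Y, hYY0, hYne, u, hu0, hYen, hY0en, hYcard, hYtight⟩ := exists_loglog (ind A1) Y0 hY0 N hN
    (by
      refine le_trans ?_ hE0
      apply mul_le_mul_of_nonneg_right _ (sq_nonneg _)
      linarith only [hN]) Λ hΛ1
  have hYc : (0:ℝ) < Y.card := by exact_mod_cast hYne.card_pos
  have heu : 1047/1000 ≤ Real.exp u := by
    have h1 := hE0.trans hY0en
    have h2 := le_of_mul_le_mul_right h1 (by positivity)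
    nlinarith only [h2, hN]
  set t : ℝ := N * Real.exp u with ht
  have htp : 0 < t := by positivity
  -- u ≤ L + 1
  have hf0 : ∀ x, 0 ≤ ind A1 x := ind_nonneg A1
  have hf1 : ∀ x, ind A1 x ≤ 1 := by intro x; unfold ind; split_ifs <;> norm_num
  have htA : t ≤ (A1.card : ℝ) := by
    have h1 := en_le_sup (ind A1) (ind Y) (ind Y) hf0 hf1 (ind_nonneg Y) (ind_nonneg Y)
    rw [hYen, mass_ind, sum_ind] at h1
    have h2 : t * (Y.card : ℝ) ^ 2 ≤ (A1.card : ℝ) * (Y.card : ℝ) ^ 2 := by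
      refine h1.trans (le_of_eq ?_); ring
    exact le_of_mul_le_mul_right h2 (by positivity)
  have hAN : (A1.card : ℝ) ≤ Real.exp (L + 1) * N := by
    have h2 := mul_le_mul_of_nonneg_left hNL (Real.exp_pos (L + 1)).le
    rwa [← mul_assoc, ← Real.exp_add, add_neg_cancel, Real.exp_zero, one_mul] at h2
  have huL : u ≤ L + 1 := by
    have h1 : N * Real.exp u ≤ N * Real.exp (L + 1) := by
      rw [← ht]; linarith only [htA, hAN]
    exact Real.exp_le_exp.mp (le_of_mul_le_mul_left h1 hN)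
  obtain ⟨lam, hlam1, hlam2, hlam3⟩ := numA_lam L u hL hu0 huL
  -- tightness structure
  have hT : Tight (ind A1) Y t (4 / 10 ^ 10) ((L + 3) * lam) (L + 1) := by
    refine tight_of_sets (ind A1) hf0 hf1 Y hYne t (2 * (1 + u) / Λ) Λ ((L + 3) * lam) (4 / 10 ^ 10)
      (L + 1) htp (by positivity) ?_ hΛ1 (by norm_num) (by norm_num) (by positivity) ?_ hYen hYtight
      ?_ ?_ ?_
    · have := numA_kap L u hL hu0 huL
      rw [← hΛ] at this
      refine this.trans (by norm_num)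
    · rw [sum_ind]
      refine hAN.trans ?_
      apply mul_le_mul_of_nonneg_left _ (Real.exp_pos _).le
      rw [ht]
      have : 1 ≤ Real.exp u := Real.one_le_exp hu0
      nlinarith only [this, hN]
    · have := numA_kap L u hL hu0 huL
      rw [← hΛ] at this
      refine this.trans (by norm_num)
    · exact numA_kaps L u lam hL hu0 hlam1
    · exact numA_cut L u lam hL hu0 hlam1
  -- Bohr sets
  have hRm1 : (1:ℝ) ≤ Rm := by
    have := cost_ge L (L + 1) hL (by linarith only [hL])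
    have h5 : (1:ℝ) ≤ (L + 3) ^ 3 := one_le_pow₀ (by linarith only [hL])
    linarith
  obtain ⟨ρ4, h4a, h4b, hreg4⟩ := exists_regular Γ' D (by omega) (ρ := kap D * ρ3 / 2) (by positivity)
  have hρ4 : 0 < ρ4 := lt_of_lt_of_le (by positivity) h4a
  have hρ4le : ρ4 ≤ 2 := by
    have e1 : kap D * ρ3 ≤ 1 * 2 := mul_le_mul (by linarith only [hk1]) hρ32 hρ3.le (by norm_num)
    linarith only [h4b, e1]
  have hUcard : ((bohr Γ' (ρ3 + ρ4)).card : ℝ) ≤ 2 * ((bohr Γ' ρ3).card : ℝ) :=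
    os_card_narrow hρ3 hreg3 (by
      have : 0 < kap D * ρ3 := by positivity
      linarith only [h4b, this])
  set H : ℝ := 10 ^ 15 * (L + 3) ^ 2 * (1 + Real.log (1 + u)) with hH
  have hlog0 : 0 ≤ Real.log (1 + u) := Real.log_nonneg (by linarith only [hu0])
  have hHpos : 0 < H := by rw [hH]; positivity
  have hHU := numA_size L u P hL hu0 (Nat.cast_nonneg _) hP2 H _ _ (Y0.card : ℝ) (Y.card : ℝ) hH
    (Nat.cast_nonneg _) hUcard hc0' (by rw [← hΛ]; exact hYcard)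
  have hlam0 : (0:ℝ) < lam := by linarith only [hlam3]
  set δ : ℝ := (1/1000) * lam / 64 with hδ
  have hδ0 : 0 < δ := by positivity
  obtain ⟨T, hTB, hTne, hTcard, hTkl⟩ := exists_small_kl Y (bohr Γ' ρ4) (bohr Γ' (ρ3 + ρ4)) hYne
    ⟨0, zero_mem_bohr Γ' hρ4.le⟩
    (fun y hy s hs => sub_mem_bohr (hY0K (hYY0 hy)) hs) H δ hHpos hδ0 hHU
  obtain ⟨T', hT'T, hT'ne, hT'card, hT'per⟩ := hT.extract (1/1000) (by norm_num) (by norm_num)
    (by norm_num) lam (by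
      have : L + 1 + 2 = L + 3 := by ring
      rw [this]) (by linarith only [hlam3]) (numA_v L lam hL hlam3) T hTne hTkl
  set τ : ℝ := Real.exp (-((1/1000) * lam / 32)) / 8 * Real.exp (-(H ^ 2 / δ)) with hτ
  have hτ0 : 0 < τ := by positivity
  have hτT : τ * ((bohr Γ' ρ4).card : ℝ) ≤ (T'.card : ℝ) := by
    refine le_trans ?_ hT'card
    have := mul_le_mul_of_nonneg_left hTcard
      (show 0 ≤ Real.exp (-((1/1000) * lam / 32)) / 8 by positivity)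
    refine le_trans (le_of_eq ?_) this
    rw [hτ]; ring
  have hfin := numA_final L u lam hL hu0 huL hlam1 hlam2 hlam3 H δ τ hH hδ hτ
  set R : ℕ := ⌈10 ^ 32 * cost L u⌉₊ with hR
  have hR1 : 10 ^ 32 * cost L u ≤ R := Nat.le_ceil _
  have hcost0 : (1:ℝ) ≤ cost L u := by
    have := cost_ge L u hL hu0
    have h5 : (1:ℝ) ≤ (L + 3) ^ 3 := one_le_pow₀ (by linarith only [hL])
    linarith only [this, h5]
  have hR2 : (R:ℝ) ≤ 10 ^ 32 * cost L u + 1 := (Nat.ceil_lt_add_one (by positivity)).le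
  have hR3 : R ≤ Rm := by
    have h1 := cost_mono L u (L + 1) hL hu0 huL
    have h2 : (R:ℝ) ≤ Rm := by linarith only [hR2, h1, hRm]
    exact_mod_cast h2
  have hR4 : 1 ≤ R := by
    have : (1:ℝ) ≤ R := by linarith only [hR1, hcost0]
    exact_mod_cast this
  have havg : ∑ y ∈ Y, ∑ y' ∈ Y, corr (ind A1) (y - y') = t * (Y.card : ℝ) ^ 2 := by
    rw [← hYen, en_eq_mom, mom_ind_ind]
    simp only [pow_one]
  have hfour : (1 - 5/1000) * t * (Y.card : ℝ) ^ 2 * (T'.card : ℝ) ^ 2 ≤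
      ∑ y ∈ Y, ∑ y' ∈ Y, ∑ s ∈ T', ∑ s' ∈ T', corr (ind A1) (y - y' + (s - s')) := by
    have h1 : ∑ s ∈ T', ∑ s' ∈ T', (1 - 4 * (1/1000)) * t * (Y.card : ℝ) ^ 2
        ≤ ∑ s ∈ T', ∑ s' ∈ T', ∑ y ∈ Y, ∑ y' ∈ Y, corr (ind A1) (y - y' + (s - s')) :=
      Finset.sum_le_sum fun s hs => Finset.sum_le_sum fun s' hs' => hT'per s hs s' hs'
    have h2 : ∑ s ∈ T', ∑ s' ∈ T', (1 - 4 * (1/1000)) * t * (Y.card : ℝ) ^ 2
        = (1 - 4 * (1/1000)) * t * (Y.card : ℝ) ^ 2 * (T'.card : ℝ) ^ 2 := by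
      simp only [Finset.sum_const, nsmul_eq_mul]; ring
    have h3 : ∑ s ∈ T', ∑ s' ∈ T', ∑ y ∈ Y, ∑ y' ∈ Y, corr (ind A1) (y - y' + (s - s'))
        = ∑ y ∈ Y, ∑ y' ∈ Y, ∑ s ∈ T', ∑ s' ∈ T', corr (ind A1) (y - y' + (s - s')) := by
      have : ∀ s ∈ T', ∑ s' ∈ T', ∑ y ∈ Y, ∑ y' ∈ Y, corr (ind A1) (y - y' + (s - s'))
          = ∑ y ∈ Y, ∑ y' ∈ Y, ∑ s' ∈ T', corr (ind A1) (y - y' + (s - s')) := by
        intro s _
        rw [Finset.sum_comm]
        apply Finset.sum_congr rfl; intro y _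
        rw [Finset.sum_comm]
      rw [Finset.sum_congr rfl this, Finset.sum_comm]
      apply Finset.sum_congr rfl; intro y _
      rw [Finset.sum_comm]
    rw [← h3]
    refine le_trans ?_ h1
    rw [h2]
    have h4 : 0 ≤ t * (Y.card : ℝ) ^ 2 * (T'.card : ℝ) ^ 2 :=
      mul_nonneg (mul_nonneg htp.le (sq_nonneg _)) (sq_nonneg _)
    nlinarith only [h4]
  obtain ⟨Γ2, ρ', x, g1, g2, g3, g4, g5, g6⟩ := inc_of_T Γ' D R Rm hR4 hR3 (by omega) A1 Y T' ρ4 t τ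
    hρ4 hρ4le hreg4 hA1 hYne hT'ne htp (hT'T.trans hTB)
    (by
      rw [havg]
      have h4 : 0 ≤ t * (Y.card : ℝ) ^ 2 := mul_nonneg htp.le (sq_nonneg _)
      nlinarith only [h4]) hfour hτ0 hτT (lt_of_lt_of_le hfin hR1)
  refine ⟨u, R, Γ2, ρ', x, heu, huL, hR2, g1, g2, g3, ?_, g5, ?_⟩
  · refine le_trans ?_ g4
    have hRp : (0:ℝ) < Rm := by linarith only [hRm1]
    have e1 : (kap D * ρ3 / 2 / 2) * (kap D) ^ 2 / (4 * Rm) ≤ ρ4 * (kap D) ^ 2 / (4 * Rm) := by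
      gcongr
    refine le_trans (le_of_eq ?_) e1
    field_simp
    ring
  · refine le_trans (le_of_eq ?_) g6
    rw [ht]; ring

end Vale.Agent.P057.H57
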