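import Vale.Agent.P057.Bdl.B1

set_option linter.all false

open Finset

namespace Vale.Agent.P057.H57

/-- number of bootstrapping rounds -/
noncomputable def KB (L : ℝ) : ℕ := ⌈10 * (1 + Real.log L)⌉₊

/-- weight of the potential -/
noncomputable def LamB (L : ℝ) : ℝ := 10 ^ 27 * (L + 3) ^ 2

/-- almost-period accuracy -/
noncomputable def epsB (L : ℝ) : ℝ := 1 / (10 ^ 4 * KB L)

/-- cost of one stage -/
noncomputable def costB (L g : ℝ) : ℝ :=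
  2 ^ 28 * 10 ^ 12 * (g + 3) * ((KB L : ℝ) + 1) ^ 2 * (KB L : ℝ) ^ 3 * LamB L

/-- number of shells -/
noncomputable def mB (L : ℝ) : ℕ := ⌈LamB L * (L + 1)⌉₊

theorem KB_ge (L : ℝ) (hL : 1 ≤ L) : 10 ≤ (KB L : ℝ) := by
  have h1 := Nat.le_ceil (10 * (1 + Real.log L))
  have h2 := Real.log_nonneg hL
  unfold KB
  linarith

theorem KB_le (L : ℝ) (hL : 1 ≤ L) : (KB L : ℝ) ≤ 11 * (1 + Real.log L) := by
  have h2 := Real.log_nonneg hL
  have h1 := Nat.ceil_lt_add_one (a := 10 * (1 + Real.log L)) (by positivity)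
  unfold KB
  linarith

theorem exp_six : (200:ℝ) ≤ Real.exp 6 := by
  have e1 : Real.exp 6 = Real.exp 1 ^ 6 := by rw [← Real.exp_nat_mul]; norm_num
  have e2 : (2.7:ℝ) ≤ Real.exp 1 := by
    have := Real.exp_one_gt_d9; linarith only [this]
  have e3 : (2.7:ℝ) ^ 6 ≤ Real.exp 1 ^ 6 := pow_le_pow_left₀ (by norm_num) e2 6
  rw [e1]
  norm_num at e3 ⊢
  linarith only [e3]

theorem KB_pow (L : ℝ) (hL : 1 ≤ L) : 100 * (L + 1) ≤ (2:ℝ) ^ (KB L) := by
  have h0 : 0 < L := by linarith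
  have h1 : 10 * (1 + Real.log L) ≤ (KB L : ℝ) := Nat.le_ceil _
  have h2 := Real.log_nonneg hL
  have h3 : (2:ℝ) ^ (KB L) = Real.exp ((KB L : ℝ) * Real.log 2) := by
    rw [Real.exp_nat_mul, Real.exp_log (by norm_num)]
  have h4 := Real.log_two_gt_d9
  have h5 : 6 + Real.log L ≤ (KB L : ℝ) * Real.log 2 := by
    have e1 : 10 * (1 + Real.log L) * Real.log 2 ≤ (KB L : ℝ) * Real.log 2 :=
      mul_le_mul_of_nonneg_right h1 (by linarith)
    have e2 : 10 * (1 + Real.log L) * (0.69) ≤ 10 * (1 + Real.log L) * Real.log 2 :=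
      mul_le_mul_of_nonneg_left (by linarith) (by positivity)
    nlinarith
  rw [h3]
  calc 100 * (L + 1) ≤ 200 * L := by linarith
    _ ≤ Real.exp 6 * Real.exp (Real.log L) := by
        rw [Real.exp_log h0]
        exact mul_le_mul_of_nonneg_right exp_six h0.le
    _ = Real.exp (6 + Real.log L) := by rw [← Real.exp_add]
    _ ≤ _ := Real.exp_le_exp.mpr h5

theorem KB_four (L : ℝ) (hL : 1 ≤ L) : (KB L : ℝ) ^ 4 ≤ 4 * 10 ^ 6 * L := by
  have h0 : 0 < L := by linarith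
  have h1 := KB_le L hL
  have h2 := Real.log_nonneg hL
  have hK0 : (0:ℝ) ≤ KB L := Nat.cast_nonneg _
  have h3 : 1 + Real.log L ≤ 4 * L ^ ((1:ℝ)/4) := by
    have e1 : Real.log L = 4 * Real.log (L ^ ((1:ℝ)/4)) := by
      rw [Real.log_rpow h0]; ring
    have e2 := Real.log_le_sub_one_of_pos (Real.rpow_pos_of_pos h0 ((1:ℝ)/4))
    rw [e1]; linarith
  have h4 : (L ^ ((1:ℝ)/4)) ^ 4 = L := by
    rw [← Real.rpow_natCast, ← Real.rpow_mul h0.le]
    norm_num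
  calc (KB L : ℝ) ^ 4 ≤ (11 * (1 + Real.log L)) ^ 4 := pow_le_pow_left₀ hK0 h1 4
    _ ≤ (11 * (4 * L ^ ((1:ℝ)/4))) ^ 4 := by
        apply pow_le_pow_left₀ (by positivity)
        linarith
    _ = 3748096 * (L ^ ((1:ℝ)/4)) ^ 4 := by ring
    _ = 3748096 * L := by rw [h4]
    _ ≤ _ := by linarith

theorem pow_three_half (K : ℕ) : (K : ℝ) ≤ (3/2) ^ K := by
  have key : ∀ n : ℕ, ((n + 2 : ℕ) : ℝ) ≤ (3/2) ^ (n + 2) := by
    intro n
    induction n with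
    | zero => norm_num
    | succ n ih =>
      have e : (3/2 : ℝ) ^ (n + 1 + 2) = (3/2) ^ (n + 2) * (3/2) := by ring
      rw [e]
      push_cast at ih ⊢
      have : (0:ℝ) ≤ n := Nat.cast_nonneg _
      linarith
  rcases Nat.lt_or_ge K 2 with h | h
  · interval_cases K <;> norm_num
  · obtain ⟨n, rfl⟩ := Nat.exists_eq_add_of_le h
    have := key n
    rw [add_comm 2 n]
    exact this

theorem KB_eps (L : ℝ) (hL : 1 ≤ L) : (2/3 : ℝ) ^ (KB L + 8) ≤ 400 * epsB L := by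
  have hK := KB_ge L hL
  have hK0 : (0:ℝ) < KB L := by linarith
  unfold epsB
  have h1 := pow_three_half (KB L)
  have h2 : (2/3 : ℝ) ^ (KB L + 8) = 1 / ((3/2) ^ (KB L) * (3/2) ^ 8) := by
    rw [← pow_add, ← one_div_pow]
    norm_num
  have h3 : 400 * (1 / (10 ^ 4 * (KB L : ℝ))) = 1 / (25 * (KB L : ℝ)) := by
    field_simp; norm_num
  rw [h2, h3]
  apply one_div_le_one_div_of_le (by positivity)
  have h4 : (25:ℝ) ≤ (3/2) ^ 8 := by norm_num
  calc 25 * (KB L : ℝ) = (KB L : ℝ) * 25 := by ring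
    _ ≤ (3/2) ^ (KB L) * (3/2) ^ 8 := mul_le_mul h1 h4 (by norm_num) (by positivity)

theorem LamB_pos (L : ℝ) (hL : 1 ≤ L) : 0 < LamB L := by unfold LamB; positivity

theorem LamB_ge (L : ℝ) (hL : 1 ≤ L) : 1 ≤ LamB L := by
  unfold LamB
  have : (1:ℝ) ≤ (L + 3) ^ 2 := one_le_pow₀ (by linarith)
  linarith

theorem epsB_pos (L : ℝ) (hL : 1 ≤ L) : 0 < epsB L := by
  have hK := KB_ge L hL
  unfold epsB
  have : (0:ℝ) < KB L := by linarith
  positivity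

theorem epsB_le (L : ℝ) (hL : 1 ≤ L) : epsB L ≤ 1/8 := by
  have hK := KB_ge L hL
  unfold epsB
  apply one_div_le_one_div_of_le (by norm_num)
  linarith

theorem epsB_K (L : ℝ) (hL : 1 ≤ L) (k : ℕ) (hk : k ≤ KB L) : 8 * epsB L * k ≤ 8/10000 := by
  have hK := KB_ge L hL
  have hK0 : (0:ℝ) < KB L := by linarith
  have hk' : (k:ℝ) ≤ KB L := by exact_mod_cast hk
  have h1 : 8 * epsB L * k ≤ 8 * epsB L * KB L :=
    mul_le_mul_of_nonneg_left hk' (by have := epsB_pos L hL; positivity)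
  refine h1.trans (le_of_eq ?_)
  unfold epsB
  field_simp
  norm_num

theorem num_par (L g : ℝ) (hL : 1 ≤ L) (hg0 : 0 ≤ g) (hg : g ≤ L + 1) :
    2 ^ 24 * (g + 3) * ((KB L : ℝ) + 1) * (1 / LamB L) ≤ (epsB L) ^ 3 := by
  have hK := KB_ge L hL
  have hK0 : (0:ℝ) < KB L := by linarith
  have hLam := LamB_pos L hL
  have h4 := KB_four L hL
  have h1 : (epsB L) ^ 3 = 1 / (10 ^ 12 * (KB L : ℝ) ^ 3) := by
    unfold epsB; field_simp
  rw [h1, mul_one_div, div_le_div_iff₀ hLam (by positivity), one_mul]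
  have h2 : (KB L : ℝ) + 1 ≤ 2 * KB L := by linarith
  have h3 : 2 ^ 24 * (g + 3) * ((KB L : ℝ) + 1) * (10 ^ 12 * (KB L : ℝ) ^ 3)
      ≤ 2 ^ 24 * (L + 4) * (2 * KB L) * (10 ^ 12 * (KB L : ℝ) ^ 3) := by
    apply mul_le_mul_of_nonneg_right _ (by positivity)
    apply mul_le_mul _ h2 (by positivity) (by positivity)
    apply mul_le_mul_of_nonneg_left _ (by positivity)
    linarith
  refine h3.trans ?_
  have h5 : 2 ^ 24 * (L + 4) * (2 * KB L) * (10 ^ 12 * (KB L : ℝ) ^ 3)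
      = 2 ^ 25 * 10 ^ 12 * (L + 4) * (KB L : ℝ) ^ 4 := by ring
  rw [h5]
  have h6 : 2 ^ 25 * 10 ^ 12 * (L + 4) * (KB L : ℝ) ^ 4
      ≤ 2 ^ 25 * 10 ^ 12 * (L + 4) * (4 * 10 ^ 6 * L) :=
    mul_le_mul_of_nonneg_left h4 (by positivity)
  refine h6.trans ?_
  unfold LamB
  nlinarith

theorem costB_eq (L g : ℝ) (hL : 1 ≤ L) :
    2 ^ 28 * (g + 3) * ((KB L : ℝ) + 1) ^ 2 / (1 / LamB L * epsB L ^ 3) = costB L g := by
  have hK := KB_ge L hL
  have hK0 : (0:ℝ) < KB L := by linarith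
  have hLam := LamB_pos L hL
  have h1 : (epsB L) ^ 3 = 1 / (10 ^ 12 * (KB L : ℝ) ^ 3) := by
    unfold epsB; field_simp
  rw [h1]
  unfold costB
  field_simp

theorem costB_ge (L g : ℝ) (hL : 1 ≤ L) (hg0 : 0 ≤ g) : 10 ^ 6 ≤ costB L g := by
  have hK := KB_ge L hL
  have hLam := LamB_ge L hL
  unfold costB
  have h1 : (1:ℝ) ≤ ((KB L : ℝ) + 1) ^ 2 := one_le_pow₀ (by linarith)
  have h2 : (1:ℝ) ≤ (KB L : ℝ) ^ 3 := one_le_pow₀ (by linarith)
  have h3 : (1:ℝ) ≤ g + 3 := by linarith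
  calc (10:ℝ) ^ 6 ≤ 2 ^ 28 * 10 ^ 12 * 1 * 1 * 1 * 1 := by norm_num
    _ ≤ _ := by gcongr

theorem costB_mono (L g g' : ℝ) (hL : 1 ≤ L) (hg : g ≤ g') : costB L g ≤ costB L g' := by
  have hLam := LamB_pos L hL
  unfold costB
  gcongr

theorem costB_log (L g : ℝ) (hL : 1 ≤ L) (hg0 : 0 ≤ g) (R : ℝ) (hR : 17 * costB L g ≤ R) :
    16 * Real.log (4 / Real.exp (-(2 ^ 28 * (g + 3) * ((KB L : ℝ) + 1) ^ 2 /
      (1 / LamB L * epsB L ^ 3)))) < R := by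
  rw [costB_eq L g hL]
  have h1 : 4 / Real.exp (-costB L g) = 4 * Real.exp (costB L g) := by
    rw [Real.exp_neg]; field_simp
  rw [h1, Real.log_mul (by norm_num) (Real.exp_pos _).ne', Real.log_exp]
  have h2 : Real.log 4 ≤ 2 := by
    have : Real.log 4 = 2 * Real.log 2 := by
      rw [show (4:ℝ) = 2 ^ 2 by norm_num, Real.log_pow]; push_cast; ring
    have := Real.log_two_lt_d9
    linarith
  have h3 := costB_ge L g hL hg0
  linarith

/-- cost per unit of gain -/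
noncomputable def ratB (L : ℝ) : ℝ := 2000 * (2 ^ 28 * 10 ^ 12 * ((KB L : ℝ) + 1) ^ 2 * (KB L : ℝ) ^ 3 * LamB L)

theorem ratB_nonneg (L : ℝ) (hL : 1 ≤ L) : 0 ≤ ratB L := by
  have := LamB_pos L hL
  unfold ratB; positivity

theorem costB_ratio (L g u : ℝ) (hL : 1 ≤ L) (hg0 : 0 ≤ g) (hgu : g / 2 ≤ u) (hu : 1/30 ≤ u) :
    17 * costB L g + 1 ≤ ratB L * u := by
  have hLam := LamB_pos L hL
  have h3 := costB_ge L g hL hg0
  have h4 : g + 3 ≤ 92 * u := by linarith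
  have h5 : 18 * costB L g ≤ ratB L * u := by
    unfold costB ratB
    have e1 : 0 ≤ 2 ^ 28 * 10 ^ 12 * ((KB L : ℝ) + 1) ^ 2 * (KB L : ℝ) ^ 3 * LamB L := by positivity
    have e2 := mul_le_mul_of_nonneg_left h4 e1
    have e3 : 0 ≤ 2 ^ 28 * 10 ^ 12 * ((KB L : ℝ) + 1) ^ 2 * (KB L : ℝ) ^ 3 * LamB L * u :=
      mul_nonneg e1 (by linarith)
    nlinarith
  linarith

end Vale.Agent.P057.H57
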