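import Vale.Agent.P057.R2.h57.StageB
import Vale.Agent.P057.R2.h57.ParB
import Vale.Agent.P057.R2.h57.IncA

set_option linter.all false

open Finset

namespace Vale.Agent.P057.H57

theorem num_base (L N P : ℝ) (hL : 1 ≤ L) (hP0 : 0 ≤ P) (hP : P ≤ 24 * 10 ^ 5 * L)
    (Vc K Y0 : ℝ) (hK0 : 0 ≤ K) (hVc0 : 0 ≤ Vc) (hVc : Vc ≤ 2 * K) (hY00 : 0 < Y0)
    (hY0 : 1/2 * Real.exp (-(P * (L + 1))) * K ≤ Y0) :
    Vc ^ (1 / LamB L) ≤ (1 + 1/500) * Y0 ^ (1 / LamB L) := by
  have hLam := LamB_pos L hL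
  have hk : 0 < 1 / LamB L := by positivity
  have h1 : K ≤ 2 * Real.exp (P * (L + 1)) * Y0 := by
    have h2 := mul_le_mul_of_nonneg_left hY0 (show 0 ≤ 2 * Real.exp (P * (L + 1)) by positivity)
    have h3 : 2 * Real.exp (P * (L + 1)) * (1/2 * Real.exp (-(P * (L + 1))) * K) = K := by
      have : Real.exp (P * (L + 1)) * Real.exp (-(P * (L + 1))) = 1 := by
        rw [← Real.exp_add]; simp
      calc 2 * Real.exp (P * (L + 1)) * (1/2 * Real.exp (-(P * (L + 1))) * K)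
          = (Real.exp (P * (L + 1)) * Real.exp (-(P * (L + 1)))) * K := by ring
        _ = K := by rw [this, one_mul]
    linarith only [h2, h3]
  have h4 : Vc ≤ Real.exp (3 + P * (L + 1)) * Y0 := by
    have h6 : (4:ℝ) ≤ Real.exp 3 := by
      have := Real.add_one_le_exp (3:ℝ)
      linarith
    rw [Real.exp_add]
    have h7 : 4 * (Real.exp (P * (L + 1)) * Y0) ≤ Real.exp 3 * (Real.exp (P * (L + 1)) * Y0) :=
      mul_le_mul_of_nonneg_right h6 (by positivity)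
    linarith
  have h5 : Vc ^ (1 / LamB L) ≤ (Real.exp (3 + P * (L + 1)) * Y0) ^ (1 / LamB L) :=
    Real.rpow_le_rpow hVc0 h4 hk.le
  rw [Real.mul_rpow (Real.exp_pos _).le hY00.le, ← Real.exp_mul] at h5
  refine h5.trans ?_
  apply mul_le_mul_of_nonneg_right _ (Real.rpow_nonneg hY00.le _)
  have h6 : (3 + P * (L + 1)) * (1 / LamB L) ≤ 1/1000 := by
    rw [mul_one_div, div_le_div_iff₀ hLam (by norm_num)]
    unfold LamB
    have : P * (L + 1) ≤ 24 * 10 ^ 5 * L * (L + 1) := mul_le_mul_of_nonneg_right hP (by linarith)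
    nlinarith
  have h7 := exp_le_two (1/1000) (by norm_num) (by norm_num)
  have h8 := Real.exp_le_exp.mpr h6
  linarith

variable {G : Type*} [AddCommGroup G] [Fintype G] [DecidableEq G]

theorem sm_zero (A : Finset G) : sm A {0} = ind A := by
  funext x
  unfold sm
  simp

theorem sm_le_one (A B : Finset G) (hB : B.Nonempty) (x : G) : sm A B x ≤ 1 := by
  have hBc : (0:ℝ) < B.card := by exact_mod_cast hB.card_pos
  unfold sm
  rw [div_le_one hBc]
  calc ∑ b ∈ B, ind A (x + b) ≤ ∑ b ∈ B, (1:ℝ) := by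
        refine Finset.sum_le_sum fun b _ => ?_
        unfold ind; split_ifs <;> norm_num
    _ = _ := by simp

/-- the state of the bootstrapping -/
def StateB (Γ' : Finset (AddChar G ℂ)) (A1 : Finset G) (κ ε N L P00 s ρ3 : ℝ) (k : ℕ) : Prop :=
  ∃ (B : Finset G) (M : ℝ) (Y0 : Finset G), B.Nonempty ∧ 0 < M ∧ (∀ x, sm A1 B x ≤ M) ∧
    M * (A1.card : ℝ) ≤ Real.exp ((L + 1) / 2 ^ k) * N ∧ Y0.Nonempty ∧
    Y0 ⊆ bohr Γ' (ρ3 + k * s) ∧ (1 - 8 * ε * k) * P00 ≤ pot (sm A1 B) κ Y0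

/-- the increment theorem of Phase B -/
theorem inc_B (Γ' : Finset (AddChar G ℂ)) (D Rm : ℕ) (A1 : Finset G) (L N ρ3 : ℝ)
    (hL : 1 ≤ L) (hRm : 17 * costB L (L + 1) + 1 ≤ (Rm : ℝ)) (hd : Γ'.card + Rm ≤ D)
    (hρ3 : 0 < ρ3) (hρ32 : ρ3 ≤ 2) (hreg3 : Regular Γ' D ρ3)
    (hA1 : A1.Nonempty) (hN : 0 < N) (hNL : Real.exp (-(L+1)) * (A1.card : ℝ) ≤ N)
    (P : ℕ) (hP : 8000 ≤ P) (hP2 : (P : ℝ) ≤ 24 * 10^5 * L)
    (hmom : (21/20 * N) ^ P * ((bohr Γ' ρ3).card : ℝ) ^ 2 ≤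
      ∑ k ∈ bohr Γ' ρ3, ∑ k' ∈ bohr Γ' ρ3, (corr (ind A1) (k - k')) ^ P) :
    ∃ (u : ℝ) (R : ℕ) (Γ2 : Finset (AddChar G ℂ)) (ρ' : ℝ) (x : G),
      104/100 ≤ Real.exp u ∧ u ≤ L + 1 ∧ (R : ℝ) ≤ ratB L * u ∧ R ≤ Rm ∧
      Γ2.card ≤ Γ'.card + R ∧ 0 < ρ' ∧ ρ' ≤ 2 ∧
      ρ3 * (kap D)^3 / (8 * (KB L) * (mB L) * Rm * 2 ^ (KB L + 8)) ≤ ρ' ∧ Regular Γ2 D ρ' ∧
      (N * Real.exp u) * ((bohr Γ2 ρ').card : ℝ)
        ≤ (A1.card : ℝ) * (((bohr Γ2 ρ').filter (fun b => x + b ∈ A1)).card : ℝ) := by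
  have hk0 := os_kap_pos D
  have hk1 := os_kap_le D
  have hKne : (bohr Γ' ρ3).Nonempty := ⟨0, zero_mem_bohr Γ' hρ3.le⟩
  have hAp : (0:ℝ) < A1.card := by exact_mod_cast hA1.card_pos
  have hKB := KB_ge L hL
  have hKB0 : (0:ℝ) < KB L := by linarith only [hKB]
  have hLam := LamB_pos L hL
  have hLam1 := LamB_ge L hL
  have heps := epsB_pos L hL
  have heps1 := epsB_le L hL
  -- sifting
  obtain ⟨Y0, hY0K, hY0, hc0, hb0⟩ := sift A1 (bohr Γ' ρ3) hKne P (21/20 * N) (1/1000) (1/1000)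
    (by positivity) (by norm_num) (by norm_num) (by norm_num) (tight_pow_bound P hP) hmom
  have hm0 : (1 - 1/1000) * ((1 - 1/1000) * (21/20 * N)) ≤ tightAvg A1 Y0 :=
    tightAvg_ge A1 Y0 hY0 _ _ (by positivity) hb0
  have hc0' : 1/2 * Real.exp (-(P * (L + 1))) * ((bohr Γ' ρ3).card : ℝ) ≤ Y0.card := by
    refine le_trans ?_ hc0
    apply mul_le_mul_of_nonneg_right _ (Nat.cast_nonneg _)
    apply mul_le_mul_of_nonneg_left _ (by norm_num)
    have h1 : Real.exp (-(L + 1)) ≤ 21/20 * N / A1.card := by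
      rw [le_div_iff₀ hAp]
      linarith only [hNL, hN]
    have h2 : Real.exp (-(P * (L + 1))) = Real.exp (-(L + 1)) ^ P := by
      rw [← Real.exp_nat_mul]; congr 1; ring
    rw [h2]
    exact pow_le_pow_left₀ (Real.exp_pos _).le h1 _
  have hY0c : (0:ℝ) < Y0.card := by exact_mod_cast hY0.card_pos
  have hAN : (A1.card : ℝ) ≤ Real.exp (L + 1) * N := by
    have h2 := mul_le_mul_of_nonneg_left hNL (Real.exp_pos (L + 1)).le
    rwa [← mul_assoc, ← Real.exp_add, add_neg_cancel, Real.exp_zero, one_mul] at h2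
  -- parameters
  obtain ⟨κ, hκ⟩ : ∃ κ : ℝ, κ = 1 / LamB L := ⟨_, rfl⟩
  have hκ0 : 0 < κ := by rw [hκ]; positivity
  have hκ1 : κ ≤ 1 := by rw [hκ, div_le_one hLam]; exact hLam1
  have hm1 : LamB L * (L + 1) ≤ mB L := Nat.le_ceil _
  have hm0' : 0 < mB L := by
    have : (0:ℝ) < mB L := lt_of_lt_of_le (by positivity) hm1
    exact_mod_cast this
  have hmp : (0:ℝ) < mB L := by exact_mod_cast hm0'
  have hRm1 : (1:ℝ) ≤ Rm := by
    have := costB_ge L (L + 1) hL (by linarith only [hL])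
    linarith only [hRm, this]
  have hRmp : (0:ℝ) < Rm := by linarith only [hRm1]
  obtain ⟨ρ4, h4a, h4b, hreg4⟩ := exists_regular Γ' D (by omega)
    (ρ := kap D * ρ3 / (KB L * mB L)) (by positivity)
  have hρ4 : 0 < ρ4 := lt_of_lt_of_le (by positivity) h4a
  have hKm : (KB L : ℝ) * (mB L * ρ4) ≤ kap D * ρ3 := by
    rw [le_div_iff₀ (by positivity)] at h4b
    linarith only [h4b]
  have hρ4le : ρ4 ≤ 2 := by
    have e1 : kap D * ρ3 ≤ 1 * 2 := mul_le_mul (by linarith only [hk1]) hρ32 hρ3.le (by norm_num)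
    have e2 : (1:ℝ) ≤ KB L := by linarith only [hKB]
    have e3 : (1:ℝ) ≤ mB L := by exact_mod_cast hm0'
    have e4 : ρ4 ≤ mB L * ρ4 := le_mul_of_one_le_left hρ4.le e3
    have e5 : mB L * ρ4 ≤ KB L * (mB L * ρ4) := le_mul_of_one_le_left (by positivity) e2
    linarith only [e1, e4, e5, hKm]
  obtain ⟨s, hs⟩ : ∃ s : ℝ, s = mB L * ρ4 := ⟨_, rfl⟩
  have hs0 : 0 ≤ s := by rw [hs]; positivity
  rw [← hs] at hKm
  have hVall : ∀ k : ℕ, k ≤ KB L → ((bohr Γ' (ρ3 + k * s)).card : ℝ) ≤ 2 * ((bohr Γ' ρ3).card : ℝ) := by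
    intro k hk
    have hk' : (k:ℝ) ≤ KB L := by exact_mod_cast hk
    have h1 : k * s ≤ kap D * ρ3 := (mul_le_mul_of_nonneg_right hk' hs0).trans hKm
    exact os_card_narrow hρ3 hreg3 (by linarith only [h1])
  have hV0 : (0:ℝ) < 2 * ((bohr Γ' ρ3).card : ℝ) := by
    have : (0:ℝ) < ((bohr Γ' ρ3).card : ℝ) := by exact_mod_cast hKne.card_pos
    linarith only [this]
  obtain ⟨P00, hP00⟩ : ∃ P00 : ℝ, P00 = 1047/1000 * N * (Y0.card : ℝ) ^ κ := ⟨_, rfl⟩
  have hYk : 0 < (Y0.card : ℝ) ^ κ := Real.rpow_pos_of_pos hY0c _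
  have hP000 : 0 < P00 := by rw [hP00]; positivity
  have hVk : (2 * ((bohr Γ' ρ3).card : ℝ)) ^ κ ≤ (1 + 1/500) * (Y0.card : ℝ) ^ κ := by
    rw [hκ]
    exact num_base L N P hL (Nat.cast_nonneg _) hP2 _ _ _ (Nat.cast_nonneg _) hV0.le le_rfl hY0c hc0'
  have hVk0 : 0 < (2 * ((bohr Γ' ρ3).card : ℝ)) ^ κ := Real.rpow_pos_of_pos hV0 _
  -- N V^κ ≤ 0.96.. P00
  have hNV : 104/100 * (N * (2 * ((bohr Γ' ρ3).card : ℝ)) ^ κ) ≤ (1 - 8/10000) * P00 := by
    have := mul_le_mul_of_nonneg_left hVk hN.le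
    rw [hP00]
    have h2 : 0 < N * (Y0.card : ℝ) ^ κ := by positivity
    nlinarith only [this, h2]
  by_contra hcon
  push Not at hcon
  -- the induction
  have key : ∀ k : ℕ, k ≤ KB L → StateB Γ' A1 κ (epsB L) N L P00 s ρ3 k := by
    intro k
    induction k with
    | zero =>
      intro _
      refine ⟨{0}, 1, Y0, ⟨0, Finset.mem_singleton_self 0⟩, one_pos, ?_, ?_, hY0, ?_, ?_⟩
      · intro x
        exact sm_le_one A1 {0} ⟨0, Finset.mem_singleton_self 0⟩ x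
      · rw [pow_zero, div_one, one_mul]; exact hAN
      · simpa using hY0K
      · rw [sm_zero]
        unfold pot
        rw [← tightAvg_eq_en A1 Y0 hY0, mul_div_cancel_right₀ _ (by positivity), hP00]
        simp only [Nat.cast_zero, mul_zero, sub_zero, one_mul]
        apply mul_le_mul_of_nonneg_right _ hYk.le
        linarith only [hm0, hN]
    | succ k ih =>
      intro hk
      obtain ⟨B, M, Yk, hB, hM0, hsup, hMg, hYk', hYkr, hpot⟩ := ih (by omega)
      have hkε := epsB_K L hL k (by omega)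
      have hkε' := epsB_K L hL (k + 1) hk
      have h2k : (1:ℝ) ≤ 2 ^ k := one_le_pow₀ (by norm_num)
      have hg0 : 0 ≤ (L + 1) / 2 ^ k := by positivity
      have hgL : (L + 1) / 2 ^ k ≤ L + 1 := div_le_self (by linarith only [hL]) h2k
      obtain ⟨g, hg⟩ : ∃ g : ℝ, g = (L + 1) / 2 ^ k := ⟨_, rfl⟩
      rw [← hg] at hg0 hgL hMg
      set R : ℕ := ⌈17 * costB L g⌉₊ with hR
      have hcg := costB_ge L g hL hg0
      have hR1 : 17 * costB L g ≤ R := Nat.le_ceil _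
      have hR2 : (R:ℝ) ≤ 17 * costB L g + 1 := (Nat.ceil_lt_add_one (by linarith only [hcg])).le
      have hR3 : R ≤ Rm := by
        have h1 := costB_mono L g (L + 1) hL hgL
        have h2 : (R:ℝ) ≤ Rm := by linarith only [hR2, h1, hRm]
        exact_mod_cast h2
      have hR4 : 1 ≤ R := by
        have : (1:ℝ) ≤ R := by linarith only [hR1, hcg]
        exact_mod_cast this
      have hPk : 0 < (1 - 8 * epsB L * k) * P00 := mul_pos (by linarith only [hkε]) hP000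
      have hNVk : 104/100 * (N * (2 * ((bohr Γ' ρ3).card : ℝ)) ^ κ) ≤ (1 - 8 * epsB L * k) * P00 := by
        refine hNV.trans ?_
        apply mul_le_mul_of_nonneg_right _ hP000.le
        linarith only [hkε]
      obtain ⟨Γ2, ρ', Y, hc, hp, hle, hrad, hreg, hYne, hYr, hpot'⟩ := stage_B Γ' D R Rm (KB L + 8)
        (mB L) (KB L) A1 ρ4 (ρ3 + k * s) κ (epsB L) g N (2 * ((bohr Γ' ρ3).card : ℝ)) M
        ((1 - 8 * epsB L * k) * P00) hρ4 hρ4le hreg4 hA1 hN hκ0 hκ1 heps heps1 hg0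
        (by
          have := KB_pow L hL
          linarith only [this, hgL, hL])
        (by rw [hκ]; exact num_par L g hL hg0 hgL) hm0'
        (by
          have e1 : κ * (LamB L * (L + 1)) = L + 1 := by
            rw [hκ]; field_simp
          have e2 := mul_le_mul_of_nonneg_left hm1 hκ0.le
          linarith only [e1, e2, hgL]) hR4 hR3 (by omega)
        (by rw [hκ]; exact costB_log L g hL hg0 R hR1) (KB_eps L hL) B hB hM0 hsup hMg Yk hYk' hYkr
        hPk hpot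
        (by
          have e : ρ3 + (k:ℝ) * s + (mB L : ℝ) * ρ4 = ρ3 + ((k + 1 : ℕ) : ℝ) * s := by
            rw [hs]; push_cast; ring
          rw [e]; exact hVall (k + 1) hk)
        (by
          have : 0 ≤ N * (2 * ((bohr Γ' ρ3).card : ℝ)) ^ κ := by positivity
          linarith only [this, hNVk])
      have hB'ne : (bohr Γ2 ρ').Nonempty := ⟨0, zero_mem_bohr _ hp.le⟩
      have hB'c : (0:ℝ) < ((bohr Γ2 ρ').card : ℝ) := by exact_mod_cast hB'ne.card_pos
      -- the maximum of the smoothed function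
      obtain ⟨x, -, hx⟩ := Finset.exists_max_image (univ : Finset G) (sm A1 (bohr Γ2 ρ'))
        ⟨0, Finset.mem_univ 0⟩
      have hx' : ∀ z, sm A1 (bohr Γ2 ρ') z ≤ sm A1 (bohr Γ2 ρ') x := fun z => hx z (Finset.mem_univ z)
      obtain ⟨M', hM'⟩ : ∃ M' : ℝ, M' = sm A1 (bohr Γ2 ρ') x := ⟨_, rfl⟩
      rw [← hM'] at hx'
      have hM'0 : 0 < M' := by
        by_contra hno
        push Not at hno
        have h1 : ∑ z, sm A1 (bohr Γ2 ρ') z ≤ 0 :=
          Finset.sum_nonpos fun z _ => (hx' z).trans hno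
        rw [sum_sm A1 _ hB'ne] at h1
        linarith only [h1, hAp]
      have hYr' : Y ⊆ bohr Γ' (ρ3 + ((k + 1 : ℕ) : ℝ) * s) := by
        have e : ρ3 + (k:ℝ) * s + (mB L : ℝ) * ρ4 = ρ3 + ((k + 1 : ℕ) : ℝ) * s := by
          rw [hs]; push_cast; ring
        rwa [e] at hYr
      have hpot2 : (1 - 8 * epsB L * ((k + 1 : ℕ) : ℝ)) * P00 ≤ pot (sm A1 (bohr Γ2 ρ')) κ Y := by
        refine le_trans ?_ hpot'
        rw [← mul_assoc]
        apply mul_le_mul_of_nonneg_right _ hP000.le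
        have : 0 ≤ 64 * (epsB L) ^ 2 * k := by positivity
        push_cast
        nlinarith only [this]
      have hMlow : 104/100 * N ≤ M' * (A1.card : ℝ) := by
        have h1 := pot_sm_le A1 (bohr Γ2 ρ') (bohr Γ' (ρ3 + ((k + 1 : ℕ) : ℝ) * s)) Y hB'ne M' κ hM'0 hx'
          hκ0.le hYr' hYne
        have h2 : ((bohr Γ' (ρ3 + ((k + 1 : ℕ) : ℝ) * s)).card : ℝ) ^ κ
            ≤ (2 * ((bohr Γ' ρ3).card : ℝ)) ^ κ :=
          Real.rpow_le_rpow (Nat.cast_nonneg _) (hVall (k + 1) hk) hκ0.le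
        have h3 : (1 - 8/10000) * P00 ≤ (1 - 8 * epsB L * ((k + 1 : ℕ) : ℝ)) * P00 := by
          apply mul_le_mul_of_nonneg_right _ hP000.le
          linarith only [hkε']
        have h4 : M' * (A1.card : ℝ) * ((bohr Γ' (ρ3 + ((k + 1 : ℕ) : ℝ) * s)).card : ℝ) ^ κ
            ≤ M' * (A1.card : ℝ) * (2 * ((bohr Γ' ρ3).card : ℝ)) ^ κ :=
          mul_le_mul_of_nonneg_left h2 (by positivity)
        have h5 : (104/100 * N) * (2 * ((bohr Γ' ρ3).card : ℝ)) ^ κ
            ≤ (M' * (A1.card : ℝ)) * (2 * ((bohr Γ' ρ3).card : ℝ)) ^ κ := by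
          linarith only [h1, h3, h4, hNV, hpot2]
        exact le_of_mul_le_mul_right h5 hVk0
      by_cases hstop : Real.exp (g / 2) * N ≤ M' * (A1.card : ℝ)
      · -- success
        exfalso
        have hMA : 0 < M' * (A1.card : ℝ) := mul_pos hM'0 hAp
        obtain ⟨u, hu⟩ : ∃ u : ℝ, u = Real.log (M' * (A1.card : ℝ) / N) := ⟨_, rfl⟩
        have heu : Real.exp u = M' * (A1.card : ℝ) / N := by
          rw [hu, Real.exp_log (div_pos hMA hN)]
        have heu2 : N * Real.exp u = M' * (A1.card : ℝ) := by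
          rw [heu]; field_simp
        have hu1 : 104/100 ≤ Real.exp u := by
          rw [heu, le_div_iff₀ hN]; exact hMlow
        have hu2 : g / 2 ≤ u := by
          rw [← Real.exp_le_exp, heu, le_div_iff₀ hN]; exact hstop
        have hu3 : u ≤ L + 1 := by
          rw [← Real.exp_le_exp, heu, div_le_iff₀ hN]
          have h1 : M' ≤ 1 := by rw [hM']; exact sm_le_one _ _ hB'ne _
          have h2 : M' * (A1.card : ℝ) ≤ 1 * (A1.card : ℝ) := mul_le_mul_of_nonneg_right h1 hAp.le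
          linarith only [h2, hAN]
        have hu4 : 1/30 ≤ u := by
          have h1 : Real.log (104/100) ≤ u := by
            rw [Real.log_le_iff_le_exp (by norm_num)]; exact hu1
          have h2 := Real.one_sub_inv_le_log_of_pos (show (0:ℝ) < 104/100 by norm_num)
          norm_num at h2 ⊢
          linarith only [h1, h2]
        have hrat := costB_ratio L g u hL hg0 hu2 hu4
        have hlast := hcon u R Γ2 ρ' x hu1 hu3 (by linarith only [hrat, hR2]) hR3 hc hp hle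
          (by
            refine le_trans ?_ hrad
            have e1 : kap D * ρ3 / (KB L * mB L) / 2 * (kap D) ^ 2 / (4 * Rm * 2 ^ (KB L + 8))
                ≤ ρ4 * (kap D) ^ 2 / (4 * Rm * 2 ^ (KB L + 8)) := by
              gcongr
            refine le_trans (le_of_eq ?_) e1
            field_simp
            ring) hreg
        apply absurd hlast
        rw [not_lt, heu2, hM', sm_count]
        refine le_of_eq ?_
        field_simp
      · push Not at hstop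
        refine ⟨bohr Γ2 ρ', M', Y, hB'ne, hM'0, hx', ?_, hYne, hYr', hpot2⟩
        refine hstop.le.trans (le_of_eq ?_)
        rw [hg, pow_succ, div_div]
  -- contradiction at the end
  obtain ⟨B, M, Yk, hB, hM0, hsup, hMg, hYk', hYkr, hpot⟩ := key (KB L) le_rfl
  have h1 := pot_sm_le A1 B (bohr Γ' (ρ3 + (KB L : ℝ) * s)) Yk hB M κ hM0 hsup hκ0.le hYkr hYk'
  have h2 : ((bohr Γ' (ρ3 + (KB L : ℝ) * s)).card : ℝ) ^ κ ≤ (2 * ((bohr Γ' ρ3).card : ℝ)) ^ κ :=
    Real.rpow_le_rpow (Nat.cast_nonneg _) (hVall (KB L) le_rfl) hκ0.le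
  have hkε := epsB_K L hL (KB L) le_rfl
  have h3 : (1 - 8/10000) * P00 ≤ (1 - 8 * epsB L * (KB L : ℝ)) * P00 := by
    apply mul_le_mul_of_nonneg_right _ hP000.le
    linarith only [hkε]
  have h4 : M * (A1.card : ℝ) * ((bohr Γ' (ρ3 + (KB L : ℝ) * s)).card : ℝ) ^ κ
      ≤ M * (A1.card : ℝ) * (2 * ((bohr Γ' ρ3).card : ℝ)) ^ κ :=
    mul_le_mul_of_nonneg_left h2 (by positivity)
  have h5 : (104/100 * N) * (2 * ((bohr Γ' ρ3).card : ℝ)) ^ κ
      ≤ (M * (A1.card : ℝ)) * (2 * ((bohr Γ' ρ3).card : ℝ)) ^ κ := by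
    linarith only [h1, h3, h4, hNV, hpot]
  have h6 := le_of_mul_le_mul_right h5 hVk0
  have h7 : (L + 1) / 2 ^ (KB L) ≤ 1/100 := by
    rw [div_le_div_iff₀ (by positivity) (by norm_num)]
    have := KB_pow L hL
    linarith only [this]
  have h8 : Real.exp ((L + 1) / 2 ^ (KB L)) ≤ 1 + 2 * (1/100) :=
    (Real.exp_le_exp.mpr h7).trans (exp_le_two (1/100) (by norm_num) (by norm_num))
  have h9 := mul_le_mul_of_nonneg_right h8 hN.le
  linarith only [h6, hMg, h9, hN]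

end Vale.Agent.P057.H57
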