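import Vale.Agent.P057.R2.h57.StepA

set_option linter.all false

open Finset

namespace Vale.Agent.P057.H57

theorem log_le_sub_one' (x : ℝ) (hx : 0 < x) : Real.log x ≤ x - 1 := Real.log_le_sub_one_of_pos hx

theorem bigB_le (L : ℝ) (hL : 1 ≤ L) : bigB L ≤ 10 ^ 37 * L ^ 5 := by
  unfold bigB
  have h1 : (1 + Real.log (L + 2)) ≤ 3 * L := by
    have := log_le_sub_one' (L + 2) (by linarith)
    linarith
  have h0 : 0 ≤ Real.log (L + 2) := Real.log_nonneg (by linarith)
  have h2 : (1 + Real.log (L + 2)) ^ 2 ≤ (3 * L) ^ 2 := pow_le_pow_left₀ (by linarith) h1 2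
  have h3 : (L + 3) ^ 3 ≤ (4 * L) ^ 3 := pow_le_pow_left₀ (by linarith) (by linarith) 3
  calc 10 ^ 34 * (L + 3) ^ 3 * (1 + Real.log (L + 2)) ^ 2
      ≤ 10 ^ 34 * (4 * L) ^ 3 * (3 * L) ^ 2 := by gcongr
    _ = 10 ^ 34 * 576 * L ^ 5 := by ring
    _ ≤ _ := by
      have : 0 ≤ L ^ 5 := by positivity
      nlinarith only [this]

theorem bigB_le' (L : ℝ) (hL : 1 ≤ L) : bigB L ≤ 10 ^ 37 * L ^ 3 * (1 + Real.log L) ^ 2 := by
  unfold bigB
  have hl : 0 ≤ Real.log L := Real.log_nonneg hL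
  have h1 : (1 + Real.log (L + 2)) ≤ 3 * (1 + Real.log L) := by
    have h2 : Real.log (L + 2) ≤ Real.log (3 * L) := Real.log_le_log (by linarith) (by linarith)
    rw [Real.log_mul (by norm_num) (by linarith)] at h2
    have h3 : Real.log 3 ≤ 2 := by
      have := log_le_sub_one' 3 (by norm_num)
      linarith
    linarith
  have h0 : 0 ≤ Real.log (L + 2) := Real.log_nonneg (by linarith)
  have h2 : (1 + Real.log (L + 2)) ^ 2 ≤ (3 * (1 + Real.log L)) ^ 2 :=
    pow_le_pow_left₀ (by linarith) h1 2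
  have h3 : (L + 3) ^ 3 ≤ (4 * L) ^ 3 := pow_le_pow_left₀ (by linarith) (by linarith) 3
  calc 10 ^ 34 * (L + 3) ^ 3 * (1 + Real.log (L + 2)) ^ 2
      ≤ 10 ^ 34 * (4 * L) ^ 3 * (3 * (1 + Real.log L)) ^ 2 := by gcongr
    _ = 10 ^ 34 * 576 * (L ^ 3 * (1 + Real.log L) ^ 2) := by ring
    _ ≤ 10 ^ 37 * (L ^ 3 * (1 + Real.log L) ^ 2) := by
      have : 0 ≤ L ^ 3 * (1 + Real.log L) ^ 2 := by positivity
      nlinarith only [this]
    _ = _ := by ring

theorem costmax_le (L : ℝ) (hL : 1 ≤ L) : 10 ^ 32 * cost L (L + 1) + 2 ≤ 10 ^ 36 * L ^ 6 := by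
  unfold cost
  have e : 1 + (L + 1) = L + 2 := by ring
  rw [e]
  have h1 : (1 + Real.log (L + 2)) ≤ 3 * L := by
    have := log_le_sub_one' (L + 2) (by linarith)
    linarith
  have h0 : 0 ≤ Real.log (L + 2) := Real.log_nonneg (by linarith)
  have h2 : (1 + Real.log (L + 2)) ^ 2 ≤ (3 * L) ^ 2 := pow_le_pow_left₀ (by linarith) h1 2
  have h3 : (L + 3) ^ 3 ≤ (4 * L) ^ 3 := pow_le_pow_left₀ (by linarith) (by linarith) 3
  have h4 : L + 2 ≤ 3 * L := by linarith
  have h5 : (1:ℝ) ≤ L ^ 6 := one_le_pow₀ hL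
  calc 10 ^ 32 * ((L + 3) ^ 3 * (L + 2) * (1 + Real.log (L + 2)) ^ 2) + 2
      ≤ 10 ^ 32 * ((4 * L) ^ 3 * (3 * L) * (3 * L) ^ 2) + 2 := by gcongr
    _ = 10 ^ 32 * 1728 * L ^ 6 + 2 := by ring
    _ ≤ _ := by nlinarith only [h5]

theorem log10_le : Real.log 10 ≤ 3 := by
  rw [Real.log_le_iff_le_exp (by norm_num)]
  have h2 : (2.7 : ℝ) ≤ Real.exp 1 := by
    have := Real.exp_one_gt_d9
    linarith only [this]
  have h3 : Real.exp 3 = Real.exp 1 ^ 3 := by
    rw [← Real.exp_nat_mul]; norm_num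
  rw [h3]
  calc (10 : ℝ) ≤ 2.7 ^ 3 := by norm_num
    _ ≤ _ := pow_le_pow_left₀ (by norm_num) h2 3

theorem log81_le : Real.log 81 ≤ 5 := by
  rw [Real.log_le_iff_le_exp (by norm_num)]
  have h2 : (2.7 : ℝ) ≤ Real.exp 1 := by
    have := Real.exp_one_gt_d9
    linarith only [this]
  have h3 : Real.exp 5 = Real.exp 1 ^ 5 := by
    rw [← Real.exp_nat_mul]; norm_num
  rw [h3]
  calc (81 : ℝ) ≤ 2.7 ^ 5 := by norm_num
    _ ≤ _ := pow_le_pow_left₀ (by norm_num) h2 5

/-- numerical estimate of the final step -/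
theorem numIter (L : ℝ) (hL : 1 ≤ L) (K R D i k c : ℕ) (hi : i ≤ K)
    (hK : (K : ℝ) ≤ 202 * L) (hR : (R : ℝ) ≤ 10 ^ 36 * L ^ 6) (hR1 : 1 ≤ R)
    (hD : (D : ℝ) ≤ 10 ^ 38 * L ^ 6) (hc : (c : ℝ) ≤ bigB L * L)
    (hk : (k : ℝ) ≤ 2 * Real.log (4 / (kap D * (2 * ((kap D) ^ 6 / (1000 * R)) ^ i))) + 1) :
    Real.log (81 ^ (c * k) * (16 * Real.exp (2 * L))) ≤
      10 ^ 45 * L ^ 5 * (1 + Real.log L) ^ 3 := by
  have hlogL : 0 ≤ Real.log L := Real.log_nonneg hL
  have hRr : (1 : ℝ) ≤ R := by exact_mod_cast hR1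
  have hLpos : 0 < L := by linarith only [hL]
  set q : ℝ := (kap D) ^ 6 / (1000 * R) with hq
  have hkp : 0 < kap D := iterate_kap_pos _
  have hqpos : 0 < q := by positivity
  have hkap_le1 : kap D ≤ 1 := by
    unfold kap
    rw [div_le_one (by positivity)]
    have : (0 : ℝ) ≤ (D : ℝ) := by positivity
    linarith only [this]
  have hqk : q ≤ kap D := by
    rw [hq, div_le_iff₀ (by positivity)]
    have h1 : kap D ^ 6 ≤ kap D := by
      calc kap D ^ 6 = kap D * kap D ^ 5 := by ring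
        _ ≤ kap D * 1 := by
            apply mul_le_mul_of_nonneg_left _ hkp.le
            exact pow_le_one₀ hkp.le hkap_le1
        _ = _ := mul_one _
    nlinarith only [hkp, h1, hRr]
  have hq1 : q ≤ 1 := hqk.trans hkap_le1
  have harg : 4 / (kap D * (2 * q ^ i)) ≤ 2 * (1 / q) ^ (K + 1) := by
    rw [div_le_iff₀ (by positivity)]
    have h1 : q ^ (K + 1) ≤ kap D * q ^ i := by
      rw [pow_succ, mul_comm]
      apply mul_le_mul hqk _ (by positivity) hkp.le
      exact pow_le_pow_of_le_one hqpos.le hq1 hi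
    have h2 : 2 * (1 / q) ^ (K + 1) * (kap D * (2 * q ^ i)) =
        4 * ((1 / q) ^ (K + 1) * (kap D * q ^ i)) := by ring
    rw [h2]
    have h3 : 1 ≤ (1 / q) ^ (K + 1) * (kap D * q ^ i) := by
      have h4 : (1 / q) ^ (K + 1) * q ^ (K + 1) = 1 := by
        rw [← mul_pow, one_div, inv_mul_cancel₀ hqpos.ne', one_pow]
      calc 1 = (1 / q) ^ (K + 1) * q ^ (K + 1) := h4.symm
        _ ≤ _ := by
          apply mul_le_mul_of_nonneg_left h1 (by positivity)
    linarith only [h3]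
  have hlogarg : Real.log (4 / (kap D * (2 * q ^ i))) ≤
      Real.log 2 + (K + 1) * Real.log (1 / q) := by
    have h1 := Real.log_le_log (by positivity) harg
    rw [Real.log_mul (by norm_num) (by positivity), Real.log_pow] at h1
    push_cast at h1
    exact h1
  have hqinv : 1 / q ≤ (10 ^ 43 * L ^ 6) ^ 6 * (10 ^ 39 * L ^ 6) := by
    have h1 : 1 / q = (80000 * ((D : ℝ) + 1)) ^ 6 * (1000 * R) := by
      rw [hq]
      unfold kap
      have : (80000 * ((D : ℝ) + 1)) ≠ 0 := by positivity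
      field_simp
    rw [h1]
    have hL6 : (1 : ℝ) ≤ L ^ 6 := one_le_pow₀ hL
    have hD1 : 80000 * ((D : ℝ) + 1) ≤ 10 ^ 43 * L ^ 6 := by nlinarith only [hD, hL6]
    have h4 : (80000 * ((D : ℝ) + 1)) ^ 6 ≤ (10 ^ 43 * L ^ 6) ^ 6 :=
      pow_le_pow_left₀ (by positivity) hD1 6
    have h5 : 1000 * (R : ℝ) ≤ 10 ^ 39 * L ^ 6 := by nlinarith only [hR]
    exact mul_le_mul h4 h5 (by positivity) (by positivity)
  have hlogq : Real.log (1 / q) ≤ 920 * (1 + Real.log L) := by
    have h1 := Real.log_le_log (by positivity) hqinv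
    have g1 : Real.log (10 ^ 43 * L ^ 6) = 43 * Real.log 10 + 6 * Real.log L := by
      rw [Real.log_mul (by positivity) (by positivity), Real.log_pow, Real.log_pow]
      norm_num
    have g2 : Real.log (10 ^ 39 * L ^ 6) = 39 * Real.log 10 + 6 * Real.log L := by
      rw [Real.log_mul (by positivity) (by positivity), Real.log_pow, Real.log_pow]
      norm_num
    rw [Real.log_mul (by positivity) (by positivity), Real.log_pow, g1, g2] at h1
    have h10 := log10_le
    push_cast at h1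
    linarith only [hlogL, h1, h10]
  have hlogq0 : 0 ≤ Real.log (1 / q) := by
    apply Real.log_nonneg
    rw [le_div_iff₀ hqpos]; linarith only [hq1]
  have hlog2 : Real.log 2 ≤ 1 := by
    have := Real.log_two_lt_d9
    linarith only [this]
  have hk2 : (k : ℝ) ≤ 400000 * L * (1 + Real.log L) := by
    have h1 : ((K : ℝ) + 1) * Real.log (1 / q) ≤ (203 * L) * (920 * (1 + Real.log L)) := by
      apply mul_le_mul (by linarith only [hL, hK]) hlogq hlogq0 (by positivity)
    have h2 : 1 ≤ L * (1 + Real.log L) := by nlinarith only [hL, hlogL]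
    linarith
  have hlog81 := log81_le
  have hlog16 : Real.log 16 ≤ 3 := by
    rw [Real.log_le_iff_le_exp (by norm_num)]
    have h2 : (2.7 : ℝ) ≤ Real.exp 1 := by
      have := Real.exp_one_gt_d9
      linarith only [this]
    have h3 : Real.exp 3 = Real.exp 1 ^ 3 := by
      rw [← Real.exp_nat_mul]; norm_num
    rw [h3]
    calc (16 : ℝ) ≤ 2.7 ^ 3 := by norm_num
      _ ≤ _ := pow_le_pow_left₀ (by norm_num) h2 3
  rw [Real.log_mul (by positivity) (by positivity), Real.log_pow,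
    Real.log_mul (by norm_num) (by positivity), Real.log_exp]
  have h81nn : 0 ≤ Real.log 81 := Real.log_nonneg (by norm_num)
  have hc2 : (c : ℝ) ≤ 10 ^ 37 * L ^ 3 * (1 + Real.log L) ^ 2 * L :=
    hc.trans (mul_le_mul_of_nonneg_right (bigB_le' L hL) hLpos.le)
  have hA : ((c * k : ℕ) : ℝ) * Real.log 81 ≤
      (10 ^ 37 * L ^ 3 * (1 + Real.log L) ^ 2 * L) * (400000 * L * (1 + Real.log L)) * 5 := by
    push_cast
    apply mul_le_mul _ hlog81 h81nn (by positivity)
    apply mul_le_mul hc2 hk2 (by positivity) (by positivity)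
  have hB : Real.log 16 + 2 * L ≤ 5 * (L ^ 5 * (1 + Real.log L) ^ 3) := by
    have h1 : L ≤ L ^ 5 := by
      calc L = L ^ 1 := (pow_one L).symm
        _ ≤ L ^ 5 := pow_le_pow_right₀ hL (by norm_num)
    have h2 : L ^ 5 * 1 ≤ L ^ 5 * (1 + Real.log L) ^ 3 :=
      mul_le_mul_of_nonneg_left (one_le_pow₀ (by linarith only [hlogL])) (by positivity)
    linarith only [hL, hlog16, h1, h2]
  have hC : (10 ^ 37 * L ^ 3 * (1 + Real.log L) ^ 2 * L) * (400000 * L * (1 + Real.log L)) * 5 =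
      2 * 10 ^ 43 * (L ^ 5 * (1 + Real.log L) ^ 3) := by ring
  have hD : 0 ≤ L ^ 5 * (1 + Real.log L) ^ 3 := by positivity
  rw [hC] at hA
  have e : 10 ^ 45 * L ^ 5 * (1 + Real.log L) ^ 3 = 10 ^ 45 * (L ^ 5 * (1 + Real.log L) ^ 3) := by ring
  rw [e]
  linarith only [hA, hB, hD]

theorem group_bound_A : ∃ C : ℝ, 0 < C ∧ ∀ (G : Type) [AddCommGroup G] [Fintype G] [DecidableEq G],
    Odd (Fintype.card G) → ∀ A : Finset G, ThreeAPFree (A : Set G) → ∀ L : ℝ, 1 ≤ L →
    Real.exp (-L) * (Fintype.card G : ℝ) ≤ (A.card : ℝ) →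
    Real.log (Fintype.card G) ≤ C * L ^ 5 * (1 + Real.log L) ^ 3 := by
  refine ⟨10 ^ 45, by positivity, ?_⟩
  intro G _ _ _ hodd A hA L hL hdens
  by_contra hcon
  push Not at hcon
  have hLpos : 0 < L := by linarith
  have hB0 := bigB_nonneg L hL
  set R : ℕ := ⌈10 ^ 32 * cost L (L + 1) + 1⌉₊ with hRdef
  have hcost0 : 0 ≤ cost L (L + 1) := by
    have := cost_ge L (L + 1) hL (by linarith)
    have h2 : 0 ≤ (L + 3) ^ 3 := by positivity
    linarith
  have hR : 10 ^ 32 * cost L (L + 1) + 1 ≤ (R : ℝ) := Nat.le_ceil _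
  have hR2 : (R : ℝ) ≤ 10 ^ 36 * L ^ 6 := by
    have h1 := Nat.ceil_lt_add_one (a := 10 ^ 32 * cost L (L + 1) + 1) (by positivity)
    have h2 := costmax_le L hL
    linarith
  have hR1 : 1 ≤ R := by
    have : (1 : ℝ) ≤ R := by linarith only [hR, hcost0]
    exact_mod_cast this
  set M : ℕ := ⌈bigB L * L⌉₊ with hM
  have hM1 : bigB L * L ≤ M := Nat.le_ceil _
  have hM2 : (M : ℝ) ≤ bigB L * L + 1 := (Nat.ceil_lt_add_one (by positivity)).le
  set D : ℕ := M + R with hDdef
  have hD2 : (D : ℝ) ≤ 10 ^ 38 * L ^ 6 := by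
    rw [hDdef]; push_cast
    have h1 : bigB L * L ≤ 10 ^ 37 * L ^ 5 * L := mul_le_mul_of_nonneg_right (bigB_le L hL) hLpos.le
    have h2 : (1:ℝ) ≤ L ^ 6 := one_le_pow₀ hL
    nlinarith only [h1, h2, hM2, hR2]
  set K : ℕ := ⌊201 * L⌋₊ + 1 with hKdef
  have hK1 : 201 * L < (K : ℝ) := by
    rw [hKdef]; push_cast; exact Nat.lt_floor_add_one _
  have hK2 : (K : ℝ) ≤ 202 * L := by
    have : (⌊201 * L⌋₊ : ℝ) ≤ 201 * L := Nat.floor_le (by positivity)
    rw [hKdef]; push_cast; linarith only [hL, this]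
  set q : ℝ := (kap D) ^ 6 / (1000 * R) with hq
  have hkp : 0 < kap D := iterate_kap_pos _
  have hRpos : (0 : ℝ) < R := by exact_mod_cast hR1
  have hqpos : 0 < q := by positivity
  have hα1' : ∀ (Γ : Finset (AddChar G ℂ)) (ρ : ℝ) (x0 : G) (α : ℝ), 0 < ρ →
      α * ((bohr Γ ρ).card : ℝ) ≤ (((bohr Γ ρ).filter (fun b => x0 + b ∈ A)).card : ℝ) → α ≤ 1 := by
    intro Γ ρ x0 α hρ0 hd
    have hcpos : (0 : ℝ) < ((bohr Γ ρ).card : ℝ) := by
      have : (0 : G) ∈ bohr Γ ρ := zero_mem_bohr Γ hρ0.le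
      exact_mod_cast Finset.card_pos.2 ⟨0, this⟩
    have h1 : (((bohr Γ ρ).filter (fun b => x0 + b ∈ A)).card : ℝ) ≤ ((bohr Γ ρ).card : ℝ) := by
      exact_mod_cast Finset.card_filter_le _ _
    by_contra h
    push Not at h
    nlinarith only [hd, h1, hcpos, h]
  -- the inductive statement
  have key : ∀ i : ℕ, i ≤ K → ∃ (Γ : Finset (AddChar G ℂ)) (ρ : ℝ) (x0 : G) (α : ℝ),
      (Γ.card : ℝ) ≤ bigB L * (Real.log α + L) ∧ 0 < ρ ∧ ρ ≤ 2 ∧ 2 * q ^ i ≤ ρ ∧ Regular Γ D ρ ∧
      (201 / 200) ^ i * Real.exp (-L) ≤ α ∧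
      α * ((bohr Γ ρ).card : ℝ) ≤ (((bohr Γ ρ).filter (fun b => x0 + b ∈ A)).card : ℝ) := by
    intro i
    induction i with
    | zero =>
      intro _
      have hb : ∀ r : ℝ, bohr (∅ : Finset (AddChar G ℂ)) r = univ := by
        intro r; unfold bohr; simp only [notMem_empty, IsEmpty.forall_iff, implies_true, filter_true]
      refine ⟨∅, 2, 0, Real.exp (-L), ?_, by norm_num, le_rfl, by simp, ?_, by simp, ?_⟩
      · rw [Real.log_exp]; simp
      · unfold Regular
        rw [hb, hb]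
        have : (0 : ℝ) ≤ ((univ : Finset G).card : ℝ) := by (clear * -; positivity)
        linarith only [this]
      · rw [hb]
        have h1 : (univ.filter (fun b : G => (0 : G) + b ∈ A)) = A := by
          ext b; simp only [zero_add, subset_univ, filter_mem_eq_of_subset]
        rw [h1, Finset.card_univ]
        exact hdens
    | succ i ih =>
      intro hi
      obtain ⟨Γ, ρ, x0, α, hΓ, hρ0, hρ2, hρq, hreg, hα, hd⟩ := ih (by omega)
      have h201 : (1 : ℝ) ≤ (201 / 200) ^ i := one_le_pow₀ (by norm_num)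
      have hαL : Real.exp (-L) ≤ α := by
        refine le_trans ?_ hα
        have := Real.exp_pos (-L)
        nlinarith only [h201, this]
      have hαpos : 0 < α := lt_of_lt_of_le (Real.exp_pos _) hαL
      have hαle1 : α ≤ 1 := hα1' Γ ρ x0 α hρ0 hd
      have hΓ2 : (Γ.card : ℝ) ≤ bigB L * L := by
        refine hΓ.trans (mul_le_mul_of_nonneg_left ?_ hB0)
        have := Real.log_nonpos hαpos.le hαle1
        linarith only [this]
      have hΓ3 : Γ.card + R ≤ D := by
        have h1 : (Γ.card : ℝ) ≤ M := hΓ2.trans hM1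
        have h2 : Γ.card ≤ M := by exact_mod_cast h1
        rw [hDdef]; omega
      by_cases hbig : 16 < α ^ 2 * ((bohr Γ (kap D * ρ / 2)).card : ℝ)
      · obtain ⟨γ, Γ', ρ', x', h0, h1, h2, h3, h4, h5, h6⟩ :=
          step_A hodd A hA L hL R hR Γ D hΓ3 ρ hρ0 hρ2 hreg x0 α hαL hd hbig
        have hγ0 : 0 < γ := by linarith only [h0]
        refine ⟨Γ', ρ', x', γ * α, ?_, h2, h3, ?_, h5, ?_, h6⟩
        · rw [Real.log_mul hγ0.ne' hαpos.ne']
          refine h1.trans ?_
          nlinarith only [hΓ]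
        · refine le_trans ?_ h4
          calc 2 * q ^ (i + 1) = (2 * q ^ i) * q := by ring
            _ ≤ ρ * ((kap D) ^ 6 / (1000 * R)) :=
                mul_le_mul hρq le_rfl hqpos.le hρ0.le
            _ = ρ * (kap D) ^ 6 / (1000 * R) := by ring
        · rw [pow_succ]
          have h7 : (201/200 : ℝ) ≤ γ := by linarith only [h0]
          have h8 : 0 ≤ (201 / 200 : ℝ) ^ i * Real.exp (-L) := by positivity
          calc (201 / 200 : ℝ) ^ i * (201 / 200) * Real.exp (-L)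
              = (201/200) * ((201 / 200 : ℝ) ^ i * Real.exp (-L)) := by ring
            _ ≤ γ * α := mul_le_mul h7 hα h8 hγ0.le
      · exfalso
        push Not at hbig
        have hkle1 : kap D ≤ 1 := by
          unfold kap
          rw [div_le_one (by (clear * -; positivity))]
          have : (0 : ℝ) ≤ (D : ℝ) := Nat.cast_nonneg _
          linarith only [this]
        have hqi : 0 < q ^ i := by positivity
        have harg1 : 1 ≤ 4 / (kap D * (2 * q ^ i)) := by
          rw [le_div_iff₀ (by positivity)]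
          have : 2 * q ^ i ≤ 2 := hρq.trans hρ2
          nlinarith only [this, hkle1, hkp, hqi]
        obtain ⟨k, hk1, hk2⟩ := iterate_exists_pow _ harg1
        have hrad : 2 / 2 ^ k ≤ kap D * ρ / 2 := by
          rw [div_le_iff₀ (by positivity)]
          rw [div_le_iff₀ (by (clear * - hqi hkp; positivity))] at hk1
          have h8 : kap D * (2 * q ^ i) ≤ kap D * ρ :=
            mul_le_mul_of_nonneg_left hρq hkp.le
          have h9 : (2 : ℝ) ^ k * (kap D * (2 * q ^ i)) ≤ 2 ^ k * (kap D * ρ) :=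
            mul_le_mul_of_nonneg_left h8 (by positivity)
          nlinarith only [hk1, h9]
        have hcard1 := bohr_card_lower Γ k
        have hcard2 : ((bohr Γ (2 / 2 ^ k)).card : ℝ) ≤
            ((bohr Γ (kap D * ρ / 2)).card : ℝ) := by
          exact_mod_cast Finset.card_le_card (bohr_mono Γ hrad)
        have hcard3 : ((bohr Γ (kap D * ρ / 2)).card : ℝ) ≤ 16 * Real.exp (2 * L) := by
          have h10 : Real.exp (-L) ^ 2 ≤ α ^ 2 := pow_le_pow_left₀ (Real.exp_pos _).le hαL 2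
          have h11 : Real.exp (-L) ^ 2 * ((bohr Γ (kap D * ρ / 2)).card : ℝ) ≤ 16 :=
            le_trans (mul_le_mul_of_nonneg_right h10 (Nat.cast_nonneg _)) hbig
          have h12 : Real.exp (2 * L) * Real.exp (-L) ^ 2 = 1 := by
            rw [← Real.exp_nat_mul, ← Real.exp_add]
            norm_num
          calc ((bohr Γ (kap D * ρ / 2)).card : ℝ)
              = Real.exp (2 * L) * (Real.exp (-L) ^ 2 *
                  ((bohr Γ (kap D * ρ / 2)).card : ℝ)) := by
                rw [← mul_assoc, h12, one_mul]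
            _ ≤ Real.exp (2 * L) * 16 :=
                mul_le_mul_of_nonneg_left h11 (Real.exp_pos _).le
            _ = _ := by ring
        have hn : (Fintype.card G : ℝ) ≤ 81 ^ (Γ.card * k) * (16 * Real.exp (2 * L)) := by
          calc (Fintype.card G : ℝ) ≤ 81 ^ (Γ.card * k) * ((bohr Γ (2 / 2 ^ k)).card : ℝ) := hcard1
            _ ≤ 81 ^ (Γ.card * k) * (16 * Real.exp (2 * L)) := by
              apply mul_le_mul_of_nonneg_left (hcard2.trans hcard3) (by positivity)
        have hGpos : (0 : ℝ) < Fintype.card G := by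
          exact_mod_cast Fintype.card_pos
        have hlog := Real.log_le_log hGpos hn
        have hnum := numIter L hL K R D i k Γ.card (by omega) hK2 hR2 hR1 hD2 hΓ2 hk2
        linarith only [hcon, hlog, hnum]
  obtain ⟨Γ, ρ, x0, α, hΓ, hρ0, hρ2, hρq, hreg, hα, hd⟩ := key K le_rfl
  have hα1 : α ≤ 1 := hα1' Γ ρ x0 α hρ0 hd
  have h1 : (201 / 200 : ℝ) ^ K * Real.exp (-L) ≤ 1 := hα.trans hα1
  have h2 : Real.log ((201 / 200 : ℝ) ^ K * Real.exp (-L)) ≤ 0 := by
    rw [← Real.log_one]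
    exact Real.log_le_log (by positivity) h1
  rw [Real.log_mul (by positivity) (by positivity), Real.log_pow, Real.log_exp] at h2
  have h3 : (1 : ℝ) / 201 ≤ Real.log (201 / 200) := by
    have := Real.one_sub_inv_le_log_of_pos (show (0 : ℝ) < 201 / 200 by norm_num)
    norm_num at this ⊢
    linarith only [this]
  have h4 : (K : ℝ) * (1 / 201) ≤ (K : ℝ) * Real.log (201 / 200) :=
    mul_le_mul_of_nonneg_left h3 (by (clear * -; positivity))
  linarith only [hK1, h2, h4]

end Vale.Agent.P057.H57
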