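import Vale.Agent.P057.R2.h57.KL
import Vale.Agent.P057.R2.h57.Extract

set_option linter.all false

open Finset

namespace Vale.Agent.P057.H57

variable {G : Type*} [AddCommGroup G] [Fintype G] [DecidableEq G]

/-- refined choice of a set of shifts with small relative entropy -/
theorem exists_small_kl2 (Y B U : Finset G) (hY : Y.Nonempty) (hB : B.Nonempty)
    (hU : ∀ y ∈ Y, ∀ s ∈ B, y - s ∈ U) (H κ Kp : ℝ) (hκ : 0 < κ) (hKp : 0 < Kp)
    (hH : (U.card : ℝ) ≤ Real.exp H * (Y.card : ℝ)) :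
    ∃ T ⊆ B, T.Nonempty ∧
      Real.exp (-(Kp * Real.log (1 + κ * H))) * (B.card : ℝ) ≤ (T.card : ℝ) ∧
      Kp * κ * kl Y T ≤ (1 + κ * ylog Y T) * ylog Y T * ((T.card : ℝ) * (Y.card : ℝ) ^ 2) := by
  obtain ⟨T, hT, hmin⟩ := Finset.exists_min_image (B.powerset.filter (fun T => T.Nonempty))
    (fun T => Kp * Real.log (1 + κ * ylog Y T) - Real.log (T.card : ℝ))
    ⟨B, by simp [hB]⟩
  rw [Finset.mem_filter, Finset.mem_powerset] at hT
  obtain ⟨hTB, hTne⟩ := hT
  have h1 : (0:ℝ) < T.card := by exact_mod_cast hTne.card_pos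
  have h2 : (0:ℝ) < Y.card := by exact_mod_cast hY.card_pos
  have hBp : (0:ℝ) < B.card := by exact_mod_cast hB.card_pos
  have hmin' : ∀ T' ⊆ B, T'.Nonempty →
      Kp * Real.log (1 + κ * ylog Y T) - Real.log (T.card : ℝ)
        ≤ Kp * Real.log (1 + κ * ylog Y T') - Real.log (T'.card : ℝ) := by
    intro T' h3 h4
    exact hmin T' (by rw [Finset.mem_filter, Finset.mem_powerset]; exact ⟨h3, h4⟩)
  have hyB : ylog Y B ≤ H := ylog_le Y B U hY hB hU H hH
  have hpos : ∀ T' : Finset G, 0 < 1 + κ * ylog Y T' := by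
    intro T'
    have := mul_nonneg hκ.le (ylog_nonneg Y T')
    linarith only [this]
  have hlog0 : ∀ T' : Finset G, 0 ≤ Real.log (1 + κ * ylog Y T') := by
    intro T'
    apply Real.log_nonneg
    have := mul_nonneg hκ.le (ylog_nonneg Y T')
    linarith only [this]
  refine ⟨T, hTB, hTne, ?_, ?_⟩
  · have h3 := hmin' B (Finset.Subset.refl _) hB
    have h4 : 0 ≤ Kp * Real.log (1 + κ * ylog Y T) := mul_nonneg hKp.le (hlog0 T)
    have h5 : Kp * Real.log (1 + κ * ylog Y B) ≤ Kp * Real.log (1 + κ * H) := by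
      apply mul_le_mul_of_nonneg_left _ hKp.le
      apply Real.log_le_log (hpos B)
      have := mul_le_mul_of_nonneg_left hyB hκ.le
      linarith only [this]
    have h6 : -(Kp * Real.log (1 + κ * H)) + Real.log (B.card : ℝ) ≤ Real.log (T.card : ℝ) := by
      linarith only [h3, h4, h5]
    have h7 := Real.exp_le_exp.mpr h6
    rw [Real.exp_add, Real.exp_log hBp, Real.exp_log h1] at h7
    exact h7
  · -- average of minimality
    set yT := ylog Y T with hyT
    have hyT0 : 0 ≤ yT := ylog_nonneg Y T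
    have hp : 0 < 1 + κ * yT := hpos T
    have hpt : ∀ s ∈ T, ∀ y ∈ Y, Kp * κ * (yT - ylog Y (fib Y T (y - s)))
        ≤ (1 + κ * yT) * Real.log ((T.card : ℝ) / cnt Y T (y - s)) := by
      intro s hs y hy
      have h3 := hmin' (fib Y T (y - s)) ((Finset.filter_subset _ _).trans hTB)
        ⟨s, mem_fib_self hs hy⟩
      have h4 : Real.log ((T.card : ℝ) / cnt Y T (y - s))
          = Real.log (T.card : ℝ) - Real.log (cnt Y T (y - s)) := by
        rw [Real.log_div h1.ne' (cnt_pos hs hy).ne']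
      have h5 : Real.log (((fib Y T (y - s)).card : ℝ)) = Real.log (cnt Y T (y - s)) := rfl
      rw [h5] at h3
      have hq := hpos (fib Y T (y - s))
      set yF := ylog Y (fib Y T (y - s)) with hyF
      have h6 := Real.log_le_sub_one_of_pos (show 0 < (1 + κ * yF) / (1 + κ * yT) from div_pos hq hp)
      rw [Real.log_div hq.ne' hp.ne'] at h6
      have h7 : (1 + κ * yT) * ((1 + κ * yF) / (1 + κ * yT)) = 1 + κ * yF := by
        field_simp
      have h8 : (1 + κ * yT) * (Real.log (1 + κ * yF) - Real.log (1 + κ * yT))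
          ≤ (1 + κ * yF) - (1 + κ * yT) := by
        have := mul_le_mul_of_nonneg_left h6 hp.le
        rw [mul_sub (1 + κ * yT) ((1 + κ * yF) / (1 + κ * yT)) 1, h7, mul_one] at this
        exact this
      have h9 : (1 + κ * yT) * (Kp * Real.log (1 + κ * yT) - Kp * Real.log (1 + κ * yF))
          ≤ (1 + κ * yT) * Real.log ((T.card : ℝ) / cnt Y T (y - s)) := by
        apply mul_le_mul_of_nonneg_left _ hp.le
        rw [h4]
        linarith only [h3]
      have h10 := mul_le_mul_of_nonneg_left h8 hKp.le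
      nlinarith only [h9, h10]
    have hav : ∑ s ∈ T, ∑ y ∈ Y, Kp * κ * (yT - ylog Y (fib Y T (y - s)))
        ≤ ∑ s ∈ T, ∑ y ∈ Y, (1 + κ * yT) * Real.log ((T.card : ℝ) / cnt Y T (y - s)) :=
      Finset.sum_le_sum fun s hs => Finset.sum_le_sum fun y hy => hpt s hs y hy
    have hym := ylog_mul Y T hY hTne
    simp only [← Finset.mul_sum, Finset.sum_sub_distrib, Finset.sum_const, nsmul_eq_mul] at hav
    rw [← hym] at hav
    have hkl := kl_eq Y T hY hTne
    simp only [← Finset.sum_mul] at hkl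
    rw [hkl]
    set X := ∑ s ∈ T, ∑ y ∈ Y, ylog Y (fib Y T (y - s)) with hX
    have h11 := mul_le_mul_of_nonneg_right hav h2.le
    calc Kp * κ * (yT * ((T.card : ℝ) * (Y.card : ℝ) ^ 2) - X * (Y.card : ℝ))
        = Kp * κ * ((Y.card : ℝ) * ((T.card : ℝ) * yT) - X) * (Y.card : ℝ) := by ring
      _ ≤ (1 + κ * yT) * (yT * ((T.card : ℝ) * (Y.card : ℝ))) * (Y.card : ℝ) := h11
      _ = _ := by ring

/-- dyadic decomposition of a nonnegative number -/
theorem dyadic_le (a0 l : ℝ) (ha0 : 0 ≤ a0) (J : ℕ) (hl : l < 2 ^ (J + 1) * a0) :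
    l ≤ a0 + ∑ j ∈ Finset.range (J + 1), (2 ^ j * a0) * (if 2 ^ j * a0 ≤ l then (1:ℝ) else 0) := by
  induction J with
  | zero =>
    simp only [zero_add, Finset.range_one, Finset.sum_singleton, pow_zero, one_mul]
    rw [zero_add, pow_one] at hl
    split_ifs with h
    · linarith
    · push Not at h; linarith
  | succ J ih =>
    rw [Finset.sum_range_succ]
    by_cases h : l < 2 ^ (J + 1) * a0
    · have h1 := ih h
      have h2 : 0 ≤ (2 ^ (J + 1) * a0) * (if 2 ^ (J + 1) * a0 ≤ l then (1:ℝ) else 0) := by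
        split_ifs <;> positivity
      linarith
    · push Not at h
      rw [if_pos h]
      have h3 : ∀ j ∈ Finset.range (J + 1),
          (2 ^ j * a0) * (if 2 ^ j * a0 ≤ l then (1:ℝ) else 0) = 2 ^ j * a0 := by
        intro j hj
        rw [Finset.mem_range] at hj
        have h4 : (2:ℝ) ^ j ≤ 2 ^ (J + 1) := pow_le_pow_right₀ (by norm_num) hj.le
        have h5 := mul_le_mul_of_nonneg_right h4 ha0
        rw [if_pos (h5.trans h), mul_one]
      rw [Finset.sum_congr rfl h3, ← Finset.sum_mul, geom_sum_eq (by norm_num)]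
      have h6 : (2:ℝ) ^ (J + 1 + 1) = 2 * 2 ^ (J + 1) := by ring
      rw [h6] at hl
      nlinarith

/-- selection of a dyadic class of fibres -/
theorem exists_class (Y T U : Finset G) (hY : Y.Nonempty) (hT : T.Nonempty)
    (hU : ∀ y ∈ Y, ∀ s ∈ T, y - s ∈ U) (H : ℝ) (hH : (U.card : ℝ) ≤ Real.exp H * (Y.card : ℝ))
    (J : ℕ) (hy4 : 4 * ((J:ℝ) + 1) < ylog Y T) (hJ : 2 * H ≤ 2 ^ J * ylog Y T) :
    ∃ a : ℝ, ylog Y T / 2 ≤ a ∧ a ≤ 2 * H ∧
      ylog Y T * ((T.card : ℝ) * (Y.card : ℝ)) ≤ 4 * ((J:ℝ) + 1) * a *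
        ∑ s ∈ T, ∑ y ∈ Y, (if a ≤ Real.log ((T.card : ℝ) / cnt Y T (y - s)) then (1:ℝ) else 0) := by
  have h1 : (0:ℝ) < T.card := by exact_mod_cast hT.card_pos
  have h2 : (0:ℝ) < Y.card := by exact_mod_cast hY.card_pos
  set yT := ylog Y T with hyT
  have hJ0 : (0:ℝ) ≤ J := Nat.cast_nonneg _
  have hyT4 : 4 < yT := by linarith
  set n : ℝ := (T.card : ℝ) * (Y.card : ℝ) with hn
  have hn0 : 0 < n := by positivity
  let Pi : ℝ → ℝ := fun a =>
    ∑ s ∈ T, ∑ y ∈ Y, (if a ≤ Real.log ((T.card : ℝ) / cnt Y T (y - s)) then (1:ℝ) else 0)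
  -- exponential moment
  have hinv : ∑ s ∈ T, ∑ y ∈ Y, (cnt Y T (y - s))⁻¹ ≤ (U.card : ℝ) := by
    rw [← sum_cnt_mul Y T (fun z => (cnt Y T z)⁻¹)]
    have : ∀ z, cnt Y T z * (cnt Y T z)⁻¹ ≤ if z ∈ U then (1:ℝ) else 0 := by
      intro z
      by_cases hz : cnt Y T z = 0
      · rw [hz]; split_ifs <;> simp
      · have hzU : z ∈ U := by
          have : (fib Y T z).Nonempty := by
            rw [← Finset.card_pos]
            by_contra hcon
            apply hz
            unfold cnt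
            have : (fib Y T z).card = 0 := by omega
            rw [this]; simp
          obtain ⟨s, hs⟩ := this
          unfold fib at hs
          rw [Finset.mem_filter] at hs
          have := hU _ hs.2 _ hs.1
          simpa using this
        rw [mul_inv_cancel₀ hz, if_pos hzU]
    calc ∑ z, cnt Y T z * (cnt Y T z)⁻¹ ≤ ∑ z, if z ∈ U then (1:ℝ) else 0 :=
          Finset.sum_le_sum fun z _ => this z
      _ = (U.card : ℝ) := by simp
  have hexp : ∑ s ∈ T, ∑ y ∈ Y, Real.exp (Real.log ((T.card : ℝ) / cnt Y T (y - s)) - H) ≤ n := by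
    have e1 : ∀ s ∈ T, ∀ y ∈ Y, Real.exp (Real.log ((T.card : ℝ) / cnt Y T (y - s)) - H)
        = (T.card : ℝ) * Real.exp (-H) * (cnt Y T (y - s))⁻¹ := by
      intro s hs y hy
      have hc := cnt_pos hs hy
      rw [sub_eq_add_neg, Real.exp_add, Real.exp_log (div_pos h1 hc), div_eq_mul_inv]
      ring
    rw [Finset.sum_congr rfl fun s hs => Finset.sum_congr rfl fun y hy => e1 s hs y hy]
    simp only [← Finset.mul_sum]
    have h6 : (T.card : ℝ) * Real.exp (-H) * (∑ s ∈ T, ∑ y ∈ Y, (cnt Y T (y - s))⁻¹)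
        ≤ (T.card : ℝ) * Real.exp (-H) * (Real.exp H * (Y.card : ℝ)) :=
      mul_le_mul_of_nonneg_left (hinv.trans hH) (by positivity)
    refine h6.trans (le_of_eq ?_)
    have : Real.exp (-H) * Real.exp H = 1 := by rw [← Real.exp_add]; simp
    calc (T.card : ℝ) * Real.exp (-H) * (Real.exp H * (Y.card : ℝ))
        = (T.card : ℝ) * (Real.exp (-H) * Real.exp H) * (Y.card : ℝ) := by ring
      _ = _ := by rw [this, hn]; ring
  -- pointwise
  have hpt : ∀ s ∈ T, ∀ y ∈ Y, Real.log ((T.card : ℝ) / cnt Y T (y - s)) ≤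
      (yT / 2 + ∑ j ∈ Finset.range (J + 1), (2 ^ j * (yT / 2)) *
        (if 2 ^ j * (yT / 2) ≤ Real.log ((T.card : ℝ) / cnt Y T (y - s)) then (1:ℝ) else 0))
      + Real.exp (Real.log ((T.card : ℝ) / cnt Y T (y - s)) - H) := by
    intro s hs y hy
    have hl0 : 0 ≤ Real.log ((T.card : ℝ) / cnt Y T (y - s)) := by
      apply Real.log_nonneg
      rw [le_div_iff₀ (cnt_pos hs hy), one_mul]
      exact cnt_le _ _ _
    generalize Real.log ((T.card : ℝ) / cnt Y T (y - s)) = l at hl0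
    by_cases hc : l < 2 ^ (J + 1) * (yT / 2)
    · have h3 := dyadic_le (yT / 2) l (by linarith) J hc
      have h4 := Real.exp_pos (l - H)
      linarith
    · push Not at hc
      have h3 : 2 * H ≤ l := by
        refine hJ.trans ((le_of_eq ?_).trans hc)
        ring
      have h4 := two_mul_le_exp (l / 2) (by linarith)
      have h5 : Real.exp (l / 2) ≤ Real.exp (l - H) := Real.exp_le_exp.mpr (by linarith)
      have h6 : 0 ≤ ∑ j ∈ Finset.range (J + 1), (2 ^ j * (yT / 2)) *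
        (if 2 ^ j * (yT / 2) ≤ l then (1:ℝ) else 0) := by
        refine Finset.sum_nonneg fun j _ => ?_
        split_ifs <;> positivity
      linarith
  have hsum := Finset.sum_le_sum fun s hs => Finset.sum_le_sum fun y hy => hpt s hs y hy
  have hym := ylog_mul Y T hY hT
  rw [← hyT, ← hn] at hym
  have hR : ∑ s ∈ T, ∑ y ∈ Y, ((yT / 2 + ∑ j ∈ Finset.range (J + 1), (2 ^ j * (yT / 2)) *
        (if 2 ^ j * (yT / 2) ≤ Real.log ((T.card : ℝ) / cnt Y T (y - s)) then (1:ℝ) else 0))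
      + Real.exp (Real.log ((T.card : ℝ) / cnt Y T (y - s)) - H))
      = yT / 2 * n + ∑ j ∈ Finset.range (J + 1), (2 ^ j * (yT / 2)) * Pi (2 ^ j * (yT / 2))
        + ∑ s ∈ T, ∑ y ∈ Y, Real.exp (Real.log ((T.card : ℝ) / cnt Y T (y - s)) - H) := by
    simp only [Finset.sum_add_distrib, Finset.sum_const, nsmul_eq_mul, Pi, Finset.mul_sum]
    congr 1
    congr 1
    · rw [hn]; ring
    · rw [Finset.sum_comm' (s := T) (t := fun _ => Y) (t' := Y) (s' := fun _ => T)
        (by intro x y; tauto)]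
      rw [Finset.sum_congr rfl fun y _ => Finset.sum_comm]
      rw [Finset.sum_comm]
      refine Finset.sum_congr rfl fun j _ => ?_
      rw [Finset.sum_comm]
  rw [hR, ← hym] at hsum
  have hbig : yT / 4 * n ≤ ∑ j ∈ Finset.range (J + 1), (2 ^ j * (yT / 2)) * Pi (2 ^ j * (yT / 2)) := by
    nlinarith only [hsum, hexp, hyT4, hn0]
  -- pigeonhole
  obtain ⟨j, hj, hjb⟩ : ∃ j ∈ Finset.range (J + 1), yT / 4 * n / ((J:ℝ) + 1)
      ≤ (2 ^ j * (yT / 2)) * Pi (2 ^ j * (yT / 2)) := by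
    by_contra hno
    push Not at hno
    have h3 := Finset.sum_lt_sum_of_nonempty (by simp) hno
    rw [Finset.sum_const, Finset.card_range, nsmul_eq_mul] at h3
    push_cast at h3
    have h4 : ((J:ℝ) + 1) * (yT / 4 * n / ((J:ℝ) + 1)) = yT / 4 * n := by
      field_simp
    rw [h4] at h3
    linarith
  set a : ℝ := 2 ^ j * (yT / 2) with ha
  have ha1 : yT / 2 ≤ a := by
    have : (1:ℝ) ≤ 2 ^ j := one_le_pow₀ (by norm_num)
    rw [ha]; nlinarith
  have hfin : yT * n ≤ 4 * ((J:ℝ) + 1) * a * Pi a := by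
    rw [div_le_iff₀ (by positivity)] at hjb
    nlinarith only [hjb]
  refine ⟨a, ha1, ?_, hfin⟩
  by_contra hcon
  push Not at hcon
  -- Markov
  have hmk : Real.exp (a - H) * Pi a ≤ n := by
    refine le_trans ?_ hexp
    simp only [Pi, Finset.mul_sum]
    refine Finset.sum_le_sum fun s hs => Finset.sum_le_sum fun y hy => ?_
    split_ifs with h
    · rw [mul_one]; exact Real.exp_le_exp.mpr (by linarith)
    · rw [mul_zero]; exact (Real.exp_pos _).le
  have ha0 : 0 ≤ a := by linarith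
  have hPi0 : 0 ≤ Pi a := by
    simp only [Pi]
    refine Finset.sum_nonneg fun _ _ => Finset.sum_nonneg fun _ _ => ?_
    split_ifs <;> norm_num
  have h4 := two_mul_le_exp (a / 2) (by linarith)
  have h5 : Real.exp (a / 2) ≤ Real.exp (a - H) := Real.exp_le_exp.mpr (by linarith)
  have h6 : a * Pi a ≤ n := by
    refine le_trans (mul_le_mul_of_nonneg_right ?_ hPi0) hmk
    linarith
  have h7 : 4 * ((J:ℝ) + 1) * (a * Pi a) ≤ 4 * ((J:ℝ) + 1) * n :=
    mul_le_mul_of_nonneg_left h6 (by positivity)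
  have h8 : 4 * ((J:ℝ) + 1) * n < yT * n := mul_lt_mul_of_pos_right hy4 hn0
  linarith only [hfin, h7, h8]

end Vale.Agent.P057.H57
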