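import Vale.Agent.P057.R2.h57.Sift

set_option linter.all false

open Finset

namespace Vale.Agent.P057.H57

variable {G : Type*} [AddCommGroup G] [Fintype G] [DecidableEq G]

/-- layer cake: a bound on sets by a concave function of the size passes to weights -/
theorem layer_aux (V : (G → ℝ) → ℝ) (hadd : ∀ a b : G → ℝ, V (fun z => a z + b z) ≤ V a + V b)
    (hsmul : ∀ (c : ℝ) (a : G → ℝ), 0 ≤ c → V (fun z => c * a z) ≤ c * V a)
    (hzero : V (fun _ => 0) ≤ 0)
    (φ : ℝ → ℝ) (hφ : ConcaveOn ℝ (Set.Ici 0) φ) (hφ0 : 0 ≤ φ 0) (Y : Finset G)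
    (hV : ∀ Z ⊆ Y, Z.Nonempty → V (ind Z) ≤ φ (Z.card : ℝ)) :
    ∀ (n : ℕ) (w : G → ℝ) (c : ℝ), 0 < c → (∀ z, 0 ≤ w z) → (∀ z, w z ≤ c) →
      (∀ z, z ∉ Y → w z = 0) → (univ.filter (fun z => 0 < w z)).card ≤ n →
      V w ≤ c * φ (mass w / c) := by
  intro n
  induction n with
  | zero =>
    intro w c hc hw0 hwc hwY hn
    have hemp : univ.filter (fun z => 0 < w z) = ∅ := by
      rw [← Finset.card_eq_zero]; omega
    have hz : w = fun _ => 0 := by
      funext z
      by_contra hne
      have : z ∈ univ.filter (fun z => 0 < w z) := by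
        rw [Finset.mem_filter]
        exact ⟨Finset.mem_univ _, lt_of_le_of_ne (hw0 z) (Ne.symm hne)⟩
      rw [hemp] at this
      simp at this
    have hm : mass w = 0 := by
      rw [hz]; unfold mass; simp
    rw [hm, zero_div, hz]
    exact hzero.trans (mul_nonneg hc.le hφ0)
  | succ n ih =>
    intro w c hc hw0 hwc hwY hn
    set Z := univ.filter (fun z => 0 < w z) with hZ
    rcases Z.eq_empty_or_nonempty with hemp | hne
    · exact ih w c hc hw0 hwc hwY (by rw [← hZ, hemp]; simp)
    · obtain ⟨z0, hz0, hmin⟩ := Finset.exists_min_image Z w hne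
      have hμ : 0 < w z0 := (Finset.mem_filter.mp hz0).2
      set μ := w z0 with hμdef
      have hμc : μ ≤ c := hwc z0
      have hZY : Z ⊆ Y := by
        intro z hz
        by_contra hzY
        have := (Finset.mem_filter.mp hz).2
        rw [hwY z hzY] at this
        exact lt_irrefl _ this
      have hVZ := hV Z hZY hne
      let w' : G → ℝ := fun z => w z - μ * ind Z z
      have hdecomp : w = fun z => w' z + (fun z => μ * ind Z z) z := by
        funext z; simp only [w']; ring
      have hind0 : ∀ z, z ∉ Z → ind Z z = 0 := by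
        intro z hz; unfold ind; rw [if_neg hz]
      have hind1 : ∀ z, z ∈ Z → ind Z z = 1 := by
        intro z hz; unfold ind; rw [if_pos hz]
      have hwZ : ∀ z, z ∉ Z → w z = 0 := by
        intro z hz
        by_contra hne'
        apply hz
        rw [hZ, Finset.mem_filter]
        exact ⟨Finset.mem_univ _, lt_of_le_of_ne (hw0 z) (Ne.symm hne')⟩
      have hw'0 : ∀ z, 0 ≤ w' z := by
        intro z
        by_cases hz : z ∈ Z
        · simp only [w']; rw [hind1 z hz]; have := hmin z hz; linarith
        · simp only [w']; rw [hind0 z hz, hwZ z hz]; simp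
      have hmass : mass w = mass w' + μ * (Z.card : ℝ) := by
        have : mass w' = mass w - μ * mass (ind Z) := by
          unfold mass
          simp only [w', Finset.sum_sub_distrib, Finset.mul_sum]
        rw [this, mass_ind]; ring
      have hV1 : V w ≤ V w' + μ * V (ind Z) := by
        calc V w = V (fun z => w' z + (fun z => μ * ind Z z) z) := by rw [← hdecomp]
          _ ≤ V w' + V (fun z => μ * ind Z z) := hadd _ _
          _ ≤ _ := by have := hsmul μ (ind Z) hμ.le; linarith
      have hV2 : μ * V (ind Z) ≤ μ * φ (Z.card : ℝ) := mul_le_mul_of_nonneg_left hVZ hμ.le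
      rcases hμc.lt_or_eq with hlt | heq
      · have hcm : 0 < c - μ := by linarith
        have hih := ih w' (c - μ) hcm hw'0 (by
            intro z
            by_cases hz : z ∈ Z
            · simp only [w']; rw [hind1 z hz]; have := hwc z; linarith
            · simp only [w']; rw [hind0 z hz, hwZ z hz]; linarith)
          (by
            intro z hz
            have hzZ : z ∉ Z := fun h => hz (hZY h)
            simp only [w']; rw [hind0 z hzZ, hwZ z hzZ]; simp)
          (by
            have hsub : univ.filter (fun z => 0 < w' z) ⊆ Z.erase z0 := by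
              intro z hz
              have h1 := (Finset.mem_filter.mp hz).2
              rw [Finset.mem_erase]
              constructor
              · intro heq
                rw [heq] at h1
                simp only [w'] at h1
                rw [hind1 z0 hz0] at h1
                rw [← hμdef] at h1
                simp at h1
              · by_contra hzZ
                simp only [w'] at h1
                rw [hind0 z hzZ, hwZ z hzZ] at h1
                simp at h1
            have h2 := Finset.card_le_card hsub
            rw [Finset.card_erase_of_mem hz0] at h2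
            omega)
        have hconc := hφ.2 (show mass w' / (c - μ) ∈ Set.Ici (0:ℝ) from
            div_nonneg (mass_nonneg _ hw'0) hcm.le)
          (show (Z.card : ℝ) ∈ Set.Ici (0:ℝ) from Set.mem_Ici.mpr (Nat.cast_nonneg _))
          (show 0 ≤ (c - μ) / c from div_nonneg hcm.le hc.le)
          (show 0 ≤ μ / c from div_nonneg hμ.le hc.le)
          (by rw [← add_div, sub_add_cancel, div_self hc.ne'])
        simp only [smul_eq_mul] at hconc
        have e1 : (c - μ) / c * (mass w' / (c - μ)) + μ / c * (Z.card : ℝ) = mass w / c := by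
          rw [hmass]; field_simp
        rw [e1] at hconc
        have h3 := mul_le_mul_of_nonneg_left hconc hc.le
        have e2 : c * ((c - μ) / c * φ (mass w' / (c - μ)) + μ / c * φ (Z.card : ℝ))
            = (c - μ) * φ (mass w' / (c - μ)) + μ * φ (Z.card : ℝ) := by
          field_simp
        rw [e2] at h3
        linarith only [hV1, hV2, hih, h3]
      · -- all values equal to c on Z
        have hw'z : w' = fun _ => 0 := by
          funext z
          by_cases hz : z ∈ Z
          · simp only [w']; rw [hind1 z hz]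
            have h1 := hmin z hz
            have h2 := hwc z
            rw [heq] at h1 ⊢
            linarith
          · simp only [w']; rw [hind0 z hz, hwZ z hz]; simp
        have hm' : mass w' = 0 := by rw [hw'z]; unfold mass; simp
        rw [hm', zero_add] at hmass
        have e1 : mass w / c = (Z.card : ℝ) := by
          rw [hmass, ← heq, mul_div_cancel_left₀ _ hμ.ne']
        rw [e1, ← heq]
        have hV3 : V w' ≤ 0 := by rw [hw'z]; exact hzero
        linarith only [hV1, hV2, hV3]

theorem layer (V : (G → ℝ) → ℝ) (hadd : ∀ a b : G → ℝ, V (fun z => a z + b z) ≤ V a + V b)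
    (hsmul : ∀ (c : ℝ) (a : G → ℝ), 0 ≤ c → V (fun z => c * a z) ≤ c * V a)
    (hzero : V (fun _ => 0) ≤ 0)
    (φ : ℝ → ℝ) (hφ : ConcaveOn ℝ (Set.Ici 0) φ) (hφ0 : 0 ≤ φ 0) (Y : Finset G)
    (hV : ∀ Z ⊆ Y, Z.Nonempty → V (ind Z) ≤ φ (Z.card : ℝ))
    (w : G → ℝ) (hw0 : ∀ z, 0 ≤ w z) (hw1 : ∀ z, w z ≤ ind Y z) :
    V w ≤ φ (mass w) := by
  have h := layer_aux V hadd hsmul hzero φ hφ hφ0 Y hV (univ.filter (fun z => 0 < w z)).card w 1
    one_pos hw0 (fun z => (hw1 z).trans (by unfold ind; split_ifs <;> norm_num))
    (by
      intro z hz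
      have := hw1 z
      unfold ind at this
      rw [if_neg hz] at this
      exact le_antisymm this (hw0 z)) le_rfl
  rw [one_mul, div_one] at h
  exact h

/-- the norm `sqrt (en f w w)` -/
noncomputable def nrm (f w : G → ℝ) : ℝ := Real.sqrt (en f w w)

theorem nrm_nonneg (f w : G → ℝ) : 0 ≤ nrm f w := Real.sqrt_nonneg _

theorem nrm_sq (f w : G → ℝ) : nrm f w ^ 2 = en f w w := Real.sq_sqrt (en_nonneg f w)

theorem en_le_nrm (f w w' : G → ℝ) : en f w w' ≤ nrm f w * nrm f w' := by
  have h := en_sq_le f w w'
  rw [← nrm_sq f w, ← nrm_sq f w', ← mul_pow] at h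
  exact le_of_sq_le_sq h (mul_nonneg (nrm_nonneg _ _) (nrm_nonneg _ _))

theorem vv_add (f a b : G → ℝ) (u : G) : vv f (fun z => a z + b z) u = vv f a u + vv f b u := by
  unfold vv; rw [← Finset.sum_add_distrib]; exact Finset.sum_congr rfl fun _ _ => by ring

theorem vv_smul (f a : G → ℝ) (c : ℝ) (u : G) : vv f (fun z => c * a z) u = c * vv f a u := by
  unfold vv; rw [Finset.mul_sum]; exact Finset.sum_congr rfl fun _ _ => by ring

theorem en_add_left (f a b w : G → ℝ) : en f (fun z => a z + b z) w = en f a w + en f b w := by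
  unfold en; rw [← Finset.sum_add_distrib]
  exact Finset.sum_congr rfl fun u _ => by rw [vv_add]; ring

theorem en_smul_left (f a w : G → ℝ) (c : ℝ) : en f (fun z => c * a z) w = c * en f a w := by
  unfold en; rw [Finset.mul_sum]
  exact Finset.sum_congr rfl fun u _ => by rw [vv_smul]; ring

theorem en_add_right (f a b w : G → ℝ) : en f w (fun z => a z + b z) = en f w a + en f w b := by
  rw [en_comm, en_add_left, en_comm f a, en_comm f b]

theorem en_smul_right (f a w : G → ℝ) (c : ℝ) : en f w (fun z => c * a z) = c * en f w a := by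
  rw [en_comm, en_smul_left, en_comm f a]

theorem nrm_add (f a b : G → ℝ) : nrm f (fun z => a z + b z) ≤ nrm f a + nrm f b := by
  apply le_of_sq_le_sq _ (add_nonneg (nrm_nonneg _ _) (nrm_nonneg _ _))
  rw [nrm_sq, en_add_left, en_add_right, en_add_right, en_comm f b a]
  have h1 := nrm_sq f a
  have h2 := nrm_sq f b
  have h3 := en_le_nrm f a b
  nlinarith only [h1, h2, h3]

theorem nrm_smul (f a : G → ℝ) (c : ℝ) (hc : 0 ≤ c) : nrm f (fun z => c * a z) = c * nrm f a := by
  unfold nrm
  rw [en_smul_left, en_smul_right, ← mul_assoc, Real.sqrt_mul (mul_nonneg hc hc),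
    Real.sqrt_mul_self hc]

theorem nrm_zero (f : G → ℝ) : nrm f (fun _ => 0) = 0 := by
  have h := nrm_smul f (fun _ : G => (0:ℝ)) 0 le_rfl
  simpa using h

end Vale.Agent.P057.H57
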