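import Vale.Agent.P057.R2.h57.NoSpread

set_option linter.all false

open Finset

namespace Vale.Agent.P057.H57

theorem exp_neg_le_inv' (x : ℝ) (hx : 0 < x) : Real.exp (-x) ≤ 1 / x := by
  rw [Real.exp_neg, ← one_div]
  apply one_div_le_one_div_of_le hx
  have := Real.add_one_le_exp x
  linarith

theorem exp_neg_le_inv_sq' (x : ℝ) (hx : 0 < x) : Real.exp (-x) ≤ 2 / x ^ 2 := by
  rw [Real.exp_neg, inv_le_comm₀ (Real.exp_pos _) (by positivity)]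
  rw [inv_div]
  have := Real.quadratic_le_exp_of_nonneg hx.le
  linarith

/-- numerical data for the local theorem -/
theorem num_local (κ g ε : ℝ) (J : ℕ) (hk0 : 0 < κ) (hg0 : 0 ≤ g) (hε0 : 0 < ε) (hε1 : ε ≤ 1)
    (hΛ : 2 ^ 24 * (g + 3) * ((J:ℝ) + 1) * κ ≤ ε ^ 3) :
    ∃ lam : ℕ, (lam : ℝ) ≤ ε ^ 2 / (4096 * κ * (g + 2)) ∧ ε ^ 2 / (8192 * κ * (g + 2)) ≤ (lam : ℝ) ∧
      2048 ≤ ε * lam ∧ κ * (1 + (g + 2) * lam) ≤ ε ^ 2 / 2048 ∧
      2 * (ε ^ 2 / 2048) + Real.exp (2 * g - (g + 2) * lam) ≤ (ε / 16) ^ 2 / 2 ∧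
      3 * (ε ^ 2 / 2048) + Real.exp (2 * g - (g + 2) * lam) * ((g + 3) * ((J:ℝ) + 1)) ≤ 1 / 8 ∧
      24 * (g + 3) * ((J:ℝ) + 1) * κ ≤ 1 := by
  have hJ0 : (0:ℝ) ≤ J := Nat.cast_nonneg _
  have hg2 : 0 < g + 2 := by linarith
  have hg3 : 0 < g + 3 := by linarith
  have hε3 : ε ^ 3 ≤ 1 := pow_le_one₀ hε0.le hε1
  have hε2 : ε ^ 2 ≤ 1 := pow_le_one₀ hε0.le hε1
  have hε32 : ε ^ 3 ≤ ε ^ 2 := by nlinarith [sq_nonneg ε]
  have hkg : 2 ^ 24 * ((g + 3) * κ) ≤ ε ^ 3 := by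
    refine le_trans ?_ hΛ
    have : 0 ≤ 2 ^ 24 * (g + 3) * (J:ℝ) * κ := by positivity
    nlinarith
  have hkg2 : 2 ^ 24 * ((g + 2) * κ) ≤ ε ^ 3 := by
    refine le_trans ?_ hkg
    nlinarith
  set X : ℝ := ε ^ 2 / (4096 * κ * (g + 2)) with hX
  have hD : 0 < 4096 * κ * (g + 2) := by positivity
  have hXbig : 4096 / ε ≤ X := by
    rw [hX, div_le_div_iff₀ hε0 hD]
    nlinarith
  have hX4096 : 4096 ≤ X := by
    refine le_trans ?_ hXbig
    rw [le_div_iff₀ hε0]; linarith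
  have hX0 : 0 ≤ X := by linarith
  refine ⟨⌊X⌋₊, Nat.floor_le hX0, ?_, ?_, ?_, ?_, ?_, ?_⟩
  · have h1 := Nat.lt_floor_add_one X
    have h2 : ε ^ 2 / (8192 * κ * (g + 2)) = X / 2 := by
      rw [hX]; field_simp; norm_num
    rw [h2]; linarith
  · have h1 := Nat.lt_floor_add_one X
    have h2 : X / 2 ≤ (⌊X⌋₊ : ℝ) := by linarith
    have h3 : ε * (X / 2) ≤ ε * (⌊X⌋₊ : ℝ) := mul_le_mul_of_nonneg_left h2 hε0.le
    have h4 : 4096 ≤ ε * X := by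
      rw [div_le_iff₀ hε0] at hXbig
      linarith
    linarith
  · have h1 : (⌊X⌋₊ : ℝ) ≤ X := Nat.floor_le hX0
    have h2 : κ * ((g + 2) * (⌊X⌋₊ : ℝ)) ≤ κ * ((g + 2) * X) :=
      mul_le_mul_of_nonneg_left (mul_le_mul_of_nonneg_left h1 hg2.le) hk0.le
    have h3 : κ * ((g + 2) * X) = ε ^ 2 / 4096 := by
      rw [hX]; field_simp
    have h4 : κ ≤ ε ^ 2 / 4096 := by
      have : 3 * κ ≤ (g + 3) * κ := mul_le_mul_of_nonneg_right (by linarith) hk0.le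
      linarith
    linarith
  · have h1 := Nat.lt_floor_add_one X
    have h2 : X / 2 ≤ (⌊X⌋₊ : ℝ) := by linarith
    have h3 : 2 * g - (g + 2) * (⌊X⌋₊ : ℝ) ≤ -(2048 / ε) := by
      have e1 : (2:ℝ) ≤ (⌊X⌋₊ : ℝ) := by linarith
      have e2 : g * 2 ≤ g * (⌊X⌋₊ : ℝ) := mul_le_mul_of_nonneg_left e1 hg0
      have e3 : 2048 / ε = (4096 / ε) / 2 := by ring
      rw [e3]
      linarith
    have h4 := (Real.exp_le_exp.mpr h3).trans (exp_neg_le_inv_sq' (2048 / ε) (by positivity))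
    have h5 : 2 / (2048 / ε) ^ 2 = ε ^ 2 / 2097152 := by
      field_simp; norm_num
    rw [h5] at h4
    have : 0 ≤ ε ^ 2 := by positivity
    nlinarith
  · have h1 := Nat.lt_floor_add_one X
    have h2 : X / 2 ≤ (⌊X⌋₊ : ℝ) := by linarith
    have h3 : 2 * g - (g + 2) * (⌊X⌋₊ : ℝ) ≤ -(ε ^ 2 / (16384 * κ)) := by
      have e0 : (4:ℝ) ≤ (⌊X⌋₊ : ℝ) := by linarith
      have e1 : (g + 2) * 4 ≤ (g + 2) * (⌊X⌋₊ : ℝ) := mul_le_mul_of_nonneg_left e0 hg2.le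
      have e2 : (g + 2) * (X / 2) ≤ (g + 2) * (⌊X⌋₊ : ℝ) := mul_le_mul_of_nonneg_left h2 hg2.le
      have e3 : (g + 2) * (X / 2) = 2 * (ε ^ 2 / (16384 * κ)) := by
        rw [hX]; field_simp; norm_num
      linarith
    have hpos : 0 < ε ^ 2 / (16384 * κ) := by positivity
    have h4 := (Real.exp_le_exp.mpr h3).trans (exp_neg_le_inv' _ hpos)
    have h5 : (1 / (ε ^ 2 / (16384 * κ))) * ((g + 3) * ((J:ℝ) + 1)) ≤ 1 / 1024 := by
      rw [one_div_div, div_mul_eq_mul_div, div_le_div_iff₀ (by positivity) (by norm_num)]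
      nlinarith
    have h6 := mul_le_mul_of_nonneg_right h4 (show 0 ≤ (g + 3) * ((J:ℝ) + 1) by positivity)
    linarith
  · have : 0 ≤ (g + 3) * ((J:ℝ) + 1) * κ := by positivity
    nlinarith

/-- the size exponent -/
theorem num_size (κ g ε H lam : ℝ) (J : ℕ) (hk0 : 0 < κ) (hg0 : 0 ≤ g) (hε0 : 0 < ε) (hε1 : ε ≤ 1)
    (hΛ : 2 ^ 24 * (g + 3) * ((J:ℝ) + 1) * κ ≤ ε ^ 3) (hJ : g + 3 ≤ 2 ^ J) (hH0 : 0 ≤ H)
    (hHk : κ * H ≤ g + 3) (hlam0 : 0 ≤ lam) (hlam : lam ≤ ε ^ 2 / (4096 * κ * (g + 2))) :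
    Real.exp (-(2 ^ 28 * (g + 3) * ((J:ℝ) + 1) ^ 2 / (κ * ε ^ 3))) ≤
      Real.exp (-(ε * lam / 32)) / 8 *
        Real.exp (-((g + 2) * (2 ^ 28 * ((J:ℝ) + 1) / ε ^ 3) / κ * Real.log (1 + κ * H))) := by
  have hJ0 : (0:ℝ) ≤ J := Nat.cast_nonneg _
  have hg2 : 0 < g + 2 := by linarith
  have hg3 : 0 < g + 3 := by linarith
  have hlog : Real.log (1 + κ * H) ≤ ((J:ℝ) + 1) * (7 / 10) := by
    have e1 : 1 + κ * H ≤ 2 ^ (J + 1) := by
      have : (2:ℝ) ^ (J + 1) = 2 * 2 ^ J := by ring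
      rw [this]; linarith
    have e2 : 0 ≤ κ * H := by positivity
    have e3 := Real.log_le_log (by linarith) e1
    rw [Real.log_pow] at e3
    have e4 := Real.log_two_lt_d9
    push_cast at e3
    have e5 : ((J:ℝ) + 1) * Real.log 2 ≤ ((J:ℝ) + 1) * (7 / 10) :=
      mul_le_mul_of_nonneg_left (by linarith) (by linarith)
    linarith
  have h8 : Real.exp (-3) ≤ 1 / 8 := by
    rw [Real.exp_neg, inv_le_comm₀ (Real.exp_pos _) (by norm_num)]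
    have e1 : Real.exp 3 = Real.exp 1 ^ 3 := by rw [← Real.exp_nat_mul]; norm_num
    have e2 : (2.7:ℝ) ≤ Real.exp 1 := by
      have := Real.exp_one_gt_d9; linarith only [this]
    have e3 : (2.7:ℝ) ^ 3 ≤ Real.exp 1 ^ 3 := pow_le_pow_left₀ (by norm_num) e2 3
    rw [e1]
    norm_num at e3 ⊢
    linarith only [e3]
  set K : ℝ := 2 ^ 28 * ((J:ℝ) + 1) / ε ^ 3 / κ with hK
  have hK0 : 0 < K := by positivity
  have hKbig : 2 ^ 52 * (g + 3) ≤ K := by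
    rw [hK, le_div_iff₀ hk0, le_div_iff₀ (by positivity)]
    have e1 : 2 ^ 24 * (g + 3) * κ ≤ ε ^ 3 := by
      refine le_trans ?_ hΛ
      have : 0 ≤ 2 ^ 24 * (g + 3) * (J:ℝ) * κ := by positivity
      nlinarith
    have e2 : ε ^ 3 ≤ 1 := pow_le_one₀ hε0.le hε1
    have e3 : 0 < ε ^ 3 := by positivity
    have e4 : 2 ^ 52 * (g + 3) * κ * ε ^ 3 ≤ 2 ^ 28 * ε ^ 3 * ε ^ 3 := by nlinarith
    have e5 : 2 ^ 28 * ε ^ 3 * ε ^ 3 ≤ 2 ^ 28 * 1 * 1 := by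
      apply mul_le_mul _ e2 e3.le (by norm_num)
      exact mul_le_mul_of_nonneg_left e2 (by norm_num)
    nlinarith
  have e1 : (g + 2) * (2 ^ 28 * ((J:ℝ) + 1) / ε ^ 3) / κ = (g + 2) * K := by
    rw [hK]; ring
  have e2 : 2 ^ 28 * (g + 3) * ((J:ℝ) + 1) ^ 2 / (κ * ε ^ 3) = (g + 3) * K * ((J:ℝ) + 1) := by
    rw [hK]; field_simp
  rw [e1, e2]
  have e3 : ε * lam / 32 ≤ K := by
    have a1 : ε * lam ≤ 1 * (ε ^ 2 / (4096 * κ * (g + 2))) := mul_le_mul hε1 hlam hlam0 (by norm_num)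
    have a2 : ε ^ 2 / (4096 * κ * (g + 2)) ≤ K := by
      rw [hK, div_div, div_le_div_iff₀ (by positivity) (by positivity)]
      have b1 : ε ^ 2 * (ε ^ 3 * κ) ≤ 1 * (1 * κ) := by
        apply mul_le_mul (pow_le_one₀ hε0.le hε1) _ (by positivity) (by norm_num)
        exact mul_le_mul_of_nonneg_right (pow_le_one₀ hε0.le hε1) hk0.le
      have b2 : κ ≤ κ * (g + 2) := by nlinarith
      have b3 : κ * (g + 2) ≤ ((J:ℝ) + 1) * (κ * (g + 2)) := by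
        have : 0 ≤ (J:ℝ) * (κ * (g + 2)) := by positivity
        linarith
      nlinarith
    have a3 : 0 ≤ ε * lam := by positivity
    linarith
  calc Real.exp (-((g + 3) * K * ((J:ℝ) + 1)))
      ≤ Real.exp (-(ε * lam / 32) + -3 + -((g + 2) * K * Real.log (1 + κ * H))) := by
        apply Real.exp_le_exp.mpr
        have a1 : (g + 2) * K * Real.log (1 + κ * H) ≤ (g + 2) * K * (((J:ℝ) + 1) * (7 / 10)) :=
          mul_le_mul_of_nonneg_left hlog (by positivity)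
        have a2 : (g + 3) * K * ((J:ℝ) + 1) = (g + 2) * K * ((J:ℝ) + 1) + K * ((J:ℝ) + 1) := by ring
        have a3 : 0 ≤ (g + 2) * K * ((J:ℝ) + 1) * (3/10) - 2 * K * ((J:ℝ) + 1) * (3/10) := by
          have : 0 ≤ g * (K * ((J:ℝ) + 1)) * (3/10) := by positivity
          linarith
        have a4 : K ≤ K * ((J:ℝ) + 1) := by
          have : 0 ≤ K * (J:ℝ) := by positivity
          linarith
        have a5 : 3 ≤ K := by nlinarith
        linarith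
    _ = Real.exp (-(ε * lam / 32)) * Real.exp (-3) * Real.exp (-((g + 2) * K * Real.log (1 + κ * H))) := by
        rw [Real.exp_add, Real.exp_add]
    _ ≤ Real.exp (-(ε * lam / 32)) / 8 * Real.exp (-((g + 2) * K * Real.log (1 + κ * H))) := by
        apply mul_le_mul_of_nonneg_right _ (Real.exp_pos _).le
        have := mul_le_mul_of_nonneg_left h8 (Real.exp_pos (-(ε * lam / 32))).le
        linarith

variable {G : Type*} [AddCommGroup G] [Fintype G] [DecidableEq G]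

/-- the local theorem: a dense set of almost periods -/
theorem local_B {f : G → ℝ} {U Y : Finset G} {t κ g : ℝ} (h : GTight f U Y t κ g) (hg0 : 0 ≤ g)
    (B : Finset G) (hB : B.Nonempty) (hU : ∀ y ∈ Y, ∀ s ∈ B, y - s ∈ U) (H : ℝ)
    (hH : (U.card : ℝ) ≤ Real.exp H * (Y.card : ℝ)) (hHk : κ * H ≤ g + 3) (J : ℕ)
    (hJ : g + 3 ≤ 2 ^ J) (ε : ℝ) (hε0 : 0 < ε) (hε1 : ε ≤ 1)
    (hΛ : 2 ^ 24 * (g + 3) * ((J:ℝ) + 1) * κ ≤ ε ^ 3) :
    ∃ T ⊆ B, T.Nonempty ∧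
      Real.exp (-(2 ^ 28 * (g + 3) * ((J:ℝ) + 1) ^ 2 / (κ * ε ^ 3))) * (B.card : ℝ) ≤ (T.card : ℝ) ∧
      ∀ a ∈ T, ∀ a' ∈ T, (1 - 4 * ε) * t * (Y.card : ℝ) ^ 2
        ≤ ∑ y ∈ Y, ∑ y' ∈ Y, corr f (y - y' + (a - a')) := by
  have hk0 := h.k0
  have hY := h.ne
  have hJ0 : (0:ℝ) ≤ J := Nat.cast_nonneg _
  have hg2 : 0 < g + 2 := by linarith
  have hg3 : 0 < g + 3 := by linarith
  obtain ⟨lam, hl1, hl2, hl3, hl4, hl5, hl6, hl7⟩ := num_local κ g ε J hk0 hg0 hε0 hε1 hΛ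
  have hη1 : ε ^ 2 / 2048 ≤ 1 := by
    have : ε ^ 2 ≤ 1 := pow_le_one₀ hε0.le hε1
    linarith
  have hlam0 : (0:ℝ) ≤ lam := Nat.cast_nonneg _
  have hti := h.toTight ((g + 2) * lam) (ε ^ 2 / 2048) (by positivity) hη1 hl4
  obtain ⟨W, hW⟩ : ∃ W : ℝ, W = 2 ^ 28 * ((J:ℝ) + 1) / ε ^ 3 := ⟨_, rfl⟩
  have hW0 : 0 < W := by rw [hW]; positivity
  have hW1 : 2 ^ 28 * ((J:ℝ) + 1) ≤ W := by
    rw [hW, le_div_iff₀ (by positivity)]
    have : ε ^ 3 ≤ 1 := pow_le_one₀ hε0.le hε1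
    exact mul_le_of_le_one_right (by positivity) this
  have hH0 : 0 ≤ H := (ylog_nonneg Y B).trans (ylog_le Y B U hY hB hU H hH)
  obtain ⟨T, hTB, hTne, hTcard, hTkl⟩ := exists_small_kl2 Y B U hY hB hU H κ ((g + 2) * W / κ) hk0
    (by positivity) hH
  have h1 : (0:ℝ) < T.card := by exact_mod_cast hTne.card_pos
  have h2 : (0:ℝ) < Y.card := by exact_mod_cast hY.card_pos
  have hUT : ∀ y ∈ Y, ∀ s ∈ T, y - s ∈ U := fun y hy s hs => hU y hy s (hTB hs)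
  have hkl' : kl Y T ≤ ylog Y T * (1 + κ * ylog Y T) / ((g + 2) * W) *
      ((T.card : ℝ) * (Y.card : ℝ) ^ 2) := by
    have e1 : (g + 2) * W / κ * κ = (g + 2) * W := by field_simp
    rw [e1] at hTkl
    rw [div_mul_eq_mul_div, le_div_iff₀ (by positivity)]
    linarith only [hTkl]
  -- the relative entropy is small
  have hsmall : kl Y T ≤ (ε * lam / 64) * ((T.card : ℝ) * (Y.card : ℝ) ^ 2) := by
    by_contra hcon
    push Not at hcon
    have h3 := hcon.trans_le hkl'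
    have h4 := lt_of_mul_lt_mul_right h3 (by positivity)
    have hyT0 := ylog_nonneg Y T
    set yT := ylog Y T with hyT
    rw [lt_div_iff₀ (by positivity)] at h4
    have h5 : ε ^ 3 * W ≤ 2 ^ 19 * κ * (ε * lam / 64 * ((g + 2) * W)) := by
      have e1 : ε ^ 2 ≤ lam * (8192 * κ * (g + 2)) := by
        rw [div_le_iff₀ (by positivity)] at hl2; exact hl2
      have e2 := mul_le_mul_of_nonneg_left e1 (show 0 ≤ ε * W by positivity)
      calc ε ^ 3 * W = ε * W * ε ^ 2 := by ring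
        _ ≤ ε * W * (lam * (8192 * κ * (g + 2))) := e2
        _ = _ := by ring
    have h6 : ε ^ 3 * W = 2 ^ 28 * ((J:ℝ) + 1) := by
      rw [hW]; field_simp
    have h7 : 512 < (κ * yT) * (1 + κ * yT) := by
      have e1 : 2 ^ 19 * κ * (ε * lam / 64 * ((g + 2) * W)) < 2 ^ 19 * κ * (yT * (1 + κ * yT)) :=
        mul_lt_mul_of_pos_left h4 (by positivity)
      have e2 : (2:ℝ) ^ 28 ≤ 2 ^ 28 * ((J:ℝ) + 1) := by nlinarith only [hJ0]
      have e3 : 2 ^ 28 < 2 ^ 19 * ((κ * yT) * (1 + κ * yT)) := by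
        calc (2:ℝ) ^ 28 ≤ 2 ^ 28 * ((J:ℝ) + 1) := e2
          _ = ε ^ 3 * W := h6.symm
          _ ≤ _ := h5
          _ < _ := e1
          _ = _ := by ring
      norm_num at e3 ⊢
      linarith only [e3]
    have hX : 16 ≤ κ * yT := by
      by_contra hc
      push Not at hc
      have hk : 0 ≤ κ * yT := mul_nonneg hk0.le hyT0
      nlinarith only [h7, hc, hk]
    exact h.no_spread hti hg0 T hTne hUT H hH hHk J hJ hl7 hl6 W
      (by
        have : (0:ℝ) ≤ (J:ℝ) + 1 := by linarith only [hJ0]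
        linarith only [this, hW1]) hkl' hX
  obtain ⟨T', hT'T, hT'ne, hT'card, hT'per⟩ := hti.extract ε hε0
    (by
      have : ε ^ 2 ≤ ε := by nlinarith only [hε0, hε1]
      linarith only [this, hε0]) hε1 lam le_rfl (by linarith only [hl3]) hl5 T hTne hsmall
  refine ⟨T', hT'T.trans hTB, hT'ne, ?_, hT'per⟩
  have hsz := num_size κ g ε H lam J hk0 hg0 hε0 hε1 hΛ hJ hH0 hHk hlam0 hl1
  rw [← hW] at hsz
  have hB0 : (0:ℝ) ≤ B.card := Nat.cast_nonneg _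
  calc _ ≤ (Real.exp (-(ε * lam / 32)) / 8 *
        Real.exp (-((g + 2) * W / κ * Real.log (1 + κ * H)))) * (B.card : ℝ) :=
        mul_le_mul_of_nonneg_right hsz hB0
    _ = Real.exp (-(ε * lam / 32)) / 8 *
        (Real.exp (-((g + 2) * W / κ * Real.log (1 + κ * H))) * (B.card : ℝ)) := by ring
    _ ≤ Real.exp (-(ε * lam / 32)) / 8 * (T.card : ℝ) :=
        mul_le_mul_of_nonneg_left hTcard (by positivity)
    _ ≤ _ := hT'card

end Vale.Agent.P057.H57
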