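import Vale.Agent.P057.R2.h57.SiftC
import Vale.Agent.P057.R2.h57.KL2

set_option linter.all false

open Finset

namespace Vale.Agent.P057.H57

/-- numerical part of the contradiction -/
theorem num_spread (κ g a yT p δ W q : ℝ) (J : ℕ) (hk0 : 0 < κ) (hg0 : 0 ≤ g)
    (hka : 8 ≤ κ * a) (hya : yT ≤ 2 * a) (hX : 16 ≤ κ * yT)
    (hΛ : 24 * (g + 3) * ((J:ℝ) + 1) * κ ≤ 1) (hW : 2 ^ 15 * ((J:ℝ) + 1) ≤ W) (hp0 : 0 < p)
    (hp : yT ≤ 4 * ((J:ℝ) + 1) * a * p)
    (hδ : δ = yT * (1 + κ * yT) / ((g + 2) * W) / p)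
    (hq : a / (32 * (g + 3)) ≤ q) : 3 ≤ κ * a * q / 8 - 2 * δ := by
  have hJ0 : (0:ℝ) ≤ J := Nat.cast_nonneg _
  have ha0 : 0 < a := by
    by_contra hcon
    push Not at hcon
    have := mul_nonpos_of_nonneg_of_nonpos hk0.le hcon
    linarith only [this, hka]
  have hW0 : 0 < W := lt_of_lt_of_le (by positivity) hW
  have hg3 : 0 < g + 3 := by linarith
  have hg2 : 0 < g + 2 := by linarith
  -- δ
  have h1 : 2 * δ ≤ 17 * κ * a ^ 2 / (2 ^ 15 * (g + 2)) := by
    have e1 : 1 + κ * yT ≤ 17 / 8 * (κ * a) := by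
      have := mul_le_mul_of_nonneg_left hya hk0.le
      linarith
    have e2 : yT * (1 + κ * yT) ≤ (4 * ((J:ℝ) + 1) * a * p) * (17 / 8 * (κ * a)) := by
      apply mul_le_mul hp e1 (by linarith) (by positivity)
    have e3 : 2 * δ ≤ 2 * ((4 * ((J:ℝ) + 1) * a * p) * (17 / 8 * (κ * a)) / ((g + 2) * W) / p) := by
      rw [hδ]
      apply mul_le_mul_of_nonneg_left _ (by norm_num)
      apply div_le_div_of_nonneg_right _ hp0.le
      exact div_le_div_of_nonneg_right e2 (by positivity)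
    refine e3.trans ?_
    have e4 : 2 * ((4 * ((J:ℝ) + 1) * a * p) * (17 / 8 * (κ * a)) / ((g + 2) * W) / p)
        = 17 * κ * a ^ 2 / (g + 2) * (((J:ℝ) + 1) / W) := by
      have := hp0.ne'
      field_simp
      ring
    have e5 : ((J:ℝ) + 1) / W ≤ 1 / 2 ^ 15 := by
      rw [div_le_div_iff₀ hW0 (by positivity)]
      linarith
    rw [e4]
    calc 17 * κ * a ^ 2 / (g + 2) * (((J:ℝ) + 1) / W) ≤ 17 * κ * a ^ 2 / (g + 2) * (1 / 2 ^ 15) :=
          mul_le_mul_of_nonneg_left e5 (by positivity)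
      _ = _ := by field_simp
  have h2 : 17 * κ * a ^ 2 / (2 ^ 15 * (g + 2)) ≤ κ * a ^ 2 / (g + 3) * (1 / 1024) := by
    rw [div_mul_div_comm, div_le_div_iff₀ (by positivity) (by positivity)]
    have : 0 ≤ κ * a ^ 2 := by positivity
    nlinarith [mul_nonneg this hg0]
  have h3 : κ * a ^ 2 / (g + 3) * (1 / 256) ≤ κ * a * q / 8 := by
    have e1 : κ * a * (a / (32 * (g + 3))) / 8 ≤ κ * a * q / 8 := by
      apply div_le_div_of_nonneg_right _ (by norm_num)
      exact mul_le_mul_of_nonneg_left hq (by positivity)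
    refine (le_of_eq ?_).trans e1
    field_simp
    ring
  have h4 : 1536 ≤ κ * a ^ 2 / (g + 3) := by
    rw [le_div_iff₀ hg3]
    have e1 : 192 * (g + 3) ≤ a := by
      have e2 : 24 * (g + 3) * κ ≤ 1 := by
        refine le_trans ?_ hΛ
        have : 0 ≤ 24 * (g + 3) * κ * J := by positivity
        nlinarith only [this]
      have e3 : 8 * (24 * (g + 3) * κ) ≤ κ * a := by linarith
      have e4 : κ * (192 * (g + 3)) ≤ κ * a := by linarith
      exact le_of_mul_le_mul_left e4 hk0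
    have e5 : 8 * a ≤ κ * a * a := mul_le_mul_of_nonneg_right hka ha0.le
    nlinarith only [e1, e5]
  linarith

variable {G : Type*} [AddCommGroup G] [Fintype G] [DecidableEq G]

/-- a set of shifts with large mean log-sparsity has large relative entropy -/
theorem GTight.no_spread {f : G → ℝ} {U Y : Finset G} {t κ g η s : ℝ} (h : GTight f U Y t κ g)
    (hti : Tight f Y t η s g) (hg0 : 0 ≤ g) (T : Finset G) (hT : T.Nonempty)
    (hU : ∀ y ∈ Y, ∀ s ∈ T, y - s ∈ U) (H : ℝ) (hH : (U.card : ℝ) ≤ Real.exp H * (Y.card : ℝ))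
    (hHk : κ * H ≤ g + 3) (J : ℕ) (hJ : g + 3 ≤ 2 ^ J)
    (hΛ : 24 * (g + 3) * ((J:ℝ) + 1) * κ ≤ 1)
    (hconc : 3 * η + Real.exp (2 * g - s) * ((g + 3) * ((J:ℝ) + 1)) ≤ 1/8)
    (W : ℝ) (hW : 2 ^ 15 * ((J:ℝ) + 1) ≤ W)
    (hkl : kl Y T ≤ ylog Y T * (1 + κ * ylog Y T) / ((g + 2) * W) *
      ((T.card : ℝ) * (Y.card : ℝ) ^ 2))
    (hX : 16 ≤ κ * ylog Y T) : False := by
  have hY := h.ne
  have hk0 := h.k0
  have ht := h.tpos
  have h1 : (0:ℝ) < T.card := by exact_mod_cast hT.card_pos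
  have h2 : (0:ℝ) < Y.card := by exact_mod_cast hY.card_pos
  have hJ0 : (0:ℝ) ≤ J := Nat.cast_nonneg _
  set yT := ylog Y T with hyT
  have hg3 : 0 < g + 3 := by linarith
  have hyT0 : 0 < yT := by
    by_contra hcon
    push Not at hcon
    have := mul_nonpos_of_nonneg_of_nonpos hk0.le hcon
    linarith only [this, hX]
  have hyT1 : 384 * (g + 3) * ((J:ℝ) + 1) ≤ yT := by
    have e3 : 16 * (24 * (g + 3) * ((J:ℝ) + 1) * κ) ≤ κ * yT := by linarith
    have e4 : κ * (384 * (g + 3) * ((J:ℝ) + 1)) ≤ κ * yT := by linarith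
    exact le_of_mul_le_mul_left e4 hk0
  have hJ3 : 3 * ((J:ℝ) + 1) ≤ (g + 3) * ((J:ℝ) + 1) :=
    mul_le_mul_of_nonneg_right (by linarith) (by linarith)
  obtain ⟨a, ha1, ha2, ha3⟩ := exists_class Y T U hY hT hU H hH J (by nlinarith only [hyT1, hJ3, hJ0])
    (by
      have e1 : κ * (2 * H) ≤ κ * (2 ^ J * yT) := by
        have e2 : 2 ^ J * 16 ≤ 2 ^ J * (κ * yT) := mul_le_mul_of_nonneg_left hX (by positivity)
        have e3 : (0:ℝ) < 2 ^ J := by positivity
        nlinarith only [hHk, hJ, e2, e3]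
      exact le_of_mul_le_mul_left e1 hk0)
  rw [← hyT] at ha1 ha3
  -- the class
  set C : Finset G := univ.filter (fun z => cnt Y T z ≤ Real.exp (-a) * (T.card : ℝ)) with hC
  have hmemC : ∀ z, z ∈ C ↔ cnt Y T z ≤ Real.exp (-a) * (T.card : ℝ) := by
    intro z; rw [hC, Finset.mem_filter]; simp
  have hPi : ∑ s ∈ T, ∑ y ∈ Y, (if a ≤ Real.log ((T.card : ℝ) / cnt Y T (y - s)) then (1:ℝ) else 0)
      = nC Y T C := by
    unfold nC
    refine Finset.sum_congr rfl fun s hs => Finset.sum_congr rfl fun y hy => ?_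
    have hc := cnt_pos hs hy
    have hiff : a ≤ Real.log ((T.card : ℝ) / cnt Y T (y - s)) ↔ y - s ∈ C := by
      rw [hmemC, Real.le_log_iff_exp_le (div_pos h1 hc), le_div_iff₀ hc]
      constructor
      · intro h3
        have := mul_le_mul_of_nonneg_left h3 (Real.exp_pos (-a)).le
        rwa [← mul_assoc, ← Real.exp_add, neg_add_cancel, Real.exp_zero, one_mul] at this
      · intro h3
        have := mul_le_mul_of_nonneg_left h3 (Real.exp_pos a).le
        rwa [← mul_assoc, ← Real.exp_add, add_neg_cancel, Real.exp_zero, one_mul] at this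
    unfold ind
    simp only [hiff]
  rw [hPi] at ha3
  have ha0 : 0 < a := by linarith only [ha1, hyT0]
  have hTY : 0 < (T.card : ℝ) * (Y.card : ℝ) := by positivity
  have hnCpos : 0 < nC Y T C := by
    by_contra hcon
    push Not at hcon
    have e1 : 4 * ((J:ℝ) + 1) * a * nC Y T C ≤ 0 :=
      mul_nonpos_of_nonneg_of_nonpos (by positivity) hcon
    have e2 : 0 < yT * ((T.card : ℝ) * (Y.card : ℝ)) := by positivity
    linarith only [ha3, e1, e2]
  have hnCle : nC Y T C ≤ (T.card : ℝ) * (Y.card : ℝ) := by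
    unfold nC
    calc ∑ s ∈ T, ∑ y ∈ Y, ind C (y - s) ≤ ∑ s ∈ T, ∑ y ∈ Y, (1:ℝ) := by
          refine Finset.sum_le_sum fun s _ => Finset.sum_le_sum fun y _ => ?_
          rcases ind01 C (y - s) with h | h <;> rw [h] <;> norm_num
      _ = _ := by simp
  obtain ⟨p, hpdef⟩ : ∃ p : ℝ, p = nC Y T C / ((T.card : ℝ) * (Y.card : ℝ)) := ⟨_, rfl⟩
  have hnC : nC Y T C = p * ((T.card : ℝ) * (Y.card : ℝ)) := by
    rw [hpdef, div_mul_cancel₀ _ hTY.ne']
  have hp0 : 0 < p := by rw [hpdef]; exact div_pos hnCpos hTY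
  have hp1 : p ≤ 1 := by rw [hpdef, div_le_one hTY]; exact hnCle
  have hp : yT ≤ 4 * ((J:ℝ) + 1) * a * p := by
    rw [hnC] at ha3
    have e1 : yT * ((T.card : ℝ) * (Y.card : ℝ))
        ≤ (4 * ((J:ℝ) + 1) * a * p) * ((T.card : ℝ) * (Y.card : ℝ)) := by linarith only [ha3]
    exact le_of_mul_le_mul_right e1 hTY
  have hpinv : 1 / p ≤ 4 * ((J:ℝ) + 1) * a / yT := by
    rw [div_le_div_iff₀ hp0 hyT0]
    linarith only [hp]
  have hka : 8 ≤ κ * a := by
    have := mul_le_mul_of_nonneg_left ha1 hk0.le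
    linarith only [this, hX]
  -- κ H and κ a
  have hka2 : κ * a ≤ 2 * (g + 3) := by
    have := mul_le_mul_of_nonneg_left ha2 hk0.le
    linarith only [this, hHk]
  -- q
  set q : ℕ := ⌊a / (16 * (g + 3))⌋₊ with hq
  have hq1 : (q:ℝ) ≤ a / (16 * (g + 3)) := Nat.floor_le (by positivity)
  have haL : 192 * (g + 3) * ((J:ℝ) + 1) ≤ a := by linarith only [hyT1, ha1]
  have haL' : 192 * (g + 3) ≤ a := by
    refine le_trans ?_ haL
    have : 0 ≤ 192 * (g + 3) * (J:ℝ) := by positivity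
    nlinarith only [this]
  have hq2 : a / (32 * (g + 3)) ≤ (q:ℝ) := by
    have e1 := Nat.lt_floor_add_one (a / (16 * (g + 3)))
    rw [← hq] at e1
    have e2 : a / (32 * (g + 3)) = (a / (16 * (g + 3))) / 2 := by field_simp; norm_num
    have e3 : 2 ≤ a / (16 * (g + 3)) := by
      rw [le_div_iff₀ (by positivity)]; linarith only [haL', hg3]
    rw [e2]; linarith only [e1, e3]
  have hqp : 1 / p ≤ (q:ℝ) := by
    refine hpinv.trans (le_trans ?_ hq2)
    rw [div_le_div_iff₀ hyT0 (by positivity)]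
    have e1 : 128 * (g + 3) * ((J:ℝ) + 1) ≤ yT := by
      have : 0 ≤ (g + 3) * ((J:ℝ) + 1) := by positivity
      nlinarith only [this, hyT1]
    have := mul_le_mul_of_nonneg_left e1 ha0.le
    linarith only [this]
  obtain ⟨s1, hs1⟩ : ∃ s1 : ℝ, s1 = (g + 2 + κ * a / 2) * q := ⟨_, rfl⟩
  have hs1a : s1 + 1 ≤ a / 4 := by
    have e1 : s1 ≤ (2 * (g + 3)) * (a / (16 * (g + 3))) := by
      rw [hs1]
      apply mul_le_mul _ hq1 (Nat.cast_nonneg _) (by positivity)
      linarith only [hka2]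
    have e2 : (2 * (g + 3)) * (a / (16 * (g + 3))) = a / 8 := by field_simp; norm_num
    rw [e2] at e1
    linarith only [e1, haL', hg0]
  -- weights
  have hcntU : ∀ z, z ∉ U → cnt Y T z = 0 := by
    intro z hz
    have hemp : fib Y T z = ∅ := by
      rw [Finset.eq_empty_iff_forall_notMem]
      intro s hs
      unfold fib at hs
      rw [Finset.mem_filter] at hs
      apply hz
      have := hU _ hs.2 _ hs.1
      simpa using this
    unfold cnt; rw [hemp]; simp
  obtain ⟨w, hw⟩ : ∃ w : G → ℝ, ∀ z, w z = cnt Y T z / T.card := ⟨_, fun _ => rfl⟩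
  obtain ⟨wc, hwc⟩ : ∃ wc : G → ℝ, ∀ z, wc z = cnt Y T z / T.card * ind C z := ⟨_, fun _ => rfl⟩
  have hw0 : ∀ z, 0 ≤ w z := fun z => by rw [hw]; exact div_nonneg (cnt_nonneg _ _ _) h1.le
  have hw1 : ∀ z, w z ≤ ind U z := by
    intro z
    rw [hw]
    unfold ind
    split_ifs with hz
    · rw [div_le_one h1]; exact cnt_le _ _ _
    · rw [hcntU z hz]; simp
  have hwm : mass w = (Y.card : ℝ) := by
    unfold mass
    simp only [hw]
    rw [← Finset.sum_div]
    have := sum_cnt_mul Y T (fun _ => (1:ℝ))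
    simp only [mul_one, Finset.sum_const, nsmul_eq_mul] at this
    rw [this]
    exact mul_div_cancel_left₀ _ h1.ne'
  have hc0 : ∀ z, 0 ≤ wc z := fun z => by
    rw [hwc]; exact mul_nonneg (div_nonneg (cnt_nonneg _ _ _) h1.le) (ind_nonneg _ _)
  have hc1 : ∀ z, wc z ≤ Real.exp (-a) * ind U z := by
    intro z
    rw [hwc]
    by_cases hz : z ∈ U
    · by_cases hzC : z ∈ C
      · have e1 : ind U z = 1 := by unfold ind; rw [if_pos hz]
        have e2 : ind C z = 1 := by unfold ind; rw [if_pos hzC]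
        rw [e1, e2, mul_one, mul_one, div_le_iff₀ h1]
        exact (hmemC z).mp hzC
      · have e2 : ind C z = 0 := by unfold ind; rw [if_neg hzC]
        rw [e2, mul_zero]
        exact mul_nonneg (Real.exp_pos _).le (ind_nonneg _ _)
    · rw [hcntU z hz]
      simp only [zero_div, zero_mul]
      exact mul_nonneg (Real.exp_pos _).le (ind_nonneg _ _)
  have hcm : mass wc = p * (Y.card : ℝ) := by
    unfold mass
    have e1 : ∀ z, wc z = (cnt Y T z * ind C z) / T.card := by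
      intro z; rw [hwc]; ring
    simp only [e1]
    rw [← Finset.sum_div, ← nC_eq, hnC]
    have h1' := h1.ne'
    (clear * - h1'; field_simp)
  have hcount := h.class_count hg0 w wc a s1 p hw0 hw1 hwm hc0 hc1 hcm hp0 hp1 q hqp hs1 hs1a hka
  -- concentration
  set S : Finset G := univ.filter (fun z => t / 2 ≤ corr f z) with hS
  have hindS : ∀ z, ind S z = if t / 2 ≤ corr f z then (1:ℝ) else 0 := by
    intro z
    unfold ind
    rw [hS]
    simp only [Finset.mem_filter, Finset.mem_univ, true_and]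
  have hmom : mass (omg Y T C) = p * (Y.card : ℝ) := by
    rw [mass_omg, hnC]
    have h1' := h1.ne'
    (clear * - h1'; field_simp)
  have hcw := hti.conc_weight (omg Y T C) (omg_nonneg Y T C) (omg_le Y T C hT)
    (by rw [hmom]; exact mul_pos hp0 h2)
    (by
      rw [hmom]
      have e1 : (Y.card : ℝ) / (p * (Y.card : ℝ)) = 1 / p := by
        have h2' := h2.ne'
        (clear * - h2'; field_simp)
      rw [e1]
      refine le_trans ?_ hconc
      have e2 : 1 + 1 / p ≤ (g + 3) * ((J:ℝ) + 1) := by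
        have e3 : 4 * ((J:ℝ) + 1) * a / yT ≤ (g + 3) * ((J:ℝ) + 1) / 2 := by
          rw [div_le_div_iff₀ hyT0 (by norm_num)]
          have e4 : κ * (8 * a) ≤ κ * ((g + 3) * yT) := by
            have : 16 * (g + 3) ≤ (g + 3) * (κ * yT) := by
              have := mul_le_mul_of_nonneg_left hX hg3.le
              linarith only [this]
            linarith only [this, hka2]
          have e5 : 8 * a ≤ (g + 3) * yT := le_of_mul_le_mul_left e4 hk0
          have e6 := mul_le_mul_of_nonneg_left e5 (show (0:ℝ) ≤ (J:ℝ) + 1 by linarith only [hJ0])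
          linarith only [e6]
        linarith only [hpinv, e3, hJ3, hJ0]
      have e3 := mul_le_mul_of_nonneg_left e2 (Real.exp_pos (2 * g - s)).le
      linarith only [e3])
  simp only [← hindS] at hcw hcount
  rw [hmom, sum_omg] at hcw
  -- transfer
  obtain ⟨δ, hδ⟩ : ∃ δ : ℝ, δ = yT * (1 + κ * yT) / ((g + 2) * W) / p := ⟨_, rfl⟩
  have hW0 : 0 < W := lt_of_lt_of_le (by positivity) hW
  have hδ0 : 0 ≤ δ := by rw [hδ]; positivity
  have htr := klC_transfer Y T C S hY hT δ hδ0 hnCpos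
    (by
      rw [hnC, hδ]
      refine hkl.trans (le_of_eq ?_)
      have hp0' := hp0.ne'
      (clear * - hp0'; field_simp))
    (by
      rw [hnC]
      rw [le_div_iff₀ h1] at hcw
      refine le_trans (le_of_eq ?_) hcw
      ring)
  have hconv : ∑ z, ∑ z', cnt Y T z * cnt Y T z' * (ind S (z - z') * ind C z')
      = (T.card : ℝ) ^ 2 * ∑ z, ∑ z', w z * wc z' * ind S (z - z') := by
    rw [Finset.mul_sum]
    refine Finset.sum_congr rfl fun z _ => ?_
    rw [Finset.mul_sum]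
    refine Finset.sum_congr rfl fun z' _ => ?_
    rw [hw, hwc]
    have h1' := h1.ne'
    (clear * - h1'; field_simp)
  rw [hconv] at htr
  have h5 := mul_le_mul_of_nonneg_left hcount (sq_nonneg (T.card : ℝ))
  have h6 : Real.exp (-(2 * δ)) / 4 * (p * ((T.card : ℝ) ^ 2 * (Y.card : ℝ) ^ 2))
      ≤ 2 * Real.exp (-(κ * a * q / 8)) * (p * ((T.card : ℝ) ^ 2 * (Y.card : ℝ) ^ 2)) := by
    rw [hnC] at htr
    have := htr.trans h5
    linarith only [this]
  have h7 := le_of_mul_le_mul_right h6 (by (clear * - hp0 h1 h2; positivity))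
  have h8 := num_spread κ g a yT p δ W q J hk0 hg0 hka (by linarith only [ha1]) hX hΛ hW hp0 hp hδ hq2
  have h9 : Real.exp (-(κ * a * q / 8)) ≤ Real.exp (-(2 * δ)) * Real.exp (-3) := by
    rw [← Real.exp_add]
    exact Real.exp_le_exp.mpr (by linarith only [h8])
  have h10 : Real.exp (-3) < 1 / 8 := by
    rw [Real.exp_neg, inv_lt_comm₀ (Real.exp_pos _) (by norm_num)]
    have e1 : Real.exp 3 = Real.exp 1 ^ 3 := by rw [← Real.exp_nat_mul]; norm_num
    have e2 : (2.7:ℝ) ≤ Real.exp 1 := by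
      have := Real.exp_one_gt_d9; linarith only [this]
    have e3 : (2.7:ℝ) ^ 3 ≤ Real.exp 1 ^ 3 := pow_le_pow_left₀ (by norm_num) e2 3
    rw [e1]
    norm_num at e3 ⊢
    linarith only [e3]
  have h11 : Real.exp (-(2 * δ)) * Real.exp (-3) < Real.exp (-(2 * δ)) * (1 / 8) :=
    mul_lt_mul_of_pos_left h10 (Real.exp_pos _)
  linarith only [h7, h9, h11]

end Vale.Agent.P057.H57
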