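import Vale.Agent.P057.R2.h57.Extremal

set_option linter.all false

open Finset

namespace Vale.Agent.P057.H57

variable {G : Type*} [AddCommGroup G] [Fintype G] [DecidableEq G]

/-- extremal set for the doubly logarithmic potential -/
theorem exists_loglog (f : G → ℝ) (Y0 : Finset G) (hY0 : Y0.Nonempty) (N : ℝ) (hN : 0 < N)
    (hE : N * (Y0.card : ℝ) ^ 2 ≤ en f (ind Y0) (ind Y0)) (Λ : ℝ) (hΛ : 1 ≤ Λ) :
    ∃ Y ⊆ Y0, Y.Nonempty ∧ ∃ u : ℝ, 0 ≤ u ∧
      en f (ind Y) (ind Y) = (N * Real.exp u) * (Y.card : ℝ) ^ 2 ∧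
      en f (ind Y0) (ind Y0) ≤ (N * Real.exp u) * (Y0.card : ℝ) ^ 2 ∧
      Real.exp (-(Λ * Real.log (1 + u))) * (Y0.card : ℝ) ≤ (Y.card : ℝ) ∧
      ∀ Z ⊆ Y, Z.Nonempty → Real.exp (-Λ) * (Y.card : ℝ) ≤ (Z.card : ℝ) →
        en f (ind Z) (ind Z)
          ≤ (N * Real.exp u) * ((Y.card : ℝ) / (Z.card : ℝ)) ^ (2 * (1 + u) / Λ) * (Z.card : ℝ) ^ 2 := by
  classical
  obtain ⟨ll, hll⟩ : ∃ ll : Finset G → ℝ, ∀ Z, ll Z
      = Real.log (en f (ind Z) (ind Z) / (N * (Z.card : ℝ) ^ 2)) := ⟨_, fun _ => rfl⟩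
  obtain ⟨Y, hY, hmax⟩ := Finset.exists_max_image
    (Y0.powerset.filter (fun Z => Z.Nonempty ∧ N * (Z.card : ℝ) ^ 2 ≤ en f (ind Z) (ind Z)))
    (fun Z => Real.log (Z.card : ℝ) + Λ * Real.log (1 + ll Z))
    ⟨Y0, by rw [Finset.mem_filter, Finset.mem_powerset]; exact ⟨Finset.Subset.refl _, hY0, hE⟩⟩
  rw [Finset.mem_filter, Finset.mem_powerset] at hY
  obtain ⟨hYs, hYne, hYE⟩ := hY
  have hmax' : ∀ Z ⊆ Y0, Z.Nonempty → N * (Z.card : ℝ) ^ 2 ≤ en f (ind Z) (ind Z) →
      Real.log (Z.card : ℝ) + Λ * Real.log (1 + ll Z)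
        ≤ Real.log (Y.card : ℝ) + Λ * Real.log (1 + ll Y) := by
    intro Z h1 h2 h3
    exact hmax Z (by rw [Finset.mem_filter, Finset.mem_powerset]; exact ⟨h1, h2, h3⟩)
  have hexp : ∀ Z : Finset G, Z.Nonempty → N * (Z.card : ℝ) ^ 2 ≤ en f (ind Z) (ind Z) →
      en f (ind Z) (ind Z) = (N * Real.exp (ll Z)) * (Z.card : ℝ) ^ 2 ∧ 0 ≤ ll Z := by
    intro Z h1 h2
    have hz : (0:ℝ) < Z.card := by exact_mod_cast h1.card_pos
    have hp : 0 < N * (Z.card : ℝ) ^ 2 := by positivity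
    have he : 0 < en f (ind Z) (ind Z) := lt_of_lt_of_le hp h2
    constructor
    · rw [hll, Real.exp_log (div_pos he hp)]
      have hN' := hN.ne'
      have hz' := hz.ne'
      (clear * - hN' hz'; field_simp)
    · rw [hll]
      apply Real.log_nonneg
      rw [le_div_iff₀ hp, one_mul]; exact h2
  have hYc : (0:ℝ) < Y.card := by exact_mod_cast hYne.card_pos
  have hY0c : (0:ℝ) < Y0.card := by exact_mod_cast hY0.card_pos
  obtain ⟨hYen, hu0⟩ := hexp Y hYne hYE
  obtain ⟨hY0en, hu00⟩ := hexp Y0 hY0 hE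
  have hΛ0 : 0 < Λ := by linarith only [hΛ]
  have h0 := hmax' Y0 (Finset.Subset.refl _) hY0 hE
  have hcard : Real.log (Y.card : ℝ) ≤ Real.log (Y0.card : ℝ) :=
    Real.log_le_log hYc (by exact_mod_cast Finset.card_le_card hYs)
  refine ⟨Y, hYs, hYne, ll Y, hu0, hYen, ?_, ?_, ?_⟩
  · have h1 : Λ * Real.log (1 + ll Y0) ≤ Λ * Real.log (1 + ll Y) := by linarith only [h0, hcard]
    have h2 := le_of_mul_le_mul_left h1 hΛ0
    have h3 := (Real.log_le_log_iff (by linarith only [hu00]) (by linarith only [hu0])).mp h2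
    rw [hY0en]
    have h4 : Real.exp (ll Y0) ≤ Real.exp (ll Y) := Real.exp_le_exp.mpr (by linarith only [h3])
    exact mul_le_mul_of_nonneg_right (mul_le_mul_of_nonneg_left h4 hN.le) (sq_nonneg _)
  · have h1 : 0 ≤ Λ * Real.log (1 + ll Y0) :=
      mul_nonneg hΛ0.le (Real.log_nonneg (by linarith only [hu00]))
    have h2 : -(Λ * Real.log (1 + ll Y)) + Real.log (Y0.card : ℝ) ≤ Real.log (Y.card : ℝ) := by
      linarith only [h0, h1]
    have h3 := Real.exp_le_exp.mpr h2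
    rw [Real.exp_add, Real.exp_log hY0c, Real.exp_log hYc] at h3
    exact h3
  · intro Z hZY hZne hZc
    have hz : (0:ℝ) < Z.card := by exact_mod_cast hZne.card_pos
    have hzY : (Z.card : ℝ) ≤ Y.card := by exact_mod_cast Finset.card_le_card hZY
    have hratio : 1 ≤ (Y.card : ℝ) / Z.card := by rw [le_div_iff₀ hz, one_mul]; exact hzY
    have hκ0 : 0 ≤ 2 * (1 + ll Y) / Λ := by positivity
    by_cases hc : N * (Z.card : ℝ) ^ 2 ≤ en f (ind Z) (ind Z)
    · obtain ⟨hZen, hu'⟩ := hexp Z hZne hc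
      have h1 := hmax' Z (hZY.trans hYs) hZne hc
      set x0 := Real.log ((Y.card : ℝ) / Z.card) with hx0
      have hx0eq : x0 = Real.log (Y.card : ℝ) - Real.log (Z.card : ℝ) :=
        Real.log_div hYc.ne' hz.ne'
      have hx00 : 0 ≤ x0 := Real.log_nonneg hratio
      have hx0Λ : x0 ≤ Λ := by
        rw [hx0, Real.log_le_iff_le_exp (div_pos hYc hz), div_le_iff₀ hz]
        have h2 := mul_le_mul_of_nonneg_left hZc (Real.exp_pos Λ).le
        rwa [← mul_assoc, ← Real.exp_add, add_neg_cancel, Real.exp_zero, one_mul] at h2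
      set x := x0 / Λ with hx
      have hx1 : x ≤ 1 := by rw [hx, div_le_one hΛ0]; exact hx0Λ
      have hxn : 0 ≤ x := by positivity
      have h2 : Real.log (1 + ll Z) ≤ Real.log (1 + ll Y) + x := by
        have h3 : Λ * Real.log (1 + ll Z) ≤ Λ * (Real.log (1 + ll Y) + x) := by
          have : Λ * x = x0 := by rw [hx]; field_simp
          rw [mul_add, this]
          linarith only [h1, hx0eq]
        exact le_of_mul_le_mul_left h3 hΛ0
      have h3 : 1 + ll Z ≤ (1 + ll Y) * Real.exp x := by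
        have h4 := Real.exp_le_exp.mpr h2
        rwa [Real.exp_add, Real.exp_log (by linarith only [hu']),
          Real.exp_log (by linarith only [hu0])] at h4
      have h4 := exp_le_two x hxn hx1
      have h5 : ll Z ≤ ll Y + (2 * (1 + ll Y) / Λ) * x0 := by
        have h6 : (1 + ll Y) * Real.exp x ≤ (1 + ll Y) * (1 + 2 * x) :=
          mul_le_mul_of_nonneg_left h4 (by linarith only [hu0])
        have h7 : (2 * (1 + ll Y) / Λ) * x0 = (1 + ll Y) * (2 * x) := by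
          rw [hx]; ring
        linarith only [h3, h6, h7]
      rw [hZen]
      apply mul_le_mul_of_nonneg_right _ (sq_nonneg _)
      have h8 : ((Y.card : ℝ) / Z.card) ^ (2 * (1 + ll Y) / Λ)
          = Real.exp ((2 * (1 + ll Y) / Λ) * x0) := by
        rw [Real.rpow_def_of_pos (div_pos hYc hz), ← hx0, mul_comm]
      rw [h8, mul_assoc, ← Real.exp_add]
      exact mul_le_mul_of_nonneg_left (Real.exp_le_exp.mpr h5) hN.le
    · push Not at hc
      have h1 : 1 ≤ ((Y.card : ℝ) / Z.card) ^ (2 * (1 + ll Y) / Λ) := Real.one_le_rpow hratio hκ0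
      have h2 : N ≤ (N * Real.exp (ll Y)) * ((Y.card : ℝ) / Z.card) ^ (2 * (1 + ll Y) / Λ) := by
        have h3 : 1 ≤ Real.exp (ll Y) := Real.one_le_exp hu0
        calc N = N * 1 * 1 := by ring
          _ ≤ (N * Real.exp (ll Y)) * ((Y.card : ℝ) / Z.card) ^ (2 * (1 + ll Y) / Λ) := by
            apply mul_le_mul _ h1 (by norm_num) (by positivity)
            exact mul_le_mul_of_nonneg_left h3 hN.le
      exact hc.le.trans (mul_le_mul_of_nonneg_right h2 (sq_nonneg _))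

end Vale.Agent.P057.H57
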