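import Vale.Agent.P057.R2.h57.LocalB

set_option linter.all false

open Finset

namespace Vale.Agent.P057.H57

variable {G : Type*} [AddCommGroup G] [Fintype G] [DecidableEq G]

/-- the linear potential -/
noncomputable def pot (f : G → ℝ) (κ : ℝ) (Z : Finset G) : ℝ :=
  en f (ind Z) (ind Z) / (Z.card : ℝ) ^ 2 * (Z.card : ℝ) ^ κ

theorem en_le_of_pot (f : G → ℝ) (κ A : ℝ) (Y Z : Finset G) (hY : Y.Nonempty) (hZ : Z.Nonempty)
    (h : pot f κ Z ≤ A * (Y.card : ℝ) ^ κ) :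
    en f (ind Z) (ind Z) ≤ A * ((Y.card : ℝ) / (Z.card : ℝ)) ^ κ * (Z.card : ℝ) ^ 2 := by
  have hn : (0:ℝ) < Y.card := by exact_mod_cast hY.card_pos
  have hm : (0:ℝ) < Z.card := by exact_mod_cast hZ.card_pos
  unfold pot at h
  rw [Real.div_rpow hn.le hm.le]
  have hp : 0 < (Z.card : ℝ) ^ κ := Real.rpow_pos_of_pos hm _
  have h1 : en f (ind Z) (ind Z) / (Z.card : ℝ) ^ 2 ≤ A * (Y.card : ℝ) ^ κ / (Z.card : ℝ) ^ κ := by
    rw [le_div_iff₀ hp]; exact h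
  rw [div_le_iff₀ (by positivity)] at h1
  refine h1.trans (le_of_eq ?_)
  ring

theorem pot_le (f : G → ℝ) (hf0 : ∀ x, 0 ≤ f x) (hf1 : ∀ x, f x ≤ 1) (κ : ℝ) (hk0 : 0 ≤ κ)
    (V Z : Finset G) (hZV : Z ⊆ V) (hZ : Z.Nonempty) :
    pot f κ Z ≤ (∑ x, f x) * (V.card : ℝ) ^ κ := by
  have hm : (0:ℝ) < Z.card := by exact_mod_cast hZ.card_pos
  have hS : 0 ≤ ∑ x, f x := Finset.sum_nonneg fun _ _ => hf0 _
  unfold pot
  have h1 := en_le_sup f (ind Z) (ind Z) hf0 hf1 (ind_nonneg Z) (ind_nonneg Z)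
  rw [mass_ind] at h1
  have h2 : en f (ind Z) (ind Z) / (Z.card : ℝ) ^ 2 ≤ ∑ x, f x := by
    rw [div_le_iff₀ (by positivity)]
    refine h1.trans (le_of_eq ?_); ring
  have h3 : (Z.card : ℝ) ^ κ ≤ (V.card : ℝ) ^ κ :=
    Real.rpow_le_rpow hm.le (by exact_mod_cast Finset.card_le_card hZV) hk0
  exact mul_le_mul h2 h3 (Real.rpow_nonneg hm.le _) hS

/-- pigeonhole over nested sets gives a globally extremal set -/
theorem exists_gtight (f : G → ℝ) (hf0 : ∀ x, 0 ≤ f x) (hf1 : ∀ x, f x ≤ 1) (κ : ℝ) (hk0 : 0 < κ)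
    (hk1 : κ ≤ 1) (V : ℕ → Finset G) (hV : ∀ i, V i ⊆ V (i + 1)) (m : ℕ) (hm : 0 < m)
    (Y0 : Finset G) (hY0 : Y0.Nonempty) (hY0V : Y0 ⊆ V 0) (P0 g : ℝ) (hP0 : 0 < P0)
    (hpot : P0 ≤ pot f κ Y0) (hg : (∑ x, f x) * ((V m).card : ℝ) ^ κ ≤ Real.exp g * P0)
    (hgm : g ≤ κ * m) :
    ∃ i < m, ∃ Y ⊆ V i, ∃ t : ℝ, GTight f (V (i + 1)) Y t κ g ∧ P0 ≤ t * (Y.card : ℝ) ^ κ := by
  have hVmono : Monotone V := monotone_nat_of_le_succ hV
  have hY0Vi : ∀ i, Y0 ⊆ V i := fun i => hY0V.trans (hVmono (Nat.zero_le i))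
  have hmax : ∀ i, ∃ Z ⊆ V i, Z.Nonempty ∧ ∀ Z' ⊆ V i, Z'.Nonempty → pot f κ Z' ≤ pot f κ Z := by
    intro i
    obtain ⟨Z, hZ, hZm⟩ := Finset.exists_max_image ((V i).powerset.filter (fun Z => Z.Nonempty))
      (pot f κ) ⟨Y0, by rw [Finset.mem_filter, Finset.mem_powerset]; exact ⟨hY0Vi i, hY0⟩⟩
    rw [Finset.mem_filter, Finset.mem_powerset] at hZ
    refine ⟨Z, hZ.1, hZ.2, fun Z' h1 h2 => hZm Z' ?_⟩
    rw [Finset.mem_filter, Finset.mem_powerset]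
    exact ⟨h1, h2⟩
  choose Z hZV hZne hZmax using hmax
  have h0 : P0 ≤ pot f κ (Z 0) := hpot.trans (hZmax 0 Y0 hY0V hY0)
  -- pigeonhole
  obtain ⟨i, him, hi⟩ : ∃ i < m, pot f κ (Z (i + 1)) ≤ Real.exp κ * pot f κ (Z i) := by
    by_contra hno
    push Not at hno
    have hgrow : ∀ j ≤ m, Real.exp (κ * j) * P0 ≤ pot f κ (Z j) := by
      intro j
      induction j with
      | zero => intro _; simpa using h0
      | succ j ih =>
        intro hj
        have h1 := ih (by omega)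
        have h2 := hno j (by omega)
        have h3 := mul_le_mul_of_nonneg_left h1 (Real.exp_pos κ).le
        have h4 : Real.exp (κ * ((j + 1 : ℕ) : ℝ)) * P0 = Real.exp κ * (Real.exp (κ * j) * P0) := by
          rw [← mul_assoc, ← Real.exp_add]; congr 2; push_cast; ring
        rw [h4]; linarith only [h2, h3]
    obtain ⟨j, rfl⟩ : ∃ j, m = j + 1 := ⟨m - 1, by omega⟩
    have h1 := hgrow j (by omega)
    have h2 := hno j (by omega)
    have h3 := mul_le_mul_of_nonneg_left h1 (Real.exp_pos κ).le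
    have h4 : Real.exp (κ * ((j + 1 : ℕ) : ℝ)) * P0 = Real.exp κ * (Real.exp (κ * j) * P0) := by
      rw [← mul_assoc, ← Real.exp_add]; congr 2; push_cast; ring
    have h5 := pot_le f hf0 hf1 κ hk0.le (V (j + 1)) (Z (j + 1)) (hZV _) (hZne _)
    have h6 : Real.exp g * P0 ≤ Real.exp (κ * ((j + 1 : ℕ) : ℝ)) * P0 :=
      mul_le_mul_of_nonneg_right (Real.exp_le_exp.mpr hgm) hP0.le
    linarith only [h2, h3, h4, h5, h6, hg]
  have hYne := hZne i
  set Y := Z i with hY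
  have hn : (0:ℝ) < Y.card := by exact_mod_cast hYne.card_pos
  set t : ℝ := en f (ind Y) (ind Y) / (Y.card : ℝ) ^ 2 with ht
  have hen : en f (ind Y) (ind Y) = t * (Y.card : ℝ) ^ 2 := by
    rw [ht]; field_simp
  have hYk : 0 < (Y.card : ℝ) ^ κ := Real.rpow_pos_of_pos hn _
  have hpY : pot f κ Y = t * (Y.card : ℝ) ^ κ := by
    unfold pot; rw [ht]
  have hP0Y : P0 ≤ t * (Y.card : ℝ) ^ κ := by
    rw [← hpY]; exact hpot.trans (hZmax i Y0 (hY0Vi i) hY0)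
  have htp : 0 < t := by
    by_contra hcon
    push Not at hcon
    have := mul_nonpos_of_nonpos_of_nonneg hcon hYk.le
    linarith only [this, hP0Y, hP0]
  refine ⟨i, him, Y, hZV i, t, ?_, hP0Y⟩
  refine ⟨hYne, (hZV i).trans (hV i), hf0, hf1, htp, hk0, hk1, ?_, hen, ?_, ?_⟩
  · -- sup
    have hVm : (0:ℝ) < (V m).card := by
      have : (V m).Nonempty := hY0.mono (hY0Vi m)
      exact_mod_cast this.card_pos
    have hVk : 0 < ((V m).card : ℝ) ^ κ := Real.rpow_pos_of_pos hVm _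
    have h1 : (Y.card : ℝ) ^ κ ≤ ((V m).card : ℝ) ^ κ := by
      apply Real.rpow_le_rpow hn.le _ hk0.le
      exact_mod_cast Finset.card_le_card ((hZV i).trans (hVmono him.le))
    have h2 : P0 ≤ t * ((V m).card : ℝ) ^ κ := hP0Y.trans (mul_le_mul_of_nonneg_left h1 htp.le)
    have h3 : (∑ x, f x) * ((V m).card : ℝ) ^ κ ≤ (Real.exp g * t) * ((V m).card : ℝ) ^ κ := by
      have := mul_le_mul_of_nonneg_left h2 (Real.exp_pos g).le
      linarith only [this, hg]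
    exact le_of_mul_le_mul_right h3 hVk
  · intro W hW hWne
    apply en_le_of_pot f κ t Y W hYne hWne
    rw [← hpY]
    exact hZmax i W (hW.trans (hZV i)) hWne
  · intro W hW hWne
    apply en_le_of_pot f κ (Real.exp κ * t) Y W hYne hWne
    rw [mul_assoc, ← hpY]
    exact (hZmax (i + 1) W hW hWne).trans hi

end Vale.Agent.P057.H57
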