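import Vale.Agent.P057.R2.h57.Core

set_option linter.all false

open Finset

namespace Vale.Agent.P057.H57

variable {G : Type*} [AddCommGroup G] [Fintype G] [DecidableEq G]

theorem ind_nonneg (Y : Finset G) (z : G) : 0 ≤ ind Y z := by
  unfold ind; split_ifs <;> norm_num

theorem Tight.sup_ge {f : G → ℝ} {Y : Finset G} {t η s g : ℝ} (h : Tight f Y t η s g) :
    t ≤ ∑ x, f x := by
  have hn : (0:ℝ) < Y.card := by exact_mod_cast h.ne.card_pos
  have h1 := en_le_sup f (ind Y) (ind Y) h.f0 h.f1 (ind_nonneg Y) (ind_nonneg Y)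
  rw [h.eng, mass_ind] at h1
  have h2 : t * (Y.card : ℝ) ^ 2 ≤ (∑ x, f x) * (Y.card : ℝ) ^ 2 := by
    refine h1.trans (le_of_eq ?_); ring
  exact le_of_mul_le_mul_right h2 (by positivity)

theorem Tight.second_moment {f : G → ℝ} {Y : Finset G} {t η s g : ℝ} (h : Tight f Y t η s g) :
    mom f (ind Y) (ind Y) 2 ≤ (Real.exp η + Real.exp (2 * g - s)) * (t ^ 2 * (Y.card : ℝ) ^ 2) := by
  have hn : (0:ℝ) < Y.card := by exact_mod_cast h.ne.card_pos
  have hS := h.sup_ge
  have hS0 : 0 ≤ ∑ x, f x := h.tpos.le.trans hS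
  rw [← sum_en_sw f (ind Y) (ind Y) 1]
  have hpt : ∀ x : Fin 1 → G, en f (sw f (ind Y) x) (sw f (ind Y) x)
      ≤ Real.exp η * t * (mass (sw f (ind Y) x) * mass (sw f (ind Y) x))
        + (∑ x, f x) * (Real.exp (-s) * (Y.card : ℝ)) * mass (sw f (ind Y) x) := by
    intro x
    have hw0 := sw_nonneg f (ind Y) x h.f0 (ind_nonneg Y)
    have hw1 := sw_le f (ind Y) x h.f0 h.f1 (ind_nonneg Y)
    have hm0 := mass_nonneg _ hw0
    by_cases hc : Real.exp (-s) * (Y.card : ℝ) ≤ mass (sw f (ind Y) x)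
    · have h1 := h.tight _ hw0 hw1 hc
      have h2 : 0 ≤ (∑ x, f x) * (Real.exp (-s) * (Y.card : ℝ)) * mass (sw f (ind Y) x) := by
        positivity
      rw [sq] at h1
      linarith only [h1, h2]
    · push Not at hc
      have h1 := en_le_sup f _ _ h.f0 h.f1 hw0 hw0
      have h2 : (∑ x, f x) * (mass (sw f (ind Y) x) * mass (sw f (ind Y) x))
          ≤ (∑ x, f x) * ((Real.exp (-s) * (Y.card : ℝ)) * mass (sw f (ind Y) x)) :=
        mul_le_mul_of_nonneg_left (mul_le_mul_of_nonneg_right hc.le hm0) hS0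
      have h3 : 0 ≤ Real.exp η * t * (mass (sw f (ind Y) x) * mass (sw f (ind Y) x)) := by
        have := h.tpos
        positivity
      linarith only [h1, h2, h3]
  refine (Finset.sum_le_sum fun x _ => hpt x).trans ?_
  rw [Finset.sum_add_distrib, ← Finset.mul_sum, ← Finset.mul_sum, sum_mass_mul_sw, sum_mass_sw,
    ← en_eq_mom, h.eng, mass_ind, pow_one]
  have h4 : (∑ x, f x) * (∑ x, f x) ≤ (Real.exp g * t) * (Real.exp g * t) :=
    mul_le_mul h.sup h.sup hS0 (by have := h.tpos; positivity)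
  have h5 : Real.exp (2 * g - s) = Real.exp g * Real.exp g * Real.exp (-s) := by
    rw [← Real.exp_add, ← Real.exp_add]; congr 1; ring
  rw [h5]
  have h6 := mul_le_mul_of_nonneg_right h4 (show 0 ≤ Real.exp (-s) * (Y.card : ℝ) ^ 2 by positivity)
  nlinarith only [h6]

theorem Tight.concentration {f : G → ℝ} {Y : Finset G} {t η s g : ℝ} (h : Tight f Y t η s g)
    (v : ℝ) (hv0 : 0 < v) (hv : 2 * η + Real.exp (2 * g - s) ≤ v ^ 2 / 2) :
    (1/2) * (Y.card : ℝ) ^ 2
      ≤ ∑ y ∈ Y, ∑ y' ∈ Y, if (1 - v) * t ≤ corr f (y - y') then (1:ℝ) else 0 := by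
  have hn : (0:ℝ) < Y.card := by exact_mod_cast h.ne.card_pos
  have ht := h.tpos
  have hM2 := h.second_moment
  have hM1 := h.eng
  rw [en_eq_mom] at hM1
  rw [mom_ind_ind] at hM1 hM2
  simp only [pow_one] at hM1
  have hpt : ∀ y ∈ Y, ∀ y' ∈ Y, v ^ 2 * t ^ 2 *
      (1 - (if (1 - v) * t ≤ corr f (y - y') then (1:ℝ) else 0))
      ≤ corr f (y - y') ^ 2 - 2 * t * corr f (y - y') + t ^ 2 := by
    intro y _ y' _
    split_ifs with hc
    · nlinarith only [sq_nonneg (corr f (y - y') - t)]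
    · push Not at hc
      have h1 : 0 < v * t := mul_pos hv0 ht
      have h2 : v * t ≤ t - corr f (y - y') := by linarith only [hc]
      have h3 := mul_self_le_mul_self h1.le h2
      nlinarith only [h3]
  have hsum := Finset.sum_le_sum fun y hy => Finset.sum_le_sum fun y' hy' => hpt y hy y' hy'
  simp only [← Finset.mul_sum, Finset.sum_sub_distrib, Finset.sum_add_distrib, Finset.sum_const,
    nsmul_eq_mul, mul_one] at hsum
  generalize (∑ y ∈ Y, ∑ y' ∈ Y, if (1 - v) * t ≤ corr f (y - y') then (1:ℝ) else 0) = B at hsum ⊢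
  have h6 := mul_le_mul_of_nonneg_right (exp_le_two η h.eta0 h.eta1)
    (show 0 ≤ t ^ 2 * (Y.card : ℝ) ^ 2 by positivity)
  have h7 := mul_le_mul_of_nonneg_right hv (show 0 ≤ t ^ 2 * (Y.card : ℝ) ^ 2 by positivity)
  rw [hM1] at hsum
  have h8 : v ^ 2 * t ^ 2 * ((Y.card : ℝ) * (Y.card : ℝ) - B)
      ≤ v ^ 2 * t ^ 2 * ((1/2) * (Y.card : ℝ) ^ 2) := by
    nlinarith only [hsum, hM2, h6, h7]
  have h9 := le_of_mul_le_mul_left h8 (by positivity)
  nlinarith only [h9]

/-- one step of the sifting recursion -/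
theorem Tight.mom_step {f : G → ℝ} {Y : Finset G} {t η s g : ℝ} (h : Tight f Y t η s g)
    (r : G) (ε : ℝ) (hε : 72 * η ≤ ε)
    (hP : en f (ind Y) (trn (ind Y) r) < (1 - ε) * t * (Y.card : ℝ) ^ 2) (q : ℕ) (hε1 : ε ≤ 1) :
    mom f (ind Y) (trn (ind Y) r) (q + 1)
      ≤ (1 - ε/4) * t * mom f (ind Y) (trn (ind Y) r) q
        + 2 * Real.exp (-s) * (∑ x, f x) ^ (q + 1) * (Y.card : ℝ) ^ 2 := by
  have hn : (0:ℝ) < Y.card := by exact_mod_cast h.ne.card_pos
  have hS := h.sup_ge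
  have ht := h.tpos
  have hS0 : 0 ≤ ∑ x, f x := h.tpos.le.trans hS
  rw [← sum_en_sw f (ind Y) (trn (ind Y) r) q]
  have hpt : ∀ x : Fin q → G, en f (sw f (ind Y) x) (sw f (trn (ind Y) r) x)
      ≤ (1 - ε/4) * t * (mass (sw f (ind Y) x) * mass (sw f (trn (ind Y) r) x))
        + (∑ x, f x) * (Real.exp (-s) * (Y.card : ℝ)) *
          (mass (sw f (ind Y) x) + mass (sw f (trn (ind Y) r) x)) := by
    intro x
    have htr0 : ∀ z, 0 ≤ trn (ind Y) r z := fun z => ind_nonneg Y _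
    have hw0 := sw_nonneg f (ind Y) x h.f0 (ind_nonneg Y)
    have hw1 := sw_le f (ind Y) x h.f0 h.f1 (ind_nonneg Y)
    have hv0 := sw_nonneg f (ind Y) (fun i => x i + r) h.f0 (ind_nonneg Y)
    have hv1 := sw_le f (ind Y) (fun i => x i + r) h.f0 h.f1 (ind_nonneg Y)
    have hW0 := sw_nonneg f (trn (ind Y) r) x h.f0 htr0
    have hm0 := mass_nonneg _ hw0
    have hM0 := mass_nonneg _ hW0
    have hc1 : 0 ≤ (1 - ε/4) * t * (mass (sw f (ind Y) x) * mass (sw f (trn (ind Y) r) x)) := by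
      have : 0 ≤ 1 - ε/4 := by linarith only [hε1]
      positivity
    have hsup := en_le_sup f _ _ h.f0 h.f1 hw0 hW0
    by_cases hc : Real.exp (-s) * (Y.card : ℝ) ≤ mass (sw f (ind Y) x)
    · by_cases hc' : Real.exp (-s) * (Y.card : ℝ) ≤ mass (sw f (trn (ind Y) r) x)
      · have hc2 : 0 ≤ (∑ x, f x) * (Real.exp (-s) * (Y.card : ℝ)) *
          (mass (sw f (ind Y) x) + mass (sw f (trn (ind Y) r) x)) := by positivity
        by_contra hcon
        push Not at hcon
        have hcon2 : (1 - ε/4) * t * (mass (sw f (ind Y) x) * mass (sw f (trn (ind Y) r) x))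
            ≤ en f (sw f (ind Y) x) (sw f (trn (ind Y) r) x) := by linarith only [hcon, hc2]
        rw [sw_trn] at hcon2 hc'
        rw [mass_trn] at hcon2 hc'
        have hg := h.geometry _ _ r hw0 hw1 hc hv0 hv1 hc' (ε/4) hcon2
        have h1 : (1 - ε) * t * (Y.card : ℝ) ^ 2 ≤ (1 - (18 * η + 3 * (ε/4))) * t * (Y.card : ℝ) ^ 2 := by
          apply mul_le_mul_of_nonneg_right _ (by positivity)
          apply mul_le_mul_of_nonneg_right _ ht.le
          linarith only [hε]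
        linarith only [hg, h1, hP]
      · push Not at hc'
        have h2 : (∑ x, f x) * (mass (sw f (ind Y) x) * mass (sw f (trn (ind Y) r) x))
            ≤ (∑ x, f x) * (mass (sw f (ind Y) x) * (Real.exp (-s) * (Y.card : ℝ))) :=
          mul_le_mul_of_nonneg_left (mul_le_mul_of_nonneg_left hc'.le hm0) hS0
        have h3 : 0 ≤ (∑ x, f x) * (Real.exp (-s) * (Y.card : ℝ)) * mass (sw f (trn (ind Y) r) x) := by
          positivity
        linarith only [hsup, h2, h3, hc1]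
    · push Not at hc
      have h2 : (∑ x, f x) * (mass (sw f (ind Y) x) * mass (sw f (trn (ind Y) r) x))
          ≤ (∑ x, f x) * ((Real.exp (-s) * (Y.card : ℝ)) * mass (sw f (trn (ind Y) r) x)) :=
        mul_le_mul_of_nonneg_left (mul_le_mul_of_nonneg_right hc.le hM0) hS0
      have h3 : 0 ≤ (∑ x, f x) * (Real.exp (-s) * (Y.card : ℝ)) * mass (sw f (ind Y) x) := by
        positivity
      linarith only [hsup, h2, h3, hc1]
  refine (Finset.sum_le_sum fun x _ => hpt x).trans (le_of_eq ?_)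
  rw [Finset.sum_add_distrib, ← Finset.mul_sum, ← Finset.mul_sum, Finset.sum_add_distrib,
    sum_mass_mul_sw, sum_mass_sw, sum_mass_sw, mass_trn, mass_ind]
  ring

theorem Tight.mom_bound {f : G → ℝ} {Y : Finset G} {t η s g : ℝ} (h : Tight f Y t η s g)
    (r : G) (ε : ℝ) (hε : 72 * η ≤ ε) (hε1 : ε ≤ 1)
    (hP : en f (ind Y) (trn (ind Y) r) < (1 - ε) * t * (Y.card : ℝ) ^ 2) (q : ℕ) :
    mom f (ind Y) (trn (ind Y) r) q
      ≤ ((1 - ε/4) * t) ^ q * (Y.card : ℝ) ^ 2
        + 2 * q * Real.exp (-s) * (∑ x, f x) ^ q * (Y.card : ℝ) ^ 2 := by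
  have hn : (0:ℝ) < Y.card := by exact_mod_cast h.ne.card_pos
  have hS := h.sup_ge
  have ht := h.tpos
  have hS0 : 0 ≤ ∑ x, f x := h.tpos.le.trans hS
  have hε0 : 0 ≤ ε := by linarith only [hε, h.eta0]
  induction q with
  | zero =>
    simp only [pow_zero, one_mul, CharP.cast_eq_zero, mul_zero, zero_mul, add_zero]
    have : mom f (ind Y) (trn (ind Y) r) 0 = (Y.card : ℝ) ^ 2 := by
      rw [mom_ind_trn]; simp [sq]
    rw [this]
  | succ q ih =>
    have h1 := h.mom_step r ε hε hP q hε1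
    have h2 : 0 ≤ (1 - ε/4) * t := mul_nonneg (by linarith only [hε1]) ht.le
    have h3 := mul_le_mul_of_nonneg_left ih h2
    have h4 : (1 - ε/4) * t ≤ ∑ x, f x := by
      have : (1 - ε/4) * t ≤ 1 * t := mul_le_mul_of_nonneg_right (by linarith only [hε0]) ht.le
      linarith only [this, hS]
    have h5 : (1 - ε/4) * t * (2 * q * Real.exp (-s) * (∑ x, f x) ^ q * (Y.card : ℝ) ^ 2)
        ≤ (∑ x, f x) * (2 * q * Real.exp (-s) * (∑ x, f x) ^ q * (Y.card : ℝ) ^ 2) :=
      mul_le_mul_of_nonneg_right h4 (by positivity)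
    push_cast
    have e1 : ((1 - ε/4) * t) ^ (q + 1) = (1 - ε/4) * t * ((1 - ε/4) * t) ^ q := by ring
    have e2 : (∑ x, f x) ^ (q + 1) = (∑ x, f x) * (∑ x, f x) ^ q := by ring
    rw [e1, e2]
    rw [e2] at h1
    nlinarith only [h1, h3, h5]

end Vale.Agent.P057.H57
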