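import Vale.Agent.P057.R2.h57.Conc
import Vale.Agent.P057.R2.h57.Extract

set_option linter.all false

open Finset

namespace Vale.Agent.P057.H57

variable {G : Type*} [AddCommGroup G] [Fintype G] [DecidableEq G]

theorem GTight.sup_ge {f : G → ℝ} {U Y : Finset G} {t κ g : ℝ} (h : GTight f U Y t κ g) :
    t ≤ ∑ x, f x := by
  have hn : (0:ℝ) < Y.card := by exact_mod_cast h.ne.card_pos
  have h1 := en_le_sup f (ind Y) (ind Y) h.f0 h.f1 (ind_nonneg Y) (ind_nonneg Y)
  rw [h.eng, mass_ind] at h1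
  have h2 : t * (Y.card : ℝ) ^ 2 ≤ (∑ x, f x) * (Y.card : ℝ) ^ 2 := by
    refine h1.trans (le_of_eq ?_); ring
  exact le_of_mul_le_mul_right h2 (by positivity)

/-- moments against a spread weight -/
theorem GTight.mom_class {f : G → ℝ} {U Y : Finset G} {t κ g : ℝ} (h : GTight f U Y t κ g)
    (w wc : G → ℝ) (a s1 : ℝ) (hw0 : ∀ z, 0 ≤ w z) (hw1 : ∀ z, w z ≤ ind U z)
    (hwm : mass w = (Y.card : ℝ)) (hc0 : ∀ z, 0 ≤ wc z)
    (hc1 : ∀ z, wc z ≤ Real.exp (-a) * ind U z) (hcm : mass wc ≤ (Y.card : ℝ))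
    (hθ : 1 + s1 ≤ a / 2) (q : ℕ) :
    mom f w wc q ≤ (Real.exp (κ * (1 + s1 - a / 2)) * t) ^ q * ((Y.card : ℝ) * mass wc)
      + q * (∑ x, f x) ^ q * (Real.exp (-s1) * (Y.card : ℝ) * (2 * (Y.card : ℝ))) := by
  have hn : (0:ℝ) < Y.card := by exact_mod_cast h.ne.card_pos
  have ht := h.tpos
  have hk0 := h.k0
  have hS := h.sup_ge
  have hS0 : 0 ≤ ∑ x, f x := h.tpos.le.trans hS
  set θ : ℝ := Real.exp (κ * (1 + s1 - a / 2)) with hθd
  have hθ0 : 0 < θ := Real.exp_pos _
  have hθ1 : θ ≤ 1 := by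
    rw [hθd, Real.exp_le_one_iff]
    exact mul_nonpos_of_nonneg_of_nonpos hk0.le (by linarith only [hθ])
  have hcm0 := mass_nonneg wc hc0
  induction q with
  | zero =>
    simp only [pow_zero, one_mul, CharP.cast_eq_zero, zero_mul, add_zero]
    have : mom f w wc 0 = mass w * mass wc := by
      unfold mom mass
      simp only [pow_zero, mul_one, Finset.sum_mul_sum]
    rw [this, hwm]
  | succ q ih =>
    have hstep : mom f w wc (q + 1) ≤ θ * t * mom f w wc q
        + (∑ x, f x) ^ (q + 1) * (Real.exp (-s1) * (Y.card : ℝ) * (2 * (Y.card : ℝ))) := by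
      rw [← sum_en_sw f w wc q]
      have hpt : ∀ x : Fin q → G, en f (sw f w x) (sw f wc x)
          ≤ θ * t * (mass (sw f w x) * mass (sw f wc x))
            + (∑ x, f x) * (Real.exp (-s1) * (Y.card : ℝ)) *
              (mass (sw f w x) + mass (sw f wc x)) := by
        intro x
        have hw0' := sw_nonneg f w x h.f0 hw0
        have hw1' : ∀ z, sw f w x z ≤ ind U z := fun z => (sw_le f w x h.f0 h.f1 hw0 z).trans (hw1 z)
        have hv0' := sw_nonneg f wc x h.f0 hc0
        have hv1' : ∀ z, sw f wc x z ≤ Real.exp (-a) * ind U z :=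
          fun z => (sw_le f wc x h.f0 h.f1 hc0 z).trans (hc1 z)
        have hm1 := mass_nonneg _ hw0'
        have hm2 := mass_nonneg _ hv0'
        have hsup := en_le_sup f _ _ h.f0 h.f1 hw0' hv0'
        have hc1' : 0 ≤ θ * t * (mass (sw f w x) * mass (sw f wc x)) := by positivity
        by_cases hc : Real.exp (-s1) * (Y.card : ℝ) ≤ mass (sw f w x)
        · by_cases hc' : Real.exp (-s1) * (Y.card : ℝ) ≤ mass (sw f wc x)
          · have e1 := h.scaled (sw f w x) 1 s1 one_pos hw0' (fun z => by rw [one_mul]; exact hw1' z)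
              (by
                rw [one_mul]
                have := mul_le_mul_of_nonneg_left hc (Real.exp_pos s1).le
                rwa [← mul_assoc, ← Real.exp_add, add_neg_cancel, Real.exp_zero, one_mul] at this)
            have e2 := h.scaled (sw f wc x) (Real.exp (-a)) (s1 - a) (Real.exp_pos _) hv0' hv1'
              (by
                have := mul_le_mul_of_nonneg_left hc' (Real.exp_pos (s1 - a)).le
                rw [← mul_assoc, ← Real.exp_add] at this
                have e : s1 - a + -s1 = -a := by ring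
                rwa [e] at this)
            have e3 := en_le_nrm f (sw f w x) (sw f wc x)
            have e4 : nrm f (sw f w x) * nrm f (sw f wc x)
                ≤ θ * t * (mass (sw f w x) * mass (sw f wc x)) := by
              calc nrm f (sw f w x) * nrm f (sw f wc x)
                  ≤ (Real.sqrt t * Real.exp (κ * (1 + s1) / 2) * mass (sw f w x)) *
                    (Real.sqrt t * Real.exp (κ * (1 + (s1 - a)) / 2) * mass (sw f wc x)) :=
                    mul_le_mul e1 e2 (nrm_nonneg _ _) (by positivity)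
                _ = (Real.sqrt t * Real.sqrt t) * (Real.exp (κ * (1 + s1) / 2) *
                    Real.exp (κ * (1 + (s1 - a)) / 2)) * (mass (sw f w x) * mass (sw f wc x)) := by ring
                _ = t * θ * (mass (sw f w x) * mass (sw f wc x)) := by
                    rw [Real.mul_self_sqrt ht.le, ← Real.exp_add, hθd]
                    congr 3
                    ring
                _ = _ := by ring
            have hc2 : 0 ≤ (∑ x, f x) * (Real.exp (-s1) * (Y.card : ℝ)) *
              (mass (sw f w x) + mass (sw f wc x)) := by positivity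
            linarith only [e3, e4, hc2]
          · push Not at hc'
            have h2 : (∑ x, f x) * (mass (sw f w x) * mass (sw f wc x))
                ≤ (∑ x, f x) * (mass (sw f w x) * (Real.exp (-s1) * (Y.card : ℝ))) :=
              mul_le_mul_of_nonneg_left (mul_le_mul_of_nonneg_left hc'.le hm1) hS0
            have h3 : 0 ≤ (∑ x, f x) * (Real.exp (-s1) * (Y.card : ℝ)) * mass (sw f wc x) := by
              positivity
            linarith only [hsup, h2, h3, hc1']
        · push Not at hc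
          have h2 : (∑ x, f x) * (mass (sw f w x) * mass (sw f wc x))
              ≤ (∑ x, f x) * ((Real.exp (-s1) * (Y.card : ℝ)) * mass (sw f wc x)) :=
            mul_le_mul_of_nonneg_left (mul_le_mul_of_nonneg_right hc.le hm2) hS0
          have h3 : 0 ≤ (∑ x, f x) * (Real.exp (-s1) * (Y.card : ℝ)) * mass (sw f w x) := by
            positivity
          linarith only [hsup, h2, h3, hc1']
      refine (Finset.sum_le_sum fun x _ => hpt x).trans ?_
      rw [Finset.sum_add_distrib, ← Finset.mul_sum, ← Finset.mul_sum, Finset.sum_add_distrib,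
        sum_mass_mul_sw, sum_mass_sw, sum_mass_sw, hwm]
      have h6 : mass wc * (∑ x, f x) ^ q ≤ (Y.card : ℝ) * (∑ x, f x) ^ q :=
        mul_le_mul_of_nonneg_right hcm (by positivity)
      have h7 := mul_le_mul_of_nonneg_left h6
        (show 0 ≤ (∑ x, f x) * (Real.exp (-s1) * (Y.card : ℝ)) by positivity)
      have e : (∑ x, f x) ^ (q + 1) = (∑ x, f x) * (∑ x, f x) ^ q := by ring
      rw [e]
      linarith only [h7]
    have h2 : 0 ≤ θ * t := by positivity
    have h3 := mul_le_mul_of_nonneg_left ih h2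
    have h4 : θ * t ≤ ∑ x, f x := by
      have : θ * t ≤ 1 * t := mul_le_mul_of_nonneg_right hθ1 ht.le
      linarith only [this, hS]
    have h5 : θ * t * (q * (∑ x, f x) ^ q * (Real.exp (-s1) * (Y.card : ℝ) * (2 * (Y.card : ℝ))))
        ≤ (∑ x, f x) * (q * (∑ x, f x) ^ q * (Real.exp (-s1) * (Y.card : ℝ) * (2 * (Y.card : ℝ)))) :=
      mul_le_mul_of_nonneg_right h4 (by positivity)
    push_cast
    have e1 : (θ * t) ^ (q + 1) = θ * t * (θ * t) ^ q := by ring
    have e2 : (∑ x, f x) ^ (q + 1) = (∑ x, f x) * (∑ x, f x) ^ q := by ring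
    rw [e1, e2]
    rw [e2] at hstep
    nlinarith only [hstep, h3, h5]

/-- few pairs with large correlation against a spread weight -/
theorem GTight.class_count {f : G → ℝ} {U Y : Finset G} {t κ g : ℝ} (h : GTight f U Y t κ g)
    (hg0 : 0 ≤ g) (w wc : G → ℝ) (a s1 p : ℝ) (hw0 : ∀ z, 0 ≤ w z) (hw1 : ∀ z, w z ≤ ind U z)
    (hwm : mass w = (Y.card : ℝ)) (hc0 : ∀ z, 0 ≤ wc z)
    (hc1 : ∀ z, wc z ≤ Real.exp (-a) * ind U z) (hcm : mass wc = p * (Y.card : ℝ))
    (hp0 : 0 < p) (hp1 : p ≤ 1) (q : ℕ) (hq : 1 / p ≤ (q:ℝ))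
    (hs1 : s1 = (g + 2 + κ * a / 2) * q) (ha : s1 + 1 ≤ a / 4) (hka : 8 ≤ κ * a) :
    ∑ z, ∑ z', w z * wc z' * (if t / 2 ≤ corr f (z - z') then (1:ℝ) else 0)
      ≤ 2 * Real.exp (-(κ * a * q / 8)) * (p * (Y.card : ℝ) ^ 2) := by
  have hn : (0:ℝ) < Y.card := by exact_mod_cast h.ne.card_pos
  have ht := h.tpos
  have hk0 := h.k0
  have hS0 : 0 ≤ ∑ x, f x := h.tpos.le.trans h.sup_ge
  have hq0 : (0:ℝ) ≤ q := Nat.cast_nonneg _
  have ha0 : 0 < a := by
    by_contra hcon
    push Not at hcon
    have := mul_nonpos_of_nonneg_of_nonpos hk0.le hcon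
    linarith only [this, hka]
  have hs10 : 0 ≤ s1 := by
    rw [hs1]
    apply mul_nonneg _ hq0
    linarith only [hg0, hka]
  have hm := h.mom_class w wc a s1 hw0 hw1 hwm hc0 hc1
    (by rw [hcm]; nlinarith only [hp1, hn]) (by linarith only [ha, ha0]) q
  rw [hcm] at hm
  have hlow : (t / 2) ^ q * ∑ z, ∑ z', w z * wc z' * (if t / 2 ≤ corr f (z - z') then (1:ℝ) else 0)
      ≤ mom f w wc q := by
    unfold mom
    rw [Finset.mul_sum]
    refine Finset.sum_le_sum fun z _ => ?_
    rw [Finset.mul_sum]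
    refine Finset.sum_le_sum fun z' _ => ?_
    have hww : 0 ≤ w z * wc z' := mul_nonneg (hw0 z) (hc0 z')
    split_ifs with hc
    · have := pow_le_pow_left₀ (by positivity) hc q
      have := mul_le_mul_of_nonneg_left this hww
      linarith only [this]
    · rw [mul_zero, mul_zero]
      exact mul_nonneg hww (pow_nonneg (corr_nonneg' f h.f0 _) _)
  generalize (∑ z, ∑ z', w z * wc z' * (if t / 2 ≤ corr f (z - z') then (1:ℝ) else 0)) = B at hlow ⊢
  set θ : ℝ := Real.exp (κ * (1 + s1 - a / 2)) with hθd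
  have hθ0 : 0 < θ := Real.exp_pos _
  -- second term
  have h3 : q * (∑ x, f x) ^ q * (Real.exp (-s1) * (Y.card : ℝ) * (2 * (Y.card : ℝ)))
      ≤ (θ * t) ^ q * ((Y.card : ℝ) * (p * (Y.card : ℝ))) := by
    have e1 : (∑ x, f x) ^ q ≤ (Real.exp g * t) ^ q := pow_le_pow_left₀ hS0 h.sup _
    have e2 : (Real.exp g * t) ^ q = Real.exp (g * q) * t ^ q := by
      rw [mul_pow, ← Real.exp_nat_mul]; congr 2; ring
    have e3 : Real.exp (g * q) * Real.exp (-s1) = Real.exp (-(2 * q)) * Real.exp (-(κ * a / 2 * q)) := by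
      rw [← Real.exp_add, ← Real.exp_add, hs1]; congr 1; ring
    have e4 : 2 * (q : ℝ) * Real.exp (-(2 * q)) ≤ Real.exp (-q) := by
      have a1 := two_mul_le_exp (q : ℝ) hq0
      have a2 : 2 * (q : ℝ) * Real.exp (-(2 * q)) ≤ Real.exp q * Real.exp (-(2 * q)) :=
        mul_le_mul_of_nonneg_right a1 (Real.exp_pos _).le
      rw [← Real.exp_add] at a2
      refine a2.trans (le_of_eq ?_)
      congr 1; ring
    have e5 : Real.exp (-(q:ℝ)) ≤ p := by
      rw [Real.exp_neg]
      rw [inv_le_comm₀ (Real.exp_pos _) hp0]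
      have := Real.add_one_le_exp (q:ℝ)
      rw [one_div] at hq
      linarith only [this, hq]
    have e6 : Real.exp (-(κ * a / 2 * q)) ≤ θ ^ q := by
      rw [hθd, ← Real.exp_nat_mul]
      apply Real.exp_le_exp.mpr
      have : 0 ≤ q * (κ * (1 + s1)) := by positivity
      nlinarith only [this]
    have ht' : 0 ≤ t ^ q := by positivity
    calc q * (∑ x, f x) ^ q * (Real.exp (-s1) * (Y.card : ℝ) * (2 * (Y.card : ℝ)))
        ≤ q * (Real.exp (g * q) * t ^ q) * (Real.exp (-s1) * (Y.card : ℝ) * (2 * (Y.card : ℝ))) := by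
          rw [← e2]
          apply mul_le_mul_of_nonneg_right _ (by positivity)
          exact mul_le_mul_of_nonneg_left e1 hq0
      _ = (2 * q) * (Real.exp (g * q) * Real.exp (-s1)) * t ^ q * (Y.card : ℝ) ^ 2 := by ring
      _ = (2 * (q : ℝ) * Real.exp (-(2 * q))) * Real.exp (-(κ * a / 2 * q)) * t ^ q * (Y.card : ℝ) ^ 2 := by
          rw [e3]; ring
      _ ≤ p * θ ^ q * t ^ q * (Y.card : ℝ) ^ 2 := by
          apply mul_le_mul_of_nonneg_right _ (by positivity)
          apply mul_le_mul_of_nonneg_right _ ht'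
          exact mul_le_mul (e4.trans e5) e6 (Real.exp_pos _).le hp0.le
      _ = _ := by rw [mul_pow]; ring
  have h4 : (t / 2) ^ q * B ≤ 2 * ((θ * t) ^ q * (p * (Y.card : ℝ) ^ 2)) := by
    refine (hlow.trans hm).trans ?_
    nlinarith only [h3]
  have h5 : (θ * t) ^ q ≤ (t / 2) ^ q * Real.exp (-(κ * a * q / 8)) := by
    have e1 : 2 * θ ≤ Real.exp (-(κ * a / 8)) := by
      have a1 : (2:ℝ) ≤ Real.exp 1 := by
        have := Real.exp_one_gt_d9; linarith only [this]
      calc 2 * θ ≤ Real.exp 1 * θ := mul_le_mul_of_nonneg_right a1 hθ0.le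
        _ = Real.exp (1 + κ * (1 + s1 - a / 2)) := by rw [hθd, ← Real.exp_add]
        _ ≤ _ := by
          apply Real.exp_le_exp.mpr
          have : κ * (1 + s1 - a / 2) ≤ κ * (a / 4 - a / 2) :=
            mul_le_mul_of_nonneg_left (by linarith only [ha]) hk0.le
          linarith only [this, hka]
    have e2 : θ * t = (t / 2) * (2 * θ) := by ring
    have e3 : Real.exp (-(κ * a * q / 8)) = Real.exp (-(κ * a / 8)) ^ q := by
      rw [← Real.exp_nat_mul]; congr 1; ring
    rw [e2, mul_pow, e3]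
    apply mul_le_mul_of_nonneg_left _ (by positivity)
    exact pow_le_pow_left₀ (by positivity) e1 _
  have h6 : (t / 2) ^ q * B ≤ (t / 2) ^ q * (2 * Real.exp (-(κ * a * q / 8)) * (p * (Y.card : ℝ) ^ 2)) := by
    have := mul_le_mul_of_nonneg_right h5 (show 0 ≤ 2 * (p * (Y.card : ℝ) ^ 2) by positivity)
    nlinarith only [this, h4]
  exact le_of_mul_le_mul_left h6 (by positivity)

end Vale.Agent.P057.H57
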