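import Vale.Agent.P057.R2.h57.ShellB
import Vale.Agent.P057.R2.h57.FourB
import Vale.Agent.P057.R2.h57.CharB

set_option linter.all false

open Finset

namespace Vale.Agent.P057.H57

variable {G : Type*} [AddCommGroup G] [Fintype G] [DecidableEq G]

theorem corr_smul (f : G → ℝ) (c : ℝ) (z : G) : corr (fun x => c * f x) z = c ^ 2 * corr f z := by
  unfold corr
  rw [Finset.mul_sum]
  exact Finset.sum_congr rfl fun x _ => by ring

theorem en_smul_f (f w w' : G → ℝ) (c : ℝ) : en (fun x => c * f x) w w' = c ^ 2 * en f w w' := by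
  unfold en vv
  rw [Finset.mul_sum]
  refine Finset.sum_congr rfl fun u _ => ?_
  have h : ∀ w : G → ℝ, ∑ z, w z * (c * f (z + u)) = c * ∑ z, w z * f (z + u) := by
    intro w
    rw [Finset.mul_sum]
    exact Finset.sum_congr rfl fun x _ => by ring
  rw [h, h]; ring

theorem pot_smul (f : G → ℝ) (c κ : ℝ) (Z : Finset G) :
    pot (fun x => c * f x) κ Z = c ^ 2 * pot f κ Z := by
  unfold pot
  rw [en_smul_f]; ring

theorem sm_nonneg (A B : Finset G) (x : G) : 0 ≤ sm A B x := by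
  unfold sm
  exact div_nonneg (Finset.sum_nonneg fun _ _ => ind_nonneg _ _) (Nat.cast_nonneg _)

theorem sum_sm (A B : Finset G) (hB : B.Nonempty) : ∑ x, sm A B x = (A.card : ℝ) := by
  have hBc : (0:ℝ) < B.card := by exact_mod_cast hB.card_pos
  unfold sm
  rw [← Finset.sum_div, Finset.sum_comm]
  have h1 : ∀ b ∈ B, ∑ x, ind A (x + b) = (A.card : ℝ) := by
    intro b _
    have h := Equiv.sum_comp (Equiv.addRight b) (fun x => ind A x)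
    simp only [Equiv.coe_addRight] at h
    rw [h]
    exact mass_ind A
  rw [Finset.sum_congr rfl h1, Finset.sum_const, nsmul_eq_mul, mul_div_cancel_left₀ _ hBc.ne']

theorem sm_count (A B : Finset G) (x : G) :
    sm A B x = ((B.filter (fun b => x + b ∈ A)).card : ℝ) / B.card := by
  unfold sm ind
  rw [Finset.card_filter]
  push_cast
  rfl

theorem pot_sm_le (A B V Z : Finset G) (hB : B.Nonempty) (M κ : ℝ) (hM0 : 0 < M)
    (hsup : ∀ x, sm A B x ≤ M) (hk0 : 0 ≤ κ) (hZV : Z ⊆ V) (hZ : Z.Nonempty) :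
    pot (sm A B) κ Z ≤ M * (A.card : ℝ) * (V.card : ℝ) ^ κ := by
  have hMi : 0 < M⁻¹ := inv_pos.mpr hM0
  have h1 := pot_le (fun x => M⁻¹ * sm A B x) (fun x => mul_nonneg hMi.le (sm_nonneg A B x))
    (fun x => by rw [inv_mul_le_iff₀ hM0, mul_one]; exact hsup x) κ hk0 V Z hZV hZ
  rw [pot_smul, ← Finset.mul_sum, sum_sm A B hB] at h1
  have h2 := mul_le_mul_of_nonneg_left h1 (sq_nonneg M)
  have h3 : M ^ 2 * (M⁻¹ ^ 2 * pot (sm A B) κ Z) = pot (sm A B) κ Z := by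
    field_simp
  rw [h3] at h2
  refine h2.trans (le_of_eq ?_)
  field_simp

/-- one stage of the bootstrapping -/
theorem stage_B (Γ' : Finset (AddChar G ℂ)) (D R Rm j m J : ℕ) (A1 : Finset G)
    (ρ4 r κ ε g N Vc M P0 : ℝ) (hρ4 : 0 < ρ4) (hρ4le : ρ4 ≤ 2) (hreg4 : Regular Γ' D ρ4)
    (hA1 : A1.Nonempty) (hN : 0 < N) (hk0 : 0 < κ) (hk1 : κ ≤ 1) (hε0 : 0 < ε) (hε1 : ε ≤ 1/8)
    (hg0 : 0 ≤ g) (hJ : g + 3 ≤ 2 ^ J) (hΛ : 2 ^ 24 * (g + 3) * ((J:ℝ) + 1) * κ ≤ ε ^ 3)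
    (hm0 : 0 < m) (hgm : g ≤ κ * m) (hR1 : 1 ≤ R) (hRm : R ≤ Rm) (hd : Γ'.card + R ≤ D)
    (hR : 16 * Real.log (4 / Real.exp (-(2 ^ 28 * (g + 3) * ((J:ℝ) + 1) ^ 2 / (κ * ε ^ 3)))) < R)
    (hj : (2/3 : ℝ) ^ j ≤ 400 * ε)
    (B : Finset G) (hB : B.Nonempty) (hM0 : 0 < M) (hsup : ∀ x, sm A1 B x ≤ M)
    (hMg : M * (A1.card : ℝ) ≤ Real.exp g * N)
    (Y0 : Finset G) (hY0 : Y0.Nonempty) (hY0r : Y0 ⊆ bohr Γ' r) (hP0 : 0 < P0)
    (hpot : P0 ≤ pot (sm A1 B) κ Y0)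
    (hVc : ((bohr Γ' (r + m * ρ4)).card : ℝ) ≤ Vc) (hVP : N * Vc ^ κ ≤ P0) :
    ∃ (Γ2 : Finset (AddChar G ℂ)) (ρ' : ℝ) (Y : Finset G), Γ2.card ≤ Γ'.card + R ∧ 0 < ρ' ∧
      ρ' ≤ 2 ∧ ρ4 * (kap D)^2 / (4 * Rm * 2 ^ j) ≤ ρ' ∧ Regular Γ2 D ρ' ∧ Y.Nonempty ∧
      Y ⊆ bohr Γ' (r + m * ρ4) ∧
      (1 - 8 * ε) * P0 ≤ pot (sm A1 (bohr Γ2 ρ')) κ Y := by
  have hAp : (0:ℝ) < A1.card := by exact_mod_cast hA1.card_pos
  have hMi : 0 < M⁻¹ := inv_pos.mpr hM0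
  obtain ⟨f, hf⟩ : ∃ f : G → ℝ, f = fun x => M⁻¹ * sm A1 B x := ⟨_, rfl⟩
  have hf0 : ∀ x, 0 ≤ f x := fun x => by rw [hf]; exact mul_nonneg hMi.le (sm_nonneg A1 B x)
  have hf1 : ∀ x, f x ≤ 1 := fun x => by
    rw [hf]
    show M⁻¹ * sm A1 B x ≤ 1
    rw [inv_mul_le_iff₀ hM0, mul_one]; exact hsup x
  have hfsum : ∑ x, f x = M⁻¹ * (A1.card : ℝ) := by
    rw [hf, ← Finset.mul_sum, sum_sm A1 B hB]
  have hfpot : ∀ Z, pot f κ Z = M⁻¹ ^ 2 * pot (sm A1 B) κ Z := by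
    intro Z; rw [hf, pot_smul]
  -- nested sets
  obtain ⟨V, hV⟩ : ∃ V : ℕ → Finset G, ∀ i, V i = bohr Γ' (r + i * ρ4) := ⟨_, fun _ => rfl⟩
  have hVs : ∀ i, V i ⊆ V (i + 1) := by
    intro i
    rw [hV, hV]
    apply bohr_mono
    push_cast
    linarith only [hρ4]
  have hVmono : Monotone V := monotone_nat_of_le_succ hVs
  have hVcard : ∀ i ≤ m, ((V i).card : ℝ) ≤ Vc := by
    intro i hi
    refine le_trans ?_ hVc
    rw [← hV]
    exact_mod_cast Finset.card_le_card (hVmono hi)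
  have hVm0 : (0:ℝ) < (V m).card := by
    have : (V m).Nonempty := by
      refine hY0.mono (hY0r.trans ?_)
      rw [hV]
      apply bohr_mono
      have : 0 ≤ (m:ℝ) * ρ4 := by positivity
      linarith only [this]
    exact_mod_cast this.card_pos
  have hVc0 : 0 < Vc := lt_of_lt_of_le hVm0 (hVcard m le_rfl)
  have hVck : 0 < Vc ^ κ := Real.rpow_pos_of_pos hVc0 _
  have hP0' : 0 < M⁻¹ ^ 2 * P0 := by positivity
  obtain ⟨i, him, Y, hYV, t, hGT, hPt⟩ := exists_gtight f hf0 hf1 κ hk0 hk1 V hVs m hm0 Y0 hY0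
    (by rw [hV]; simpa using hY0r) (M⁻¹ ^ 2 * P0) g hP0'
    (by rw [hfpot]; exact mul_le_mul_of_nonneg_left hpot (sq_nonneg _))
    (by
      rw [hfsum]
      have h1 : ((V m).card : ℝ) ^ κ ≤ Vc ^ κ :=
        Real.rpow_le_rpow hVm0.le (hVcard m le_rfl) hk0.le
      have h2 : N * ((V m).card : ℝ) ^ κ ≤ P0 := (mul_le_mul_of_nonneg_left h1 hN.le).trans hVP
      have h3 : (M * (A1.card : ℝ)) * (N * ((V m).card : ℝ) ^ κ) ≤ (Real.exp g * N) * P0 :=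
        mul_le_mul hMg h2 (by positivity) (by positivity)
      have h4 : (M * (A1.card : ℝ)) * ((V m).card : ℝ) ^ κ ≤ Real.exp g * P0 := by
        have : N * ((M * (A1.card : ℝ)) * ((V m).card : ℝ) ^ κ) ≤ N * (Real.exp g * P0) := by
          linarith only [h3]
        exact le_of_mul_le_mul_left this hN
      have h5 := mul_le_mul_of_nonneg_left h4 (sq_nonneg M⁻¹)
      refine (le_of_eq ?_).trans (h5.trans (le_of_eq ?_))
      · field_simp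
      · ring)
    hgm
  have hYne := hGT.ne
  have hn : (0:ℝ) < Y.card := by exact_mod_cast hYne.card_pos
  have ht := hGT.tpos
  -- size of the ambient set
  have hYk : 0 < (Y.card : ℝ) ^ κ := Real.rpow_pos_of_pos hn _
  have hUY : ((V (i + 1)).card : ℝ) ≤ Real.exp (g / κ) * (Y.card : ℝ) := by
    refine (hVcard (i + 1) him).trans ?_
    have h1 : t ≤ M⁻¹ * (A1.card : ℝ) := by rw [← hfsum]; exact hGT.sup_ge
    have h2 : M⁻¹ ^ 2 * P0 ≤ (M⁻¹ * (A1.card : ℝ)) * (Y.card : ℝ) ^ κ :=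
      hPt.trans (mul_le_mul_of_nonneg_right h1 hYk.le)
    have h3 : P0 ≤ (M * (A1.card : ℝ)) * (Y.card : ℝ) ^ κ := by
      have h4 := mul_le_mul_of_nonneg_left h2 (sq_nonneg M)
      refine (le_of_eq ?_).trans (h4.trans (le_of_eq ?_))
      · field_simp
      · field_simp
    have h4 : N * Vc ^ κ ≤ N * (Real.exp g * (Y.card : ℝ) ^ κ) := by
      have := mul_le_mul_of_nonneg_right hMg hYk.le
      linarith only [hVP, h3, this]
    have h5 := le_of_mul_le_mul_left h4 hN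
    have h6 : Real.exp g * (Y.card : ℝ) ^ κ = (Real.exp (g / κ) * (Y.card : ℝ)) ^ κ := by
      rw [Real.mul_rpow (Real.exp_pos _).le hn.le, ← Real.exp_mul, div_mul_cancel₀ _ hk0.ne']
    rw [h6] at h5
    exact (Real.rpow_le_rpow_iff hVc0.le (by positivity) hk0).mp h5
  have hBne : (bohr Γ' ρ4).Nonempty := ⟨0, zero_mem_bohr Γ' hρ4.le⟩
  obtain ⟨T, hTB, hTne, hTcard, hTper⟩ := local_B hGT hg0 (bohr Γ' ρ4) hBne
    (by
      intro y hy s hs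
      have h1 := hYV hy
      rw [hV] at h1 ⊢
      have h2 := sub_mem_bohr h1 hs
      have e : r + (i:ℝ) * ρ4 + ρ4 = r + ((i + 1 : ℕ) : ℝ) * ρ4 := by push_cast; ring
      rwa [e] at h2) (g / κ) hUY (by rw [mul_div_cancel₀ _ hk0.ne']; linarith) J hJ ε hε0
    (by linarith only [hε1]) hΛ
  obtain ⟨Γ2, ρ', hc, hp, hle, hrad, hreg, hchar⟩ := bohr_of_T Γ' D R Rm j hR1 hRm hd T ρ4 _ ε hρ4
    hρ4le hreg4 hTne hTB (Real.exp_pos _) hTcard hR hj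
  have hYr : Y ⊆ bohr Γ' (r + m * ρ4) := by
    have h1 := hYV.trans (hVmono him.le)
    rwa [hV] at h1
  refine ⟨Γ2, ρ', Y, hc, hp, hle, hrad, hreg, hYne, hYr, ?_⟩
  -- energy
  have hB'ne : (bohr Γ2 ρ').Nonempty := ⟨0, zero_mem_bohr _ hp.le⟩
  have hcorr : ∀ z, corr f z = M⁻¹ ^ 2 * corr (sm A1 B) z := by
    intro z; rw [hf, corr_smul]
  have hMi2 : 0 < M⁻¹ ^ 2 := pow_pos hMi 2
  have hE : ∑ y ∈ Y, ∑ y' ∈ Y, corr f (y - y') = t * (Y.card : ℝ) ^ 2 := by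
    rw [← hGT.eng, en_eq_mom, mom_ind_ind]
    simp only [pow_one]
  have hE' : M⁻¹ ^ 2 * ∑ y ∈ Y, ∑ y' ∈ Y, corr (sm A1 B) (y - y') = t * (Y.card : ℝ) ^ 2 := by
    rw [← hE]
    simp only [hcorr, Finset.mul_sum]
  have hen := stage_energy A1 Y T B (bohr Γ2 ρ') hTne hB hB'ne ε _ hε0.le hε1 rfl
    (by
      intro a ha a' ha'
      have h1 := hTper a ha a' ha'
      have h2 : ∑ y ∈ Y, ∑ y' ∈ Y, corr f (y - y' + (a - a'))
          = M⁻¹ ^ 2 * ∑ y ∈ Y, ∑ y' ∈ Y, corr (sm A1 B) (y - y' + (a - a')) := by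
        simp only [hcorr, Finset.mul_sum]
      rw [h2, mul_assoc, ← hE'] at h1
      have h3 : M⁻¹ ^ 2 * ((1 - 4 * ε) * ∑ y ∈ Y, ∑ y' ∈ Y, corr (sm A1 B) (y - y'))
          ≤ M⁻¹ ^ 2 * ∑ y ∈ Y, ∑ y' ∈ Y, corr (sm A1 B) (y - y' + (a - a')) := by
        linarith only [h1]
      exact le_of_mul_le_mul_left h3 hMi2)
    hchar
  -- potential
  have hpY : ∀ B'' : Finset G, pot (sm A1 B'') κ Y
      = (∑ y ∈ Y, ∑ y' ∈ Y, corr (sm A1 B'') (y - y')) / (Y.card : ℝ) ^ 2 * (Y.card : ℝ) ^ κ := by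
    intro B''
    unfold pot
    rw [en_eq_mom, mom_ind_ind]
    simp only [pow_one]
  rw [hpY]
  have h7 : P0 ≤ pot (sm A1 B) κ Y := by
    have h8 : M⁻¹ ^ 2 * P0 ≤ M⁻¹ ^ 2 * pot (sm A1 B) κ Y := by
      rw [hpY]
      refine hPt.trans (le_of_eq ?_)
      have h9 : t = M⁻¹ ^ 2 * (∑ y ∈ Y, ∑ y' ∈ Y, corr (sm A1 B) (y - y')) / (Y.card : ℝ) ^ 2 := by
        rw [hE']; field_simp
      rw [h9]; ring
    exact le_of_mul_le_mul_left h8 hMi2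
  rw [hpY] at h7
  have h10 : (1 - 8 * ε) * P0 ≤ (1 - 8 * ε) *
      ((∑ y ∈ Y, ∑ y' ∈ Y, corr (sm A1 B) (y - y')) / (Y.card : ℝ) ^ 2 * (Y.card : ℝ) ^ κ) :=
    mul_le_mul_of_nonneg_left h7 (by linarith only [hε1])
  refine h10.trans ?_
  have h11 := mul_le_mul_of_nonneg_right hen
    (show 0 ≤ ((Y.card : ℝ) ^ 2)⁻¹ * (Y.card : ℝ) ^ κ by positivity)
  refine (le_of_eq ?_).trans (h11.trans (le_of_eq ?_))
  · rw [div_eq_mul_inv]; ring
  · rw [div_eq_mul_inv]; ring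

end Vale.Agent.P057.H57
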