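import Vale.Agent.P057.R2.h57.IncB
import Vale.Agent.P057.R2.h57.StepA

set_option linter.all false

open Finset

namespace Vale.Agent.P057.H57

/-- rank cost per unit of logarithmic density gain -/
noncomputable def bigB2 (L : ℝ) : ℝ := 2 * ratB L

/-- radius loss -/
noncomputable def bigQ (L R : ℝ) : ℝ := (KB L : ℝ) * (mB L) * R * 2 ^ (KB L + 8)

theorem bigB2_nonneg (L : ℝ) (hL : 1 ≤ L) : 0 ≤ bigB2 L := by
  have := ratB_nonneg L hL
  unfold bigB2; linarith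

theorem mB_ge (L : ℝ) (hL : 1 ≤ L) : (1:ℝ) ≤ mB L := by
  have h1 : LamB L * (L + 1) ≤ mB L := Nat.le_ceil _
  have h2 := LamB_ge L hL
  nlinarith

theorem bigQ_ge (L : ℝ) (hL : 1 ≤ L) (R : ℝ) (hR : 17 * costB L (L + 1) + 1 ≤ R) : 1 ≤ bigQ L R := by
  have h1 := KB_ge L hL
  have h2 := mB_ge L hL
  have h3 := costB_ge L (L + 1) hL (by linarith)
  have h4 : (1:ℝ) ≤ 2 ^ (KB L + 8) := one_le_pow₀ (by norm_num)
  have h5 : (1:ℝ) ≤ R := by linarith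
  have h6 : (1:ℝ) ≤ KB L := by linarith
  unfold bigQ
  calc (1:ℝ) = 1 * 1 * 1 * 1 := by norm_num
    _ ≤ (KB L : ℝ) * (mB L) * R * 2 ^ (KB L + 8) := by gcongr

theorem num_gain2 (L u : ℝ) (hL : 1 ≤ L) (heu : 104/100 ≤ Real.exp u) (huL : u ≤ L + 1) :
    1 + 1/200 ≤ (994/1000) * Real.exp u ∧
      ratB L * u ≤ bigB2 L * Real.log ((994/1000) * Real.exp u) := by
  constructor
  · linarith
  · have hu : 0.038 ≤ u := by
      have h1 : Real.log (104/100) ≤ u := by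
        rw [Real.log_le_iff_le_exp (by norm_num)]; exact heu
      have h2 := Real.one_sub_inv_le_log_of_pos (show (0:ℝ) < 104/100 by norm_num)
      norm_num at h2 ⊢
      linarith
    have hl : u - 0.0061 ≤ Real.log ((994/1000) * Real.exp u) := by
      rw [Real.log_mul (by norm_num) (Real.exp_pos _).ne', Real.log_exp]
      have h2 := Real.one_sub_inv_le_log_of_pos (show (0:ℝ) < (994/1000) by norm_num)
      norm_num at h2 ⊢
      linarith
    have h1 : u / 2 ≤ Real.log ((994/1000) * Real.exp u) := by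
      norm_num at hu hl ⊢
      linarith
    have h2 := mul_le_mul_of_nonneg_left h1 (bigB2_nonneg L hL)
    unfold bigB2 at h2 ⊢
    linarith

variable {G : Type*} [AddCommGroup G] [Fintype G] [DecidableEq G]

theorem core_B (hodd : Odd (Fintype.card G))
    (L : ℝ) (hL : 1 ≤ L) (R : ℕ) (hR : 17 * costB L (L + 1) + 1 ≤ (R : ℝ))
    (Γ : Finset (AddChar G ℂ)) (d : ℕ) (hd : Γ.card + R ≤ d) (ρ1 ρ2 : ℝ) (hρ1 : 0 < ρ1)
    (hρ12 : ρ1 ≤ 2) (hρ2 : 0 < ρ2) (h21 : 3 * ρ2 ≤ kap d * ρ1)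
    (hreg1 : Regular Γ d ρ1) (hreg2 : Regular Γ d ρ2) (α : ℝ) (hα : Real.exp (-L) ≤ α)
    (A1 : Finset G) (hA1 : A1 ⊆ bohr Γ ρ1) (hA1free : ThreeAPFree (A1 : Set G))
    (hd1 : 994/1000 * α * ((bohr Γ ρ1).card : ℝ) ≤ (A1.card : ℝ))
    (hd2 : 994/1000 * α * ((bohr Γ ρ2).card : ℝ) ≤ ((A1 ∩ bohr Γ ρ2).card : ℝ))
    (hNI : ∀ v : G, (((bohr Γ ρ2).filter (fun b => v + b ∈ A1)).card : ℝ)
      ≤ (1 + 1/200) * α * ((bohr Γ ρ2).card : ℝ))
    (hbig : 16 < α^2 * ((bohr Γ ρ1).card : ℝ)) :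
    ∃ (γ : ℝ) (Γ2 : Finset (AddChar G ℂ)) (ρ' : ℝ) (x : G), 1 + 1/200 ≤ γ ∧
      (Γ2.card : ℝ) ≤ Γ.card + bigB2 L * Real.log γ ∧ Γ2.card ≤ Γ.card + R ∧ 0 < ρ' ∧ ρ' ≤ 2 ∧
      ρ2 * (kap d)^4 / (64 * bigQ L R) ≤ ρ' ∧ Regular Γ2 d ρ' ∧
      γ * α * ((bohr Γ2 ρ').card : ℝ)
        ≤ (((bohr Γ2 ρ').filter (fun b => x + b ∈ A1)).card : ℝ) := by
  have hk0 := os_kap_pos d
  have hk1 := os_kap_le d
  have hα0 : 0 < α := lt_of_lt_of_le (Real.exp_pos _) hα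
  have hn1 : (0:ℝ) < ((bohr Γ ρ1).card : ℝ) := os_card_pos Γ hρ1.le
  have hn2 : (0:ℝ) < ((bohr Γ ρ2).card : ℝ) := os_card_pos Γ hρ2.le
  have hA1pos : (0:ℝ) < A1.card := lt_of_lt_of_le (by (clear * - hα0 hn1; positivity)) hd1
  have hA1ne : A1.Nonempty := Finset.card_pos.mp (by exact_mod_cast hA1pos)
  have hA2pos : (0:ℝ) < (A1 ∩ bohr Γ ρ2).card := lt_of_lt_of_le (by (clear * - hα0 hn2; positivity)) hd2
  have hA2ne : (A1 ∩ bohr Γ ρ2).Nonempty := Finset.card_pos.mp (by exact_mod_cast hA2pos)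
  obtain ⟨Γ', hΓ'card, hΓ'⟩ := exists_dilate hodd Γ
  have hinj : Function.Injective (fun x : G => x + x) := double_injective hodd
  have hcardeq : ∀ ρ, (bohr Γ' ρ).card = (bohr Γ ρ).card := by
    intro ρ
    rw [hΓ', Finset.card_image_of_injective _ hinj]
  obtain ⟨ρ3, h3a, h3b, hreg3⟩ := exists_regular Γ d (by omega) (ρ := kap d * ρ2 / 2) (by positivity)
  have hρ3 : 0 < ρ3 := lt_of_lt_of_le (by positivity) h3a
  have hreg3' : Regular Γ' d ρ3 := os_regular_dilate hcardeq hreg3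
  have hkρ2 : kap d * ρ2 ≤ ρ2 := by nlinarith only [hρ2, hk1]
  have hkρ1 : kap d * ρ1 ≤ ρ1 := by nlinarith only [hρ1, hk1]
  -- boundary
  have hbd : ∀ z ∈ bohr Γ (2 * ρ2), ((A1.filter (fun x => x - z ∉ bohr Γ ρ1)).card : ℝ)
      ≤ 1/1000 * (A1.card : ℝ) := by
    intro z hz
    refine le_trans (os_boundary Γ d A1 ρ1 ρ2 hρ2 h21 hreg1 hA1 ((1 + 1/200) * α)
      (by positivity) hNI z hz) ?_
    nlinarith only [hd1]
  -- p
  obtain ⟨p, hp1, hp2, hpe, hp3⟩ : ∃ p : ℕ, 8000 * L ≤ (p : ℝ) ∧ (p : ℝ) ≤ 16000 * L ∧ Even p ∧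
      8000 ≤ p := by
    refine ⟨8000 * ⌈L⌉₊, ?_, ?_, ?_, ?_⟩
    · push_cast
      have := Nat.le_ceil L
      linarith only [this]
    · push_cast
      have := (Nat.ceil_lt_add_one (by linarith only [hL] : (0:ℝ) ≤ L)).le
      linarith only [hL, this]
    · exact Even.mul_right (by decide) _
    · have : 1 ≤ ⌈L⌉₊ := Nat.one_le_ceil_iff.mpr (by linarith only [hL])
      omega
  -- moment
  have hNdef : (A1.card : ℝ)^2 / ((bohr Γ ρ1).card : ℝ) * ((bohr Γ ρ1).card : ℝ)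
      = (A1.card : ℝ)^2 := by (clear * - hn1 hA1ne; field_simp)
  have hNlow : 994/1000 * α * (A1.card : ℝ) ≤ (A1.card : ℝ)^2 / ((bohr Γ ρ1).card : ℝ) := by
    rw [le_div_iff₀ hn1]
    nlinarith only [hd1]
  generalize hNeq : (A1.card : ℝ)^2 / ((bohr Γ ρ1).card : ℝ) = N at hNdef hNlow
  have hN4 : 4 ≤ N := by
    have e1 : 994/1000 * α * (994/1000 * α * ((bohr Γ ρ1).card : ℝ)) ≤ 994/1000 * α * (A1.card : ℝ) :=
      mul_le_mul_of_nonneg_left hd1 (by positivity)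
    nlinarith only [hbig, hNlow, e1]
  have hU : ∀ y ∈ bohr Γ ρ2, ∀ b ∈ bohr Γ ρ3, ∀ b' ∈ bohr Γ ρ3,
      y - b + b' ∈ bohr Γ (ρ2 + 2 * ρ3) := by
    intro y hy b hb b' hb'
    have := add_mem_bohr (sub_mem_bohr hy hb) hb'
    have e : ρ2 + ρ3 + ρ3 = ρ2 + 2 * ρ3 := by ring
    rwa [e] at this
  obtain ⟨P, hP1, hP2, hmom⟩ := moment_from_AP A1 (A1 ∩ bohr Γ ρ2) (bohr Γ ρ1) (bohr Γ ρ2)
    (bohr Γ ρ3) (bohr Γ (ρ2 + 2 * ρ3)) hinj hA1 Finset.inter_subset_right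
    Finset.inter_subset_left (fun x hx => neg_mem_bohr hx) (fun x hx => neg_mem_bohr hx)
    ⟨0, zero_mem_bohr Γ hρ3.le⟩ hA2ne hU (os_card_narrow hρ2 hreg2 (by linarith only [h3b])) p (by omega) hpe
    (os_pow_two L hL p hp1 α _ _ hα hn2.le hd2) N hNdef hN4
    (by
      intro y hy a ha a' ha' h
      exact hA1free (by exact_mod_cast ha) (by exact_mod_cast (Finset.mem_inter.mp hy).1)
        (by exact_mod_cast ha') h)
    (by
      intro y hy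
      apply hbd
      have := add_mem_bohr (Finset.mem_inter.mp hy).2 (Finset.mem_inter.mp hy).2
      rwa [← two_mul] at this)
    (by
      intro b hb b' hb'
      apply hbd
      have := sub_mem_bohr (add_mem_bohr hb hb) (add_mem_bohr hb' hb')
      exact bohr_mono Γ (by linarith only [h3b, hkρ2]) this)
  rw [← hΓ'] at hmom
  have hP3 : (P : ℝ) ≤ 24 * 10^5 * L := by
    have : (P : ℝ) ≤ 150 * p := by exact_mod_cast hP2
    linarith only [hp2, this]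
  have hNL : Real.exp (-(L+1)) * (A1.card : ℝ) ≤ N := by
    refine le_trans ?_ hNlow
    apply mul_le_mul_of_nonneg_right _ hA1pos.le
    have e1 : Real.exp (-(L+1)) = Real.exp (-L) * Real.exp (-1) := by
      rw [← Real.exp_add]; ring_nf
    have e2 : Real.exp (-1) ≤ 994/1000 := by
      have := Real.exp_neg_one_lt_d9
      linarith only [this]
    rw [e1]
    have e3 : Real.exp (-L) * Real.exp (-1) ≤ α * (994/1000) :=
      mul_le_mul hα e2 (Real.exp_pos _).le hα0.le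
    linarith only [e3]
  obtain ⟨u, R0, Γ2, ρ', x, heu, huL, hR0, hRR, hc, hpos, hle2, hrad, hreg, hinc⟩ := inc_B Γ' d R A1
    L N ρ3 hL hR (by omega) hρ3 (by linarith only [hρ12, h21, h3b, hkρ2, hkρ1]) hreg3' hA1ne
    (by linarith only [hN4]) hNL P (by omega) hP3 hmom
  have hu0 : 0 ≤ u := by
    rw [← Real.exp_le_exp, Real.exp_zero]
    linarith only [heu]
  obtain ⟨hγ1, hγ2⟩ := num_gain2 L u hL heu huL
  refine ⟨(994/1000) * Real.exp u, Γ2, ρ', x, hγ1, ?_, by omega, hpos, hle2, ?_, hreg, ?_⟩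
  · have h1 : (Γ2.card : ℝ) ≤ Γ'.card + R0 := by exact_mod_cast hc
    have h2 : (Γ'.card : ℝ) ≤ Γ.card := by exact_mod_cast hΓ'card
    linarith only [h1, h2, hR0, hγ2]
  · refine le_trans ?_ hrad
    have hQ1 := bigQ_ge L hL R hR
    have hQpos : (0:ℝ) < bigQ L R := by linarith only [hQ1]
    have e1 : (kap d * ρ2 / 2 / 2) * (kap d)^3 / (8 * bigQ L R) ≤ ρ3 * (kap d)^3 / (8 * bigQ L R) := by
      (clear * - h3a hk0 hQpos; gcongr)
    have e2 : ρ3 * (kap d)^3 / (8 * bigQ L R)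
        = ρ3 * (kap d)^3 / (8 * (KB L) * (mB L) * R * 2 ^ (KB L + 8)) := by
      unfold bigQ
      congr 1
      ring
    rw [← e2]
    refine le_trans ?_ e1
    have e3 : (kap d * ρ2 / 2 / 2) * (kap d)^3 / (8 * bigQ L R) = 2 * (ρ2 * (kap d)^4 / (64 * bigQ L R)) := by
      (clear * - hQpos; field_simp; ring)
    rw [e3]
    have : 0 ≤ ρ2 * (kap d)^4 / (64 * bigQ L R) := by (clear * - hQpos hρ2 hk0; positivity)
    linarith only [this]
  · have e1 : ((994/1000 * α * (A1.card:ℝ)) * Real.exp u) * ((bohr Γ2 ρ').card : ℝ)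
        ≤ (A1.card : ℝ) * (((bohr Γ2 ρ').filter (fun b => x + b ∈ A1)).card : ℝ) := by
      refine le_trans ?_ hinc
      (clear * - hNlow; gcongr)
    have e2 : (A1.card : ℝ) * ((994/1000) * Real.exp u * α * ((bohr Γ2 ρ').card : ℝ))
        ≤ (A1.card : ℝ) * (((bohr Γ2 ρ').filter (fun b => x + b ∈ A1)).card : ℝ) := by
      refine le_trans (le_of_eq ?_) e1
      ring
    exact le_of_mul_le_mul_left e2 hA1pos

theorem step_B (hodd : Odd (Fintype.card G)) (A : Finset G) (hA : ThreeAPFree (A : Set G))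
    (L : ℝ) (hL : 1 ≤ L) (R : ℕ) (hR : 17 * costB L (L + 1) + 1 ≤ (R : ℝ))
    (Γ : Finset (AddChar G ℂ)) (d : ℕ) (hd : Γ.card + R ≤ d) (ρ : ℝ) (hρ : 0 < ρ) (hρ2 : ρ ≤ 2)
    (hreg : Regular Γ d ρ) (x0 : G) (α : ℝ) (hα : Real.exp (-L) ≤ α)
    (hdens : α * ((bohr Γ ρ).card : ℝ) ≤ (((bohr Γ ρ).filter (fun b => x0 + b ∈ A)).card : ℝ))
    (hbig : 16 < α^2 * ((bohr Γ (kap d * ρ / 2)).card : ℝ)) :
    ∃ (γ : ℝ) (Γ' : Finset (AddChar G ℂ)) (ρ' : ℝ) (x' : G), 1 + 1/200 ≤ γ ∧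
      (Γ'.card : ℝ) ≤ Γ.card + bigB2 L * Real.log γ ∧ 0 < ρ' ∧ ρ' ≤ 2 ∧
      ρ * (kap d)^6 / (1000 * bigQ L R) ≤ ρ' ∧ Regular Γ' d ρ' ∧
      γ * α * ((bohr Γ' ρ').card : ℝ)
        ≤ (((bohr Γ' ρ').filter (fun b => x' + b ∈ A)).card : ℝ) := by
  have hk0 := os_kap_pos d
  have hk1 := os_kap_le d
  have hα0 : 0 < α := lt_of_lt_of_le (Real.exp_pos _) hα
  have hR1 : (1:ℝ) ≤ bigQ L R := bigQ_ge L hL R hR
  have hB0 : 0 ≤ bigB2 L * Real.log (1 + 1/200) :=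
    mul_nonneg (bigB2_nonneg L hL) (Real.log_nonneg (by norm_num))
  obtain ⟨ρ1, h1a, h1b, hreg1⟩ := exists_regular Γ d (by omega) (ρ := kap d * ρ) (by positivity)
  have hρ1 : 0 < ρ1 := lt_of_lt_of_le (by positivity) h1a
  obtain ⟨ρ2, h2a, h2b, hreg2⟩ := exists_regular Γ d (by omega) (ρ := kap d * ρ1 / 3) (by positivity)
  have hρ2' : 0 < ρ2 := lt_of_lt_of_le (by positivity) h2a
  have hkρ : kap d * ρ ≤ 1 * 2 := mul_le_mul (by linarith only [hk1]) hρ2 hρ.le (by norm_num)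
  have hkρ1 : kap d * ρ1 ≤ 1 * ρ1 := mul_le_mul_of_nonneg_right (by linarith only [hk1]) hρ1.le
  have hρ12 : ρ1 ≤ 2 := by linarith only [h1b, hkρ]
  have hρ21 : ρ2 ≤ ρ1 := by linarith only [h2b, hρ2', hkρ1]
  by_contra hcon
  push Not at hcon
  -- no increment on translates of the two Bohr sets
  have hNI1 : ∀ u : G, (((bohr Γ ρ1).filter (fun b => u + b ∈ A)).card : ℝ)
      ≤ (1 + 1/200) * α * ((bohr Γ ρ1).card : ℝ) := by
    intro u
    exact (hcon (1 + 1/200) Γ ρ1 u le_rfl (by linarith only [hB0]) hρ1 hρ12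
      (os_rad1 _ _ _ _ hk0 hk1 hR1 hρ h1a) hreg1).le
  have hNI2 : ∀ u : G, (((bohr Γ ρ2).filter (fun b => u + b ∈ A)).card : ℝ)
      ≤ (1 + 1/200) * α * ((bohr Γ ρ2).card : ℝ) := by
    intro u
    exact (hcon (1 + 1/200) Γ ρ2 u le_rfl (by linarith only [hB0]) hρ2'
      (by linarith only [h1b, h2b, hkρ, hkρ1]) (os_rad2 _ _ _ _ _ hk0 hk1 hR1 hρ h1a h2a) hreg2).le
  set A0 := (bohr Γ ρ).filter (fun b => x0 + b ∈ A) with hA0
  have htr : ∀ (B : Finset G) (u : G), B.filter (fun b => u + b ∈ A0)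
      ⊆ B.filter (fun b => (x0 + u) + b ∈ A) := by
    intro B u b hb
    rw [Finset.mem_filter] at hb ⊢
    refine ⟨hb.1, ?_⟩
    have := (Finset.mem_filter.mp hb.2).2
    rwa [← add_assoc] at this
  have hNA1 : ∀ u : G, (((bohr Γ ρ1).filter (fun b => u + b ∈ A0)).card : ℝ)
      ≤ (1 + 1/200) * α * ((bohr Γ ρ1).card : ℝ) := by
    intro u
    refine le_trans ?_ (hNI1 (x0 + u))
    exact_mod_cast Finset.card_le_card (htr _ u)
  have hNA2 : ∀ u : G, (((bohr Γ ρ2).filter (fun b => u + b ∈ A0)).card : ℝ)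
      ≤ (1 + 1/200) * α * ((bohr Γ ρ2).card : ℝ) := by
    intro u
    refine le_trans ?_ (hNI2 (x0 + u))
    exact_mod_cast Finset.card_le_card (htr _ u)
  obtain ⟨u, hu1, hu2⟩ := os_find_translate Γ d A0 ρ ρ1 ρ2 α hρ hρ1 hρ2' h1b hρ21 hreg hα0
    (Finset.filter_subset _ _) hdens hNA1 hNA2
  set A1 := (bohr Γ ρ1).filter (fun b => u + b ∈ A0) with hA1
  have hA1sub : A1 ⊆ (bohr Γ ρ1).filter (fun b => (x0 + u) + b ∈ A) := htr _ u
  have hA1free : ThreeAPFree (A1 : Set G) := by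
    apply (os_free A (bohr Γ ρ1) hA (x0 + u)).mono
    exact_mod_cast hA1sub
  have hA2eq : A1 ∩ bohr Γ ρ2 = (bohr Γ ρ2).filter (fun b => u + b ∈ A0) := by
    ext b
    constructor
    · intro h
      obtain ⟨h1, h3⟩ := Finset.mem_inter.mp h
      exact Finset.mem_filter.mpr ⟨h3, (Finset.mem_filter.mp h1).2⟩
    · intro h
      obtain ⟨h3, h2⟩ := Finset.mem_filter.mp h
      exact Finset.mem_inter.mpr ⟨Finset.mem_filter.mpr ⟨bohr_mono Γ hρ21 h3, h2⟩, h3⟩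
  have hNI : ∀ v : G, (((bohr Γ ρ2).filter (fun b => v + b ∈ A1)).card : ℝ)
      ≤ (1 + 1/200) * α * ((bohr Γ ρ2).card : ℝ) := by
    intro v
    refine le_trans ?_ (hNI2 (x0 + u + v))
    have : (bohr Γ ρ2).filter (fun b => v + b ∈ A1)
        ⊆ (bohr Γ ρ2).filter (fun b => x0 + u + v + b ∈ A) := by
      intro b hb
      rw [Finset.mem_filter] at hb ⊢
      refine ⟨hb.1, ?_⟩
      have := (Finset.mem_filter.mp (hA1sub hb.2)).2
      rwa [← add_assoc] at this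
    exact_mod_cast Finset.card_le_card this
  have hbig1 : 16 < α^2 * ((bohr Γ ρ1).card : ℝ) := by
    refine lt_of_lt_of_le hbig ?_
    apply mul_le_mul_of_nonneg_left _ (by positivity)
    exact_mod_cast Finset.card_le_card (bohr_mono Γ h1a)
  obtain ⟨γ, Γ2, ρ', x, hγ1, hγ2, hc, hpos, hle2, hrad, hreg', hinc⟩ := core_B hodd L hL R hR Γ d hd ρ1 ρ2 hρ1
    hρ12 hρ2' (by linarith only [h2b]) hreg1 hreg2 α hα A1 (Finset.filter_subset _ _) hA1free hu1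
    (by rw [hA2eq]; exact hu2) hNI hbig1
  have hcon' := hcon γ Γ2 ρ' (x0 + u + x) hγ1 hγ2 hpos hle2
    (os_rad3 _ _ _ _ _ _ hk0 hR1 hρ h1a h2a hrad) hreg'
  apply absurd hinc
  rw [not_le]
  refine lt_of_le_of_lt ?_ hcon'
  have : (bohr Γ2 ρ').filter (fun b => x + b ∈ A1)
      ⊆ (bohr Γ2 ρ').filter (fun b => x0 + u + x + b ∈ A) := by
    intro b hb
    rw [Finset.mem_filter] at hb ⊢
    refine ⟨hb.1, ?_⟩
    have := (Finset.mem_filter.mp (hA1sub hb.2)).2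
    rwa [← add_assoc] at this
  exact_mod_cast Finset.card_le_card this


end Vale.Agent.P057.H57
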