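import Vale.Agent.P057.Bdl.B1

set_option linter.all false

open Finset

namespace Vale.Agent.P057.H57

variable {G : Type*} [AddCommGroup G] [Fintype G] [DecidableEq G]

/-- unnormalised smoothed vector -/
def vv (f w : G → ℝ) (u : G) : ℝ := ∑ z, w z * f (z + u)

/-- energy form -/
def en (f w w' : G → ℝ) : ℝ := ∑ u, vv f w u * vv f w' u

/-- total mass -/
def mass (w : G → ℝ) : ℝ := ∑ z, w z

/-- translate -/
def trn (w : G → ℝ) (r : G) (z : G) : ℝ := w (z - r)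

/-- moments of the correlation -/
def mom (f w w' : G → ℝ) (q : ℕ) : ℝ := ∑ z, ∑ z', w z * w' z' * corr f (z - z') ^ q

/-- sifted weight -/
def sw (f w : G → ℝ) {q : ℕ} (x : Fin q → G) (z : G) : ℝ := w z * ∏ i, f (z + x i)

theorem en_eq_mom (f w w' : G → ℝ) : en f w w' = mom f w w' 1 := by
  unfold en vv mom
  simp only [Finset.sum_mul_sum]
  rw [Finset.sum_comm]
  refine Finset.sum_congr rfl fun z _ => ?_
  rw [Finset.sum_comm]
  refine Finset.sum_congr rfl fun z' _ => ?_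
  rw [pow_one, ← sift_sum_ind_mul, Finset.mul_sum]
  refine Finset.sum_congr rfl fun u _ => ?_
  ring

theorem en_comm (f w w' : G → ℝ) : en f w w' = en f w' w := by
  unfold en
  exact Finset.sum_congr rfl fun u _ => mul_comm _ _

theorem en_nonneg (f w : G → ℝ) : 0 ≤ en f w w :=
  Finset.sum_nonneg fun u _ => mul_self_nonneg _

theorem en_sq_le (f w w' : G → ℝ) : en f w w' ^ 2 ≤ en f w w * en f w' w' := by
  unfold en
  have h := Finset.sum_mul_sq_le_sq_mul_sq (Finset.univ : Finset G) (vv f w) (vv f w')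
  simp only [sq] at h ⊢
  exact h

theorem vv_trn (f w : G → ℝ) (r u : G) : vv f (trn w r) u = vv f w (u + r) := by
  unfold vv trn
  have h := Equiv.sum_comp (Equiv.addRight r) (fun z => w (z - r) * f (z + u))
  rw [← h]
  refine Finset.sum_congr rfl fun z _ => ?_
  simp only [Equiv.coe_addRight, add_sub_cancel_right]
  congr 2
  abel

theorem en_trn (f w w' : G → ℝ) (r : G) : en f (trn w r) (trn w' r) = en f w w' := by
  unfold en
  simp only [vv_trn]
  exact Equiv.sum_comp (Equiv.addRight r) (fun u => vv f w u * vv f w' u)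

theorem mass_trn (w : G → ℝ) (r : G) : mass (trn w r) = mass w := by
  unfold mass trn
  exact Equiv.sum_comp (Equiv.subRight r) w

theorem trn_trn (w : G → ℝ) (r s : G) : trn (trn w r) s = trn w (r + s) := by
  funext z; unfold trn; congr 1; abel

theorem trn_zero (w : G → ℝ) : trn w 0 = w := by
  funext z; unfold trn; rw [sub_zero]

theorem corr_nonneg' (f : G → ℝ) (hf0 : ∀ x, 0 ≤ f x) (z : G) : 0 ≤ corr f z :=
  Finset.sum_nonneg fun x _ => mul_nonneg (hf0 _) (hf0 _)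

theorem corr_le_sum (f : G → ℝ) (hf0 : ∀ x, 0 ≤ f x) (hf1 : ∀ x, f x ≤ 1) (z : G) :
    corr f z ≤ ∑ x, f x :=
  Finset.sum_le_sum fun x _ => mul_le_of_le_one_right (hf0 _) (hf1 _)

theorem mom_nonneg (f w w' : G → ℝ) (q : ℕ) (hf0 : ∀ x, 0 ≤ f x) (hw : ∀ x, 0 ≤ w x)
    (hw' : ∀ x, 0 ≤ w' x) : 0 ≤ mom f w w' q :=
  Finset.sum_nonneg fun z _ => Finset.sum_nonneg fun z' _ =>
    mul_nonneg (mul_nonneg (hw _) (hw' _)) (pow_nonneg (corr_nonneg' f hf0 _) _)

theorem en_nonneg' (f w w' : G → ℝ) (hf0 : ∀ x, 0 ≤ f x) (hw : ∀ x, 0 ≤ w x)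
    (hw' : ∀ x, 0 ≤ w' x) : 0 ≤ en f w w' := by
  rw [en_eq_mom]; exact mom_nonneg f w w' 1 hf0 hw hw'

theorem en_le_sup (f w w' : G → ℝ) (hf0 : ∀ x, 0 ≤ f x) (hf1 : ∀ x, f x ≤ 1)
    (hw : ∀ x, 0 ≤ w x) (hw' : ∀ x, 0 ≤ w' x) :
    en f w w' ≤ (∑ x, f x) * (mass w * mass w') := by
  rw [en_eq_mom]
  unfold mom mass
  rw [Finset.sum_mul_sum, Finset.mul_sum]
  refine Finset.sum_le_sum fun z _ => ?_
  rw [Finset.mul_sum]
  refine Finset.sum_le_sum fun z' _ => ?_
  rw [pow_one, mul_comm]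
  exact mul_le_mul_of_nonneg_right (corr_le_sum f hf0 hf1 _) (mul_nonneg (hw _) (hw' _))

theorem sum_shift_f (f : G → ℝ) (z : G) : ∑ u, f (z + u) = ∑ x, f x :=
  Equiv.sum_comp (Equiv.addLeft z) f

theorem sum_mass_sw (f w : G → ℝ) (q : ℕ) :
    ∑ x : Fin q → G, mass (sw f w x) = mass w * (∑ x, f x) ^ q := by
  unfold mass sw
  rw [Finset.sum_comm, Finset.sum_mul]
  refine Finset.sum_congr rfl fun z _ => ?_
  rw [← Finset.mul_sum, ← Fintype.sum_pow (fun u => f (z + u)) q, sum_shift_f]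

theorem sum_mass_mul_sw (f w w' : G → ℝ) (q : ℕ) :
    ∑ x : Fin q → G, mass (sw f w x) * mass (sw f w' x) = mom f w w' q := by
  unfold mass sw mom
  simp only [Finset.sum_mul_sum]
  rw [Finset.sum_comm]
  refine Finset.sum_congr rfl fun z _ => ?_
  rw [Finset.sum_comm]
  refine Finset.sum_congr rfl fun z' _ => ?_
  rw [← sift_sum_pair, Finset.mul_sum]
  refine Finset.sum_congr rfl fun x _ => ?_
  ring

theorem sum_en_sw (f w w' : G → ℝ) (q : ℕ) :
    ∑ x : Fin q → G, en f (sw f w x) (sw f w' x) = mom f w w' (q + 1) := by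
  simp only [en_eq_mom]
  unfold mom sw
  rw [Finset.sum_comm]
  refine Finset.sum_congr rfl fun z _ => ?_
  rw [Finset.sum_comm]
  refine Finset.sum_congr rfl fun z' _ => ?_
  rw [pow_one, pow_succ, ← sift_sum_pair, Finset.sum_mul, Finset.mul_sum]
  refine Finset.sum_congr rfl fun x _ => ?_
  ring

theorem sw_nonneg (f w : G → ℝ) {q : ℕ} (x : Fin q → G) (hf0 : ∀ x, 0 ≤ f x)
    (hw : ∀ x, 0 ≤ w x) (z : G) : 0 ≤ sw f w x z :=
  mul_nonneg (hw _) (Finset.prod_nonneg fun _ _ => hf0 _)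

theorem sw_le (f w : G → ℝ) {q : ℕ} (x : Fin q → G) (hf0 : ∀ x, 0 ≤ f x) (hf1 : ∀ x, f x ≤ 1)
    (hw : ∀ x, 0 ≤ w x) (z : G) : sw f w x z ≤ w z :=
  mul_le_of_le_one_right (hw _) (Finset.prod_le_one (fun _ _ => hf0 _) (fun _ _ => hf1 _))

theorem mass_nonneg (w : G → ℝ) (hw : ∀ x, 0 ≤ w x) : 0 ≤ mass w :=
  Finset.sum_nonneg fun _ _ => hw _

theorem mass_ind (Y : Finset G) : mass (ind Y) = (Y.card : ℝ) := by
  unfold mass ind
  simp

theorem sum_ind_mul (Y : Finset G) (φ : G → ℝ) : ∑ z, ind Y z * φ z = ∑ y ∈ Y, φ y := by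
  unfold ind
  simp only [ite_mul, one_mul, zero_mul, Finset.sum_ite_mem, Finset.univ_inter]

theorem mom_ind_ind (f : G → ℝ) (Y Y' : Finset G) (q : ℕ) :
    mom f (ind Y) (ind Y') q = ∑ y ∈ Y, ∑ y' ∈ Y', corr f (y - y') ^ q := by
  unfold mom
  rw [← sum_ind_mul Y]
  refine Finset.sum_congr rfl fun z _ => ?_
  rw [← sum_ind_mul Y', Finset.mul_sum]
  refine Finset.sum_congr rfl fun z' _ => ?_
  ring

theorem mom_ind_trn (f : G → ℝ) (Y : Finset G) (r : G) (q : ℕ) :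
    mom f (ind Y) (trn (ind Y) r) q = ∑ y ∈ Y, ∑ y' ∈ Y, corr f (y - (y' + r)) ^ q := by
  unfold mom trn
  rw [← sum_ind_mul Y]
  refine Finset.sum_congr rfl fun z _ => ?_
  rw [← sum_ind_mul Y, Finset.mul_sum]
  have h := Equiv.sum_comp (Equiv.addRight r)
    (fun z' => ind Y z * ind Y (z' - r) * corr f (z - z') ^ q)
  rw [← h]
  refine Finset.sum_congr rfl fun z' _ => ?_
  simp only [Equiv.coe_addRight, add_sub_cancel_right]
  ring

theorem en_ind_right (f w : G → ℝ) (Y : Finset G) :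
    en f w (ind Y) = ∑ z, w z * ∑ y ∈ Y, corr f (z - y) := by
  rw [en_eq_mom]
  unfold mom
  refine Finset.sum_congr rfl fun z _ => ?_
  rw [← sum_ind_mul Y, Finset.mul_sum]
  refine Finset.sum_congr rfl fun z' _ => ?_
  ring

/-- fibres of a translate -/
theorem sw_trn (f w : G → ℝ) {q : ℕ} (x : Fin q → G) (r : G) :
    sw f (trn w r) x = trn (sw f w (fun i => x i + r)) r := by
  funext z
  unfold sw trn
  congr 1
  refine Finset.prod_congr rfl fun i _ => ?_
  have : z + x i = z - r + (x i + r) := by abel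
  rw [this]

end Vale.Agent.P057.H57
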